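import Crest.Agent.R91.Defs

/-! Row 91: elementary properties of cuts, atoms and good functions. -/

set_option autoImplicit false

open Filter Topology

namespace Crest.Agent.R91

variable {W : Type} [NormedAddCommGroup W] [NormedSpace ℝ W]

namespace Proj

variable (Pj : Proj W)

theorem PP_le {M N : ℕ} (h : M ≤ N) (w : W) : Pj.P M (Pj.P N w) = Pj.P M w := by
  rw [Pj.comp, min_eq_left h]

theorem PP_ge {M N : ℕ} (h : N ≤ M) (w : W) : Pj.P M (Pj.P N w) = Pj.P N w := by
  rw [Pj.comp, min_eq_right h]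

theorem PP_comm (M N : ℕ) (w : W) : Pj.P M (Pj.P N w) = Pj.P N (Pj.P M w) := by
  rw [Pj.comp, Pj.comp, min_comm]

theorem eq_of_le {M N : ℕ} (h : M ≤ N) {u v : W} (huv : Pj.P N u = Pj.P N v) :
    Pj.P M u = Pj.P M v := by
  rw [← Pj.PP_le h u, huv, Pj.PP_le h]

theorem norm_P_mono {M N : ℕ} (h : M ≤ N) (w : W) : ‖Pj.P M w‖ ≤ ‖Pj.P N w‖ := by
  rw [← Pj.PP_le h w]; exact Pj.norm_le _ _

theorem tail_anti {M N : ℕ} (h : M ≤ N) (w : W) : ‖w - Pj.P N w‖ ≤ ‖w - Pj.P M w‖ := by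
  have : w - Pj.P N w = (w - Pj.P M w) - Pj.P N (w - Pj.P M w) := by
    rw [map_sub, Pj.PP_ge h]; abel
  rw [this]; exact Pj.tail_le _ _

theorem tail_lip (M : ℕ) (u v : W) : |‖u - Pj.P M u‖ - ‖v - Pj.P M v‖| ≤ ‖u - v‖ := by
  refine (abs_norm_sub_norm_le _ _).trans ?_
  have : u - Pj.P M u - (v - Pj.P M v) = (u - v) - Pj.P M (u - v) := by
    rw [map_sub]; abel
  rw [this]; exact Pj.tail_le _ _

theorem tail_P (M N : ℕ) (w : W) : ‖Pj.P N w - Pj.P M (Pj.P N w)‖ ≤ ‖w - Pj.P M w‖ := by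
  rw [Pj.PP_comm, ← map_sub]; exact Pj.norm_le _ _

theorem norm_P_sub_le (M : ℕ) (u v : W) : ‖Pj.P M u - Pj.P M v‖ ≤ ‖u - v‖ := by
  rw [← map_sub]; exact Pj.norm_le _ _

theorem tail_tendsto (w : W) : Tendsto (fun M => ‖w - Pj.P M w‖) atTop (𝓝 0) := by
  have h := (tendsto_const_nhds (x := w)).sub (Pj.lim w)
  rw [sub_self] at h
  simpa using h.norm

theorem exists_compact (M : ℕ) (R : ℝ) :
    ∃ K : Set W, IsCompact K ∧ ∀ w, ‖w‖ ≤ R → Pj.P M w ∈ K := by
  classical
  obtain ⟨ι, s, e, l, -, -, hl, hP⟩ := Pj.fin M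
  let f : (s → ℝ) → W := fun c => ∑ d : s, c d • e d
  have hf : Continuous f := by
    refine continuous_finsetSum _ fun d _ => ?_
    exact (continuous_apply d).smul continuous_const
  refine ⟨f '' (Set.pi Set.univ fun _ => Set.Icc (-R) R),
    (isCompact_univ_pi fun _ => isCompact_Icc).image hf, fun w hw => ?_⟩
  refine ⟨fun d => l d w, fun d _ => ?_, ?_⟩
  · exact abs_le.mp ((hl d d.2 w).trans hw)
  · rw [hP]
    exact Finset.sum_coe_sort s (fun d => l d w • e d)

end Proj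

namespace Par

variable (pa : Par)

theorem ρ_anti : Antitone pa.ρ := by
  refine antitone_nat_of_succ_le fun j => ?_
  have := pa.ρ_half j
  have := pa.ρ_pos j
  linarith

theorem ρ_lt {j l : ℕ} (h : j < l) : 2 * pa.ρ l ≤ pa.ρ j := by
  have h1 := pa.ρ_half j
  have h2 := pa.ρ_anti (show j + 1 ≤ l from h)
  linarith

theorem ρ_le_pow (j : ℕ) : pa.ρ j ≤ pa.ρ 0 * (1 / 2) ^ j := by
  induction j with
  | zero => simp
  | succ j ih => have := pa.ρ_half j; rw [pow_succ]; linarith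

theorem ρ_tendsto : Tendsto pa.ρ atTop (𝓝 0) := by
  have h : Tendsto (fun j : ℕ => pa.ρ 0 * (1 / 2 : ℝ) ^ j) atTop (𝓝 (pa.ρ 0 * 0)) :=
    (tendsto_pow_atTop_nhds_zero_of_lt_one (by norm_num) (by norm_num)).const_mul _
  rw [mul_zero] at h
  exact squeeze_zero (fun j => (pa.ρ_pos j).le) pa.ρ_le_pow h

theorem r_anti : Antitone pa.r := by
  refine antitone_nat_of_succ_le fun j => ?_
  have h1 := pa.r_step j
  have h2 := pa.r_pos (j + 1)
  have h3 : (0 : ℝ) ≤ j := Nat.cast_nonneg j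
  nlinarith

theorem r_le_one (j : ℕ) : pa.r j ≤ 1 := (pa.r_anti (Nat.zero_le j)).trans pa.r_zero

theorem mul_r_le {l j : ℕ} (h : l < j) : (j : ℝ) * pa.r j ≤ pa.r l := by
  obtain ⟨i, rfl⟩ : ∃ i, j = i + 1 := ⟨j - 1, by omega⟩
  have h1 := pa.r_step i
  have h2 := pa.r_pos (i + 1)
  have h3 := pa.r_anti (show l ≤ i by omega)
  push_cast
  nlinarith

theorem four_r_le {l j : ℕ} (h : l < j) : 4 * pa.r j ≤ pa.r l := by
  obtain ⟨i, rfl⟩ : ∃ i, j = i + 1 := ⟨j - 1, by omega⟩
  have h1 := pa.r_step i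
  have h2 := pa.r_pos (i + 1)
  have h3 := pa.r_anti (show l ≤ i by omega)
  have h4 : (0 : ℝ) ≤ i := Nat.cast_nonneg i
  nlinarith

theorem mul_r_le_one (j : ℕ) : (j : ℝ) * pa.r j ≤ 1 := by
  rcases Nat.eq_zero_or_pos j with rfl | h
  · simp
  · exact (pa.mul_r_le h).trans pa.r_zero

theorem r_tendsto : Tendsto pa.r atTop (𝓝 0) := by
  have h : Tendsto (fun j : ℕ => 1 / (j : ℝ)) atTop (𝓝 0) := tendsto_one_div_atTop_nhds_zero_nat
  refine squeeze_zero' (Eventually.of_forall fun j => (pa.r_pos j).le) ?_ h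
  filter_upwards [eventually_gt_atTop 0] with j hj
  have h1 : (0 : ℝ) < j := by exact_mod_cast hj
  rw [le_div_iff₀ h1, mul_comm]
  exact pa.mul_r_le_one j

end Par

variable {Pj : Proj W} {pa : Par}

namespace Atom

variable {j M : ℕ} {κ : ℝ} {ι : Type} {s : Finset ι} {u v : ι → W}

theorem mono (h : Atom Pj pa j M κ s u v) {t : Finset ι} (ht : t ⊆ s) : Atom Pj pa j M κ t u v where
  le_M := h.le_M
  card_le := (Finset.card_le_card ht).trans h.card_le
  κ_nonneg := h.κ_nonneg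
  κ_le := h.κ_le
  head i hi := h.head i (ht hi)
  sep i hi i' hi' := h.sep i (ht hi) i' (ht hi')
  tail_u i hi := h.tail_u i (ht hi)
  tail_v i hi := h.tail_v i (ht hi)
  norm_u i hi := h.norm_u i (ht hi)
  norm_v i hi := h.norm_v i (ht hi)

theorem head_M (h : Atom Pj pa j M κ s u v) {N : ℕ} (hN : N ≤ M) {i : ι} (hi : i ∈ s) :
    Pj.P N (u i) = Pj.P N (v i) :=
  Pj.eq_of_le (hN.trans (pa.le_γ M)) (h.head i hi)

theorem head_j (h : Atom Pj pa j M κ s u v) {N : ℕ} (hN : N ≤ j) {i : ι} (hi : i ∈ s) :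
    Pj.P N (u i) = Pj.P N (v i) :=
  h.head_M (hN.trans h.le_M) hi

theorem tail_u' (h : Atom Pj pa j M κ s u v) {i : ι} (hi : i ∈ s) :
    ‖u i - Pj.P M (u i)‖ ≤ 2 * pa.r j := by
  have h1 := h.tail_u i hi
  have h2 := h.κ_nonneg
  have h3 := pa.r_pos j
  nlinarith

theorem tail_v' (h : Atom Pj pa j M κ s u v) {i : ι} (hi : i ∈ s) :
    ‖v i - Pj.P M (v i)‖ ≤ 2 * pa.r j := by
  have h1 := h.tail_v i hi
  have h2 := h.κ_nonneg
  have h3 := pa.r_pos j
  nlinarith

/-- The squares of the tails beyond `N ≤ M` almost agree. -/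
theorem quad (h : Atom Pj pa j M κ s u v) {N : ℕ} (hN : N ≤ M) {i : ι} (hi : i ∈ s) :
    |‖u i - Pj.P N (u i)‖ ^ 2 - ‖v i - Pj.P N (v i)‖ ^ 2| ≤ 4 * pa.r j * ‖u i - v i‖ := by
  have := Pj.quad N M (u i) (v i) (2 * pa.r j) hN (h.head_M le_rfl hi) (h.tail_u' hi) (h.tail_v' hi)
  linarith

end Atom

theorem abs_le_of_sum_sq {ι : Type} {s : Finset ι} {x : ι → ℝ} {A : ℝ} (hA : 0 ≤ A)
    (h : ∑ i ∈ s, x i ^ 2 ≤ A ^ 2) {i : ι} (hi : i ∈ s) : |x i| ≤ A := by
  have h1 : x i ^ 2 ≤ ∑ i ∈ s, x i ^ 2 :=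
    Finset.single_le_sum (f := fun i => x i ^ 2) (fun _ _ => sq_nonneg _) hi
  exact abs_le_of_sq_le_sq' (h1.trans h) hA |> abs_le.mpr

/-- A sum of terms with `|y i| ≤ L * d i` is at most `card * L * A`. -/
theorem sum_le_card {ι : Type} {s : Finset ι} {a d y : ι → ℝ} {A L : ℝ} {j : ℕ} (hA : 0 ≤ A)
    (hL : 0 ≤ L) (hj : s.card ≤ j) (hd : ∀ i ∈ s, 0 ≤ d i)
    (h : ∑ i ∈ s, (a i * d i) ^ 2 ≤ A ^ 2) (hy : ∀ i ∈ s, |y i| ≤ L * d i) :
    ∑ i ∈ s, a i * y i ≤ j * L * A := by
  have h1 : ∀ i ∈ s, a i * y i ≤ L * A := by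
    intro i hi
    have h2 := abs_le_of_sum_sq (x := fun i => a i * d i) hA h hi
    have h3 : |a i * d i| = |a i| * d i := by rw [abs_mul, abs_of_nonneg (hd i hi)]
    calc a i * y i ≤ |a i * y i| := le_abs_self _
      _ = |a i| * |y i| := abs_mul _ _
      _ ≤ |a i| * (L * d i) := mul_le_mul_of_nonneg_left (hy i hi) (abs_nonneg _)
      _ = L * (|a i| * d i) := by ring
      _ ≤ L * A := mul_le_mul_of_nonneg_left (h3 ▸ h2) hL
  calc ∑ i ∈ s, a i * y i ≤ s.card • (L * A) := Finset.sum_le_card_nsmul _ _ _ h1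
    _ = s.card * (L * A) := by rw [nsmul_eq_mul]
    _ ≤ j * (L * A) := by
        refine mul_le_mul_of_nonneg_right ?_ (mul_nonneg hL hA)
        exact_mod_cast hj
    _ = j * L * A := by ring

theorem kappa_le {κ x y : ℝ} (h0 : 0 ≤ κ) (h1 : κ ≤ 1) (hy : 0 ≤ y) (h : x ≤ y) : κ * x ≤ y := by
  nlinarith

namespace Good

variable {C C' : ℝ} {f g : W → ℝ}

theorem mono (h : Good Pj pa C f) (hC : C ≤ C') : Good Pj pa C' f where
  nonneg := h.nonneg.trans hC
  lip u v := (h.lip u v).trans (mul_le_mul_of_nonneg_right hC (norm_nonneg _))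
  atom j M κ ι s u v hA a A h0 hs :=
    (h.atom j M κ ι s u v hA a A h0 hs).trans (mul_le_mul_of_nonneg_right hC h0)

theorem const (c : ℝ) : Good Pj pa 0 (fun _ => c) where
  nonneg := le_rfl
  lip u v := by simp
  atom j M κ ι s u v hA a A h0 hs := by simp

theorem add (hf : Good Pj pa C f) (hg : Good Pj pa C' g) :
    Good Pj pa (C + C') (fun w => f w + g w) where
  nonneg := add_nonneg hf.nonneg hg.nonneg
  lip u v := by
    have h1 := hf.lip u v
    have h2 := hg.lip u v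
    have h3 : f u + g u - (f v + g v) = (f u - f v) + (g u - g v) := by ring
    rw [h3]
    have := abs_add_le (f u - f v) (g u - g v)
    linarith
  atom j M κ ι s u v hA a A h0 hs := by
    have h1 := hf.atom j M κ ι s u v hA a A h0 hs
    have h2 := hg.atom j M κ ι s u v hA a A h0 hs
    have h3 : ∑ i ∈ s, a i * (f (u i) + g (u i) - (f (v i) + g (v i))) =
        ∑ i ∈ s, a i * (f (u i) - f (v i)) + ∑ i ∈ s, a i * (g (u i) - g (v i)) := by
      rw [← Finset.sum_add_distrib]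
      exact Finset.sum_congr rfl fun i _ => by ring
    rw [h3]; linarith

theorem smul (hf : Good Pj pa C f) (c : ℝ) : Good Pj pa (|c| * C) (fun w => c * f w) where
  nonneg := mul_nonneg (abs_nonneg _) hf.nonneg
  lip u v := by
    rw [← mul_sub, abs_mul, mul_assoc]
    exact mul_le_mul_of_nonneg_left (hf.lip u v) (abs_nonneg _)
  atom j M κ ι s u v hA a A h0 hs := by
    have h1 := hf.atom j M κ ι s u v hA (fun i => a i * c) (|c| * A)
      (mul_nonneg (abs_nonneg _) h0) (by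
        have : ∑ i ∈ s, (a i * c * ‖u i - v i‖) ^ 2 =
            c ^ 2 * ∑ i ∈ s, (a i * ‖u i - v i‖) ^ 2 := by
          rw [Finset.mul_sum]
          exact Finset.sum_congr rfl fun i _ => by ring
        rw [this, mul_pow, sq_abs]
        exact mul_le_mul_of_nonneg_left hs (sq_nonneg _))
    have h3 : ∑ i ∈ s, a i * (c * f (u i) - c * f (v i)) =
        ∑ i ∈ s, a i * c * (f (u i) - f (v i)) :=
      Finset.sum_congr rfl fun i _ => by ring
    rw [h3]; linarith

theorem neg (hf : Good Pj pa C f) : Good Pj pa C (fun w => -f w) := by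
  have := hf.smul (-1)
  simpa using this

theorem sub (hf : Good Pj pa C f) (hg : Good Pj pa C' g) :
    Good Pj pa (C + C') (fun w => f w - g w) := by
  simpa [sub_eq_add_neg] using hf.add hg.neg

theorem sub_const (hf : Good Pj pa C f) (c : ℝ) : Good Pj pa C (fun w => f w - c) := by
  simpa using hf.sub (const c)

theorem const_sub (hf : Good Pj pa C f) (c : ℝ) : Good Pj pa C (fun w => c - f w) := by
  simpa using (const c).sub hf

theorem sum {α : Type*} {t : Finset α} {F : α → W → ℝ} {c : α → ℝ}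
    (h : ∀ x ∈ t, Good Pj pa (c x) (F x)) :
    Good Pj pa (∑ x ∈ t, c x) (fun w => ∑ x ∈ t, F x w) := by
  classical
  induction t using Finset.induction_on with
  | empty => simpa using const (Pj := Pj) (pa := pa) 0
  | insert x t hx ih =>
    simp only [Finset.sum_insert hx]
    exact (h x (Finset.mem_insert_self _ _)).add
      (ih fun y hy => h y (Finset.mem_insert_of_mem hy))

theorem continuous (hf : Good Pj pa C f) : Continuous f := by
  have : LipschitzWith ⟨C, hf.nonneg⟩ f := by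
    refine LipschitzWith.of_dist_le_mul fun u v => ?_
    rw [Real.dist_eq, dist_eq_norm]
    exact hf.lip u v
  exact this.continuous

/-- Good functions are closed under pointwise limits. -/
theorem of_tendsto {α : Type*} {l : Filter α} [l.NeBot] {F : α → W → ℝ}
    (hF : ∀ᶠ x in l, Good Pj pa C (F x))
    (hlim : ∀ w, Tendsto (fun x => F x w) l (𝓝 (g w))) : Good Pj pa C g where
  nonneg := by obtain ⟨x, hx⟩ := hF.exists; exact hx.nonneg
  lip u v := by
    refine le_of_tendsto ((hlim u).sub (hlim v)).abs ?_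
    filter_upwards [hF] with x hx using hx.lip u v
  atom j M κ ι s u v hA a A h0 hs := by
    have h1 : Tendsto (fun x => κ * ∑ i ∈ s, a i * (F x (u i) - F x (v i))) l
        (𝓝 (κ * ∑ i ∈ s, a i * (g (u i) - g (v i)))) :=
      (tendsto_finsetSum _ fun i _ => ((hlim _).sub (hlim _)).const_mul _).const_mul _
    refine le_of_tendsto h1 ?_
    filter_upwards [hF] with x hx using hx.atom j M κ ι s u v hA a A h0 hs

theorem of_forall_pos (h : ∀ ε : ℝ, 0 < ε → Good Pj pa (C + ε) f) : Good Pj pa C f := by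
  have h1 : Tendsto (fun ε : ℝ => C + ε) (𝓝[>] 0) (𝓝 C) := by
    have : Tendsto (fun ε : ℝ => C + ε) (𝓝 0) (𝓝 (C + 0)) :=
      (continuous_const.add continuous_id).tendsto 0
    rw [add_zero] at this
    exact this.mono_left nhdsWithin_le_nhds
  have h2 : ∀ᶠ ε : ℝ in 𝓝[>] 0, Good Pj pa (C + ε) f := by
    filter_upwards [self_mem_nhdsWithin] with ε hε using h ε hε
  refine ⟨?_, fun u v => ?_, fun j M κ ι s u v hA a A h0 hs => ?_⟩
  · refine ge_of_tendsto h1 ?_
    filter_upwards [h2] with ε hε using hε.nonneg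
  · refine ge_of_tendsto (h1.mul_const _) ?_
    filter_upwards [h2] with ε hε using hε.lip u v
  · refine ge_of_tendsto (h1.mul_const _) ?_
    filter_upwards [h2] with ε hε using hε.atom j M κ ι s u v hA a A h0 hs

/-- Composition with a cut keeps the constant. -/
theorem comp_P (hf : Good Pj pa C f) (N : ℕ) : Good Pj pa C (fun w => f (Pj.P N w)) where
  nonneg := hf.nonneg
  lip u v := (hf.lip _ _).trans (mul_le_mul_of_nonneg_left (Pj.norm_P_sub_le N u v) hf.nonneg)
  atom j M κ ι s u v hA a A h0 hs := by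
    rcases le_total N j with hN | hN
    · have : ∑ i ∈ s, a i * (f (Pj.P N (u i)) - f (Pj.P N (v i))) = 0 :=
        Finset.sum_eq_zero fun i hi => by rw [hA.head_j hN hi]; simp
      rw [this, mul_zero]
      exact mul_nonneg hf.nonneg h0
    · refine hf.atom j M κ ι s (fun i => Pj.P N (u i)) (fun i => Pj.P N (v i)) ?_ a A h0 ?_
      · refine ⟨hA.le_M, hA.card_le, hA.κ_nonneg, hA.κ_le, fun i hi => ?_, fun i hi i' hi' hne => ?_,
          fun i hi => (Pj.tail_P _ _ _).trans (hA.tail_u i hi),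
          fun i hi => (Pj.tail_P _ _ _).trans (hA.tail_v i hi),
          fun i hi => (Pj.norm_le _ _).trans (hA.norm_u i hi),
          fun i hi => (Pj.norm_le _ _).trans (hA.norm_v i hi)⟩
        · rw [Pj.PP_comm, hA.head i hi, Pj.PP_comm]
        · rw [← map_sub, Pj.PP_le hN]
          exact hA.sep i hi i' hi' hne
      · refine le_trans (Finset.sum_le_sum fun i _ => ?_) hs
        rw [mul_pow, mul_pow]
        refine mul_le_mul_of_nonneg_left ?_ (sq_nonneg _)
        exact pow_le_pow_left₀ (norm_nonneg _) (Pj.norm_P_sub_le _ _ _) 2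

end Good

/-- On an atom of level `j` a Lipschitz function costs `j * L`. -/
theorem atom_lip {j M : ℕ} {κ : ℝ} {ι : Type} {s : Finset ι} {u v : ι → W}
    (hA : Atom Pj pa j M κ s u v) {f : W → ℝ} {L : ℝ} (hL : 0 ≤ L)
    (hf : ∀ u v, |f u - f v| ≤ L * ‖u - v‖) {a : ι → ℝ} {A : ℝ} (h0 : 0 ≤ A)
    (hs : ∑ i ∈ s, (a i * ‖u i - v i‖) ^ 2 ≤ A ^ 2) :
    ∑ i ∈ s, a i * (f (u i) - f (v i)) ≤ j * L * A :=
  sum_le_card h0 hL hA.card_le (fun _ _ => norm_nonneg _) hs fun _ _ => hf _ _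

/-- On an atom of level `j ≥ N` a function of `P N w` costs nothing. -/
theorem atom_dep {j M : ℕ} {κ : ℝ} {ι : Type} {s : Finset ι} {u v : ι → W}
    (hA : Atom Pj pa j M κ s u v) {f : W → ℝ} {N : ℕ} (hN : N ≤ j)
    (hf : ∀ w, f (Pj.P N w) = f w) (a : ι → ℝ) :
    ∑ i ∈ s, a i * (f (u i) - f (v i)) = 0 :=
  Finset.sum_eq_zero fun i hi => by rw [← hf (u i), ← hf (v i), hA.head_j hN hi]; simp

theorem good_of_lip_dep {f : W → ℝ} {L : ℝ} {N : ℕ} (hL : 0 ≤ L)
    (hf : ∀ u v, |f u - f v| ≤ L * ‖u - v‖) (hN : ∀ w, f (Pj.P N w) = f w) :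
    Good Pj pa ((N + 1) * L) f where
  nonneg := by positivity
  lip u v := by
    refine (hf u v).trans (mul_le_mul_of_nonneg_right ?_ (norm_nonneg _))
    have : (0 : ℝ) ≤ N := Nat.cast_nonneg N
    nlinarith
  atom j M κ ι s u v hA a A h0 hs := by
    refine kappa_le hA.κ_nonneg hA.κ_le (by positivity) ?_
    rcases le_total N j with h | h
    · rw [atom_dep hA h hN]; positivity
    · refine (atom_lip hA hL hf h0 hs).trans ?_
      have : (j : ℝ) ≤ N + 1 := by exact_mod_cast h.trans (Nat.le_succ N)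
      gcongr

namespace Good

variable {C C' : ℝ} {f g : W → ℝ}

/-- Multiplying the coefficients of an atom by bounded numbers. -/
theorem atom_mul (hf : Good Pj pa C f) {j M : ℕ} {κ : ℝ} {ι : Type} {s : Finset ι} {u v : ι → W}
    (hA : Atom Pj pa j M κ s u v) {a b : ι → ℝ} {A B : ℝ} (h0 : 0 ≤ A) (hB : 0 ≤ B)
    (hs : ∑ i ∈ s, (a i * ‖u i - v i‖) ^ 2 ≤ A ^ 2) (hb : ∀ i ∈ s, |b i| ≤ B) :
    κ * ∑ i ∈ s, a i * b i * (f (u i) - f (v i)) ≤ C * (B * A) := by
  refine hf.atom j M κ ι s u v hA (fun i => a i * b i) (B * A) (mul_nonneg hB h0) ?_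
  calc ∑ i ∈ s, (a i * b i * ‖u i - v i‖) ^ 2
      ≤ ∑ i ∈ s, B ^ 2 * (a i * ‖u i - v i‖) ^ 2 := by
        refine Finset.sum_le_sum fun i hi => ?_
        have h1 : b i ^ 2 ≤ B ^ 2 := by
          rw [← sq_abs]; exact pow_le_pow_left₀ (abs_nonneg _) (hb i hi) 2
        calc (a i * b i * ‖u i - v i‖) ^ 2 = b i ^ 2 * (a i * ‖u i - v i‖) ^ 2 := by ring
          _ ≤ _ := mul_le_mul_of_nonneg_right h1 (sq_nonneg _)
    _ = B ^ 2 * ∑ i ∈ s, (a i * ‖u i - v i‖) ^ 2 := by rw [Finset.mul_sum]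
    _ ≤ B ^ 2 * A ^ 2 := mul_le_mul_of_nonneg_left hs (sq_nonneg _)
    _ = (B * A) ^ 2 := by ring

/-- The product rule for bounded good functions. -/
theorem mul {A₁ A₂ : ℝ} (hf : Good Pj pa C f) (hg : Good Pj pa C' g) (h1 : ∀ w, |f w| ≤ A₁)
    (h2 : ∀ w, |g w| ≤ A₂) : Good Pj pa (A₂ * C + A₁ * C') (fun w => f w * g w) := by
  have hA1 : 0 ≤ A₁ := (abs_nonneg _).trans (h1 0)
  have hA2 : 0 ≤ A₂ := (abs_nonneg _).trans (h2 0)
  have hC := hf.nonneg
  have hC' := hg.nonneg
  refine ⟨by positivity, fun u v => ?_, fun j M κ ι s u v hA a A h0 hs => ?_⟩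
  · have h3 : f u * g u - f v * g v = g u * (f u - f v) + f v * (g u - g v) := by ring
    rw [h3]
    refine (abs_add_le _ _).trans ?_
    rw [abs_mul, abs_mul, add_mul, mul_assoc, mul_assoc]
    exact add_le_add (mul_le_mul (h2 u) (hf.lip u v) (abs_nonneg _) hA2)
      (mul_le_mul (h1 v) (hg.lip u v) (abs_nonneg _) hA1)
  · have h3 : ∑ i ∈ s, a i * (f (u i) * g (u i) - f (v i) * g (v i)) =
        ∑ i ∈ s, a i * g (u i) * (f (u i) - f (v i)) +
          ∑ i ∈ s, a i * f (v i) * (g (u i) - g (v i)) := by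
      rw [← Finset.sum_add_distrib]
      exact Finset.sum_congr rfl fun i _ => by ring
    have h4 := hf.atom_mul hA h0 hA2 hs (b := fun i => g (u i)) fun i _ => h2 _
    have h5 := hg.atom_mul hA h0 hA1 hs (b := fun i => f (v i)) fun i _ => h1 _
    rw [h3]; nlinarith

/-- The product rule with a cutoff: the factor `f` is only evaluated where the cutoff lives. -/
theorem mul_cut {φ : W → ℝ} (hf : Good Pj pa C f) (hφ : ∀ w, |φ w| ≤ 1) (hC' : 0 ≤ C')
    (hlip : ∀ u v, φ u ≠ 0 → |f u| * |φ u - φ v| ≤ C' * ‖u - v‖)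
    (hat : ∀ (j M : ℕ) (κ : ℝ) (ι : Type) (s : Finset ι) (u v : ι → W), Atom Pj pa j M κ s u v →
      ∀ (a : ι → ℝ) (A : ℝ), 0 ≤ A → ∑ i ∈ s, (a i * ‖u i - v i‖) ^ 2 ≤ A ^ 2 →
      ∀ p : ι → W, (∀ i ∈ s, (p i = u i ∨ p i = v i) ∧ φ (p i) ≠ 0) →
        κ * ∑ i ∈ s, a i * (f (p i) * (φ (u i) - φ (v i))) ≤ C' * A) :
    Good Pj pa (C + C') (fun w => f w * φ w) := by
  classical
  have hC := hf.nonneg
  have key : ∀ u v, φ u ≠ 0 → |f u * φ u - f v * φ v| ≤ (C + C') * ‖u - v‖ := by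
    intro u v hu
    have h3 : f u * φ u - f v * φ v = φ v * (f u - f v) + f u * (φ u - φ v) := by ring
    rw [h3]
    refine (abs_add_le _ _).trans ?_
    rw [abs_mul, abs_mul, add_mul]
    refine add_le_add ?_ (hlip u v hu)
    have := mul_le_mul (hφ v) (hf.lip u v) (abs_nonneg _) zero_le_one
    linarith
  refine ⟨by positivity, fun u v => ?_, fun j M κ ι s u v hA a A h0 hs => ?_⟩
  · by_cases hu : φ u = 0
    · by_cases hv : φ v = 0
      · simp only [hu, hv, mul_zero, sub_self, abs_zero]; positivity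
      · rw [abs_sub_comm, norm_sub_rev]; exact key v u hv
    · exact key u v hu
  · let p : ι → W := fun i => if φ (u i) ≠ 0 then u i else v i
    let b : ι → ℝ := fun i => if φ (u i) ≠ 0 then φ (v i) else φ (u i)
    let t := s.filter fun i => φ (p i) ≠ 0
    have h3 : ∑ i ∈ s, a i * (f (u i) * φ (u i) - f (v i) * φ (v i)) =
        ∑ i ∈ s, a i * b i * (f (u i) - f (v i)) +
          ∑ i ∈ t, a i * (f (p i) * (φ (u i) - φ (v i))) := by
      rw [Finset.sum_filter, ← Finset.sum_add_distrib]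
      refine Finset.sum_congr rfl fun i _ => ?_
      by_cases hu : φ (u i) = 0
      · by_cases hv : φ (v i) = 0
        · simp [p, b, hu, hv]
        · simp [p, b, hu, hv]
      · simp only [p, b, hu, ne_eq, not_false_eq_true, if_true]; ring
    have h4 := hf.atom_mul hA h0 zero_le_one hs (b := b) fun i _ => by
      by_cases hu : φ (u i) = 0
      · simp [b, hu]
      · simpa [b, hu] using hφ _
    have h5 := hat j M κ ι t u v (hA.mono (Finset.filter_subset _ _)) a A h0
      (le_trans (Finset.sum_le_sum_of_subset_of_nonneg (Finset.filter_subset _ _)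
        fun _ _ _ => sq_nonneg _) hs) p fun i hi => ⟨by
          by_cases hu : φ (u i) = 0
          · right; simp [p, hu]
          · left; simp [p, hu], (Finset.mem_filter.mp hi).2⟩
    rw [h3]; nlinarith

/-- Translation by a vector of the head costs little. -/
theorem translate (hf : Good Pj pa C f) {m : ℕ} {x : W} (hx : Pj.P m x = x) :
    Good Pj pa (C + ‖x‖ * (m / pa.r m + 1) * C) (fun w => f (w + x)) := by
  have hC := hf.nonneg
  have hrm := pa.r_pos m
  have hx0 := norm_nonneg x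
  refine ⟨by positivity, fun u v => ?_, fun j M κ ι s u v hA a A h0 hs => ?_⟩
  · have h1 := hf.lip (u + x) (v + x)
    rw [add_sub_add_right_eq_sub] at h1
    refine h1.trans (mul_le_mul_of_nonneg_right ?_ (norm_nonneg _))
    have : 0 ≤ ‖x‖ * (m / pa.r m + 1) * C := by positivity
    linarith
  · rcases Nat.eq_zero_or_pos j with rfl | hj
    · have : s = ∅ := Finset.card_eq_zero.mp (Nat.le_zero.mp hA.card_le)
      subst this
      simp only [Finset.sum_empty, mul_zero]; positivity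
    have hj1 : (1 : ℝ) ≤ j := by exact_mod_cast hj
    have hrj := pa.r_pos j
    have hrj1 := pa.r_le_one j
    -- the loss in the weight
    obtain ⟨y, hy0, hyj, hyt, hyc⟩ : ∃ y : ℝ, 0 ≤ y ∧ ‖x‖ ≤ y * j ∧
        (∀ w, ‖w + x - Pj.P M (w + x)‖ ≤ ‖w - Pj.P M w‖ + y * pa.r j) ∧
        y * j ≤ ‖x‖ * (m / pa.r m + 1) := by
      rcases le_or_gt m M with hm | hm
      · refine ⟨‖x‖ / j, by positivity, by field_simp; exact le_rfl, fun w => ?_, ?_⟩
        · have : w + x - Pj.P M (w + x) = w - Pj.P M w := by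
            rw [map_add, ← hx, Pj.PP_ge hm]; abel
          rw [this]
          have : 0 ≤ ‖x‖ / j * pa.r j := by positivity
          linarith
        · have h1 : ‖x‖ / j * j = ‖x‖ := by field_simp
          have h2 : 0 ≤ ‖x‖ * (m / pa.r m) := by positivity
          rw [h1]; linarith
      · refine ⟨‖x‖ / pa.r j, by positivity, ?_, fun w => ?_, ?_⟩
        · rw [div_mul_eq_mul_div, le_div_iff₀ hrj]
          exact mul_le_mul_of_nonneg_left (hrj1.trans hj1) hx0
        · have : w + x - Pj.P M (w + x) = (w - Pj.P M w) + (x - Pj.P M x) := by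
            rw [map_add]; abel
          rw [this, div_mul_cancel₀ _ hrj.ne']
          exact (norm_add_le _ _).trans (add_le_add le_rfl (Pj.tail_le _ _))
        · have hjm : j ≤ m := hA.le_M.trans hm.le
          have h1 : (j : ℝ) / pa.r j ≤ m / pa.r m :=
            div_le_div₀ (Nat.cast_nonneg m) (by exact_mod_cast hjm) hrm (pa.r_anti hjm)
          calc ‖x‖ / pa.r j * j = ‖x‖ * (j / pa.r j) := by ring
            _ ≤ ‖x‖ * (m / pa.r m + 1) := mul_le_mul_of_nonneg_left (by linarith) hx0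
    have hs' : ∑ i ∈ s, (a i * ‖u i + x - (v i + x)‖) ^ 2 ≤ A ^ 2 := by
      simpa only [add_sub_add_right_eq_sub] using hs
    have hlip : ∑ i ∈ s, a i * (f (u i + x) - f (v i + x)) ≤ j * C * A :=
      sum_le_card h0 hC hA.card_le (fun _ _ => norm_nonneg _) hs' fun _ _ => hf.lip _ _
    have hfin : y * (j * C * A) ≤ ‖x‖ * (m / pa.r m + 1) * C * A := by
      have := mul_le_mul_of_nonneg_right hyc (mul_nonneg hC h0)
      linarith
    have hCA : 0 ≤ C * A := mul_nonneg hC h0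
    have hjCA : 0 ≤ j * C * A := by positivity
    rcases le_total κ y with hκ | hκ
    · have h1 : κ * ∑ i ∈ s, a i * (f (u i + x) - f (v i + x)) ≤ κ * (j * C * A) :=
        mul_le_mul_of_nonneg_left hlip hA.κ_nonneg
      have h2 : κ * (j * C * A) ≤ y * (j * C * A) := mul_le_mul_of_nonneg_right hκ hjCA
      linarith
    · have hA' : Atom Pj pa j M (κ - y) s (fun i => u i + x) (fun i => v i + x) := by
        refine ⟨hA.le_M, hA.card_le, by linarith, by linarith [hA.κ_le], fun i hi => ?_,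
          fun i hi i' hi' hne => ?_, fun i hi => ?_, fun i hi => ?_, fun i hi => ?_, fun i hi => ?_⟩
        · rw [map_add, map_add, hA.head i hi]
        · rw [add_sub_add_right_eq_sub]; exact hA.sep i hi i' hi' hne
        · have := hyt (u i); have := hA.tail_u i hi; linarith
        · have := hyt (v i); have := hA.tail_v i hi; linarith
        · have := norm_add_le (u i) x; have := hA.norm_u i hi; linarith
        · have := norm_add_le (v i) x; have := hA.norm_v i hi; linarith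
      have h1 := hf.atom j M (κ - y) ι s _ _ hA' a A h0 hs'
      have h2 := mul_le_mul_of_nonneg_left hlip hy0
      linarith

end Good

namespace WUC

variable {ζ : ℕ → (W → ℝ) →ₗ[ℝ] ℝ} {CW : ℝ}

theorem nonneg (h : WUC Pj pa ζ CW) : 0 ≤ CW := by
  have := h.sum_le 1 _ ((Good.const 0).mono zero_le_one) ∅
  simpa using this

theorem abs_le (h : WUC Pj pa ζ CW) {C : ℝ} {f : W → ℝ} (hf : Good Pj pa C f) (k : ℕ) :
    |ζ k f| ≤ CW * C := by
  simpa using h.sum_le C f hf {k}

theorem const (h : WUC Pj pa ζ CW) (k : ℕ) (c : ℝ) : ζ k (fun _ => c) = 0 := by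
  have := h.abs_le (Good.const c) k
  simpa using this

theorem comp_P (h : WUC Pj pa ζ CW) {C : ℝ} {f : W → ℝ} (hf : Good Pj pa C f) (k : ℕ) :
    Tendsto (fun N => ζ k (fun w => f (Pj.P N w))) atTop (𝓝 (ζ k f)) :=
  h.cont k C (fun N w => f (Pj.P N w)) f (fun N => hf.comp_P N) fun w =>
    (hf.continuous.tendsto w).comp (Pj.lim w)

theorem tendsto_zero (h : WUC Pj pa ζ CW) {C : ℝ} {f : W → ℝ} (hf : Good Pj pa C f) :
    Tendsto (fun k => ζ k f) atTop (𝓝 0) := by
  have h1 : Summable fun k => |ζ k f| :=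
    summable_of_sum_le (fun _ => abs_nonneg _) (h.sum_le C f hf)
  exact (tendsto_zero_iff_abs_tendsto_zero _).mpr h1.tendsto_atTop_zero

end WUC

/-- One of the two signs does not lose anything. -/
theorem abs_add_add_abs_sub (a b : ℝ) : 2 * |a| ≤ |a + b| + |a - b| ∧ 2 * |b| ≤ |a + b| + |a - b| := by
  constructor
  · have := abs_add_le (a + b) (a - b)
    rw [show a + b + (a - b) = 2 * a by ring, abs_mul] at this
    simpa using this
  · have := abs_sub (a + b) (a - b)
    rw [show a + b - (a - b) = 2 * b by ring, abs_mul] at this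
    simpa using this

end Crest.Agent.R91
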