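import Crest.Agent.R91.Escape

/-! Row 91: reduction to functions with small sup norm and small tail slope. -/

set_option autoImplicit false

open Filter Topology

namespace Crest.Agent.R91

variable {W : Type} [NormedAddCommGroup W] [NormedSpace ℝ W] {Pj : Proj W} {pa : Par}
  {ζ : ℕ → (W → ℝ) →ₗ[ℝ] ℝ} {CW : ℝ}

omit [NormedAddCommGroup W] [NormedSpace ℝ W] in
theorem zeta_sub (ζ : (W → ℝ) →ₗ[ℝ] ℝ) (f g : W → ℝ) : ζ (fun w => f w - g w) = ζ f - ζ g :=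
  map_sub ζ f g

theorem stage0 (hW : WUC Pj pa ζ CW) {c : ℝ} (hc : 0 < c)
    (hn : ∀ k, ∃ f, Good Pj pa 1 f ∧ c ≤ ζ k f) (N : ℕ) (R : ℝ) {σ : ℝ} (hσ : 0 < σ) (K : ℕ) :
    ∃ k, K ≤ k ∧ ∃ f : W → ℝ, Good Pj pa 2 f ∧ f 0 = 0 ∧ c / 2 ≤ ζ k f ∧
      ∀ w, ‖w‖ ≤ R → |f (Pj.P N w)| ≤ σ := by
  choose g₀ hg₀ hζ₀ using hn
  let g : ℕ → W → ℝ := fun k w => g₀ k w - g₀ k 0
  have hg : ∀ k, Good Pj pa 1 (g k) := fun k => (hg₀ k).sub_const _
  have hζ : ∀ k, c ≤ ζ k (g k) := fun k => by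
    rw [zeta_sub (ζ k) (g₀ k) (fun _ => g₀ k 0), hW.const, sub_zero]; exact hζ₀ k
  have hlim : ∀ w, ∃ x : ℝ, Tendsto (fun k => g k w) (hyperfilter ℕ) (𝓝 x) := by
    intro w
    obtain ⟨x, -, hx⟩ := (isCompact_Icc (a := -‖w‖) (b := ‖w‖)).ultrafilter_le_nhds
      ((hyperfilter ℕ).map fun k => g k w) (by
        rw [le_principal_iff]
        refine mem_map.mpr (Eventually.of_forall fun k => ?_)
        have := (hg₀ k).lip w 0
        rw [sub_zero, one_mul] at this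
        exact abs_le.mp this)
    exact ⟨x, hx⟩
  choose G hG using hlim
  have hGg : Good Pj pa 1 G := Good.of_tendsto (Eventually.of_forall hg) hG
  have hG0 : G 0 = 0 := by
    refine tendsto_nhds_unique (hG 0) (tendsto_const_nhds.congr fun k => ?_)
    simp [g]
  obtain ⟨Kc, hKc, hmem⟩ := Pj.exists_compact N R
  obtain ⟨T, -, hT, hcov⟩ := finite_cover_balls_of_compact hKc (show 0 < σ / 4 by linarith)
  have e1 : ∀ᶠ k in (hyperfilter ℕ : Filter ℕ), ∀ x ∈ T, |g k x - G x| < σ / 2 := by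
    refine (eventually_all_finite hT).mpr fun x _ => ?_
    have := (tendsto_iff_norm_sub_tendsto_zero.mp (hG x))
    exact this.eventually (gt_mem_nhds (by linarith))
  have e2 : ∀ᶠ k in (hyperfilter ℕ : Filter ℕ), K ≤ k :=
    Nat.hyperfilter_le_atTop (eventually_ge_atTop _)
  have e3 : ∀ᶠ k in (hyperfilter ℕ : Filter ℕ), ζ k G < c / 2 :=
    Nat.hyperfilter_le_atTop ((hW.tendsto_zero hGg).eventually (gt_mem_nhds (by linarith)))
  obtain ⟨k, hk1, hk2, hk3⟩ := (e1.and (e2.and e3)).exists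
  have hf : Good Pj pa 2 (fun w => g k w - G w) := ((hg k).sub hGg).mono (by norm_num)
  refine ⟨k, hk2, fun w => g k w - G w, hf, by simp [g, hG0], ?_, fun w hw => ?_⟩
  · rw [zeta_sub]; linarith [hζ k]
  · obtain ⟨x, hx, hxw⟩ := Set.mem_iUnion₂.mp (hcov (hmem w hw))
    rw [Metric.mem_ball, dist_eq_norm] at hxw
    have h1 := hf.lip (Pj.P N w) x
    have h2 := hk1 x hx
    have h3 := abs_add_le (g k (Pj.P N w) - G (Pj.P N w) - (g k x - G x)) (g k x - G x)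
    rw [sub_add_cancel] at h3
    linarith

theorem abs_mul_cut_le (x lo hi t : ℝ) : |x * cut lo hi t| ≤ |x| := by
  rw [abs_mul]
  exact mul_le_of_le_one_right (abs_nonneg _) (abs_cut_le _ _ _)

theorem abs_sub_mul_cut_le (x lo hi t : ℝ) : |x - x * cut lo hi t| ≤ |x| := by
  rw [show x - x * cut lo hi t = x * (1 - cut lo hi t) by ring, abs_mul]
  refine mul_le_of_le_one_right (abs_nonneg _) (abs_le.mpr ⟨?_, ?_⟩)
  · linarith [cut_le_one lo hi t]
  · linarith [cut_nonneg lo hi t]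

theorem stage2 (hW : WUC Pj pa ζ CW) {c : ℝ} (hc : 0 < c)
    (hn : ∀ k, ∃ f, Good Pj pa 1 f ∧ c ≤ ζ k f) :
    ∃ R : ℝ, ∀ σ : ℝ, 0 < σ → ∀ K : ℕ, ∃ k, K ≤ k ∧ ∃ h : W → ℝ, Good Pj pa 322 h ∧
      (∀ w, R ≤ ‖w‖ → h w = 0) ∧ (∀ w, |h w| ≤ σ) ∧ c / 8 ≤ ζ k h := by
  obtain ⟨R, K₀, hR, hK₀⟩ := escape_ball hW 20 (show 0 < c / 4 by linarith)
  have hlt : R < 2 * R := by linarith
  refine ⟨2 * R, fun σ hσ K => ?_⟩
  obtain ⟨l, hl1, hl2⟩ := ((pa.r_tendsto.eventually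
    (gt_mem_nhds (show 0 < σ / 19 by linarith))).and (eventually_ge_atTop 1)).exists
  have hr := pa.r_pos l
  have hl0 : (0 : ℝ) < l := by exact_mod_cast hl2
  have hlt' : pa.r l / 2 < pa.r l := by linarith
  obtain ⟨M₁, K₁, hK₁⟩ := escape_tail hW (18 + 322) (4 * R) (show 0 < pa.r l / 2 by linarith)
    (show 0 < c / 8 by linarith)
  set M := max M₁ l with hM
  obtain ⟨k, hk, f, hf, hf0, hfc, hfs⟩ := stage0 hW hc hn (pa.γ M) (2 * R)
    (show 0 < pa.r l / l by positivity) (max K (max K₀ K₁))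
  let f₁ : W → ℝ := fun w => f w * cut R (2 * R) ‖w‖
  have hf₁ : Good Pj pa 18 f₁ := (hf.mul_ball hf0 hR).mono (by norm_num)
  have hz₁ : ∀ w, 2 * R ≤ ‖w‖ → f₁ w = 0 := fun w hw => by
    simp only [f₁, cut_eq_zero hlt hw, mul_zero]
  have hb₁ : ∀ w, |f₁ w| ≤ 4 * R := by
    intro w
    rcases le_total (2 * R) ‖w‖ with hw | hw
    · rw [hz₁ w hw, abs_zero]; linarith
    · refine (abs_mul_cut_le _ _ _ _).trans ?_
      have := hf.lip w 0
      rw [hf0, sub_zero, sub_zero] at this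
      linarith
  have hc₁ : c / 4 ≤ ζ k f₁ := by
    have h1 := hK₀ k (((le_max_left _ _).trans (le_max_right _ _)).trans hk)
      (fun w => f w - f₁ w) ((hf.sub hf₁).mono (by norm_num)) fun w hw => by
        simp only [f₁, cut_eq_one hlt hw.le, mul_one, sub_self]
    rw [zeta_sub] at h1
    linarith [(abs_le.mp h1).2]
  have hs₁ : ∀ w, |f₁ (Pj.P (pa.γ M) w)| ≤ pa.r l / l := by
    intro w
    rcases le_total (2 * R) ‖Pj.P (pa.γ M) w‖ with hw | hw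
    · rw [hz₁ _ hw, abs_zero]; positivity
    · refine (abs_mul_cut_le _ _ _ _).trans ?_
      have := hfs _ hw
      rwa [Pj.PP_le le_rfl] at this
  have hh := (hf₁.mul_refined hl2 (le_max_right M₁ l) hs₁).mono
    (show 17 * 18 + 16 ≤ (322 : ℝ) by norm_num)
  refine ⟨k, (le_max_left _ _).trans hk, _, hh, fun w hw => ?_, fun w => ?_, ?_⟩
  · rw [hz₁ w hw, zero_mul]
  · rcases le_total (pa.r l) ‖w - Pj.P M w‖ with hw | hw
    · rw [cut_eq_zero hlt' hw, mul_zero, abs_zero]; exact hσ.le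
    · refine (abs_mul_cut_le _ _ _ _).trans ((hf₁.abs_le_of_tail hl2 hs₁ hw).trans ?_)
      linarith
  · have h1 := hK₁ k (((le_max_right _ _).trans (le_max_right _ _)).trans hk)
      _ (hf₁.sub hh) (fun w => (abs_sub_mul_cut_le _ _ _ _).trans (hb₁ w)) fun w hw => by
        rw [cut_eq_one hlt' ((Pj.tail_anti (le_max_left M₁ l) w).trans hw.le), mul_one, sub_self]
    rw [zeta_sub] at h1
    linarith [(abs_le.mp h1).2]

/-- A maximal separated family. -/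
theorem exists_net {α : Type*} (Bad : α → Prop) (far : α → α → Prop)
    (hsymm : ∀ a b, far a b → far b a) (q : ℕ)
    (hq : ∀ T : Finset α, (∀ a ∈ T, Bad a) → (∀ a ∈ T, ∀ b ∈ T, a ≠ b → far a b) → T.card ≤ q) :
    ∃ T : Finset α, (∀ a ∈ T, Bad a) ∧ T.card ≤ q ∧ ∀ a, Bad a → a ∈ T ∨ ∃ b ∈ T, ¬ far a b := by
  classical
  let Q : ℕ → Prop := fun n => ∃ T : Finset α, (∀ a ∈ T, Bad a) ∧
    (∀ a ∈ T, ∀ b ∈ T, a ≠ b → far a b) ∧ T.card = n
  have h0 : Q 0 := ⟨∅, by simp, by simp, rfl⟩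
  obtain ⟨T, hT1, hT2, hT3⟩ := Nat.findGreatest_spec (P := Q) (Nat.zero_le q) h0
  refine ⟨T, hT1, hq T hT1 hT2, fun a ha => ?_⟩
  by_contra hcon
  push Not at hcon
  obtain ⟨haT, hfar⟩ := hcon
  have h1 : ∀ b ∈ insert a T, Bad b := fun b hb => by
    rcases Finset.mem_insert.mp hb with rfl | hb
    exacts [ha, hT1 b hb]
  have h2 : ∀ b ∈ insert a T, ∀ b' ∈ insert a T, b ≠ b' → far b b' := fun b hb b' hb' hne => by
    rcases Finset.mem_insert.mp hb with hb | hb <;> rcases Finset.mem_insert.mp hb' with hb' | hb'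
    · exact absurd (hb.trans hb'.symm) hne
    · rw [hb]; exact hfar b' hb'
    · rw [hb']; exact hsymm _ _ (hfar b hb)
    · exact hT2 b hb b' hb' hne
  have h3 := Nat.le_findGreatest (P := Q) (hq _ h1 h2) ⟨_, h1, h2, rfl⟩
  rw [Finset.card_insert_of_notMem haT] at h3
  omega

/-- Few separated pairs have a large slope. -/
theorem card_bad_le {C η : ℝ} {f : W → ℝ} (hf : Good Pj pa C f) (hη : 0 < η) {q j M : ℕ}
    (hq : C ^ 2 < η ^ 2 * (q + 1)) (hqj : q + 1 ≤ j) (hjM : j ≤ M) (T : Finset (W × W))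
    (hT : ∀ b ∈ T, Pj.P (pa.γ M) b.1 = Pj.P (pa.γ M) b.2 ∧ η * ‖b.1 - b.2‖ < |f b.1 - f b.2| ∧
      ‖b.1 - Pj.P M b.1‖ ≤ pa.r j ∧ ‖b.2 - Pj.P M b.2‖ ≤ pa.r j ∧ ‖b.1‖ ≤ j ∧ ‖b.2‖ ≤ j)
    (hsep : ∀ a ∈ T, ∀ b ∈ T, a ≠ b → pa.ρ j ≤ ‖Pj.P j (a.1 - b.1)‖) : T.card ≤ q := by
  by_contra hcon
  obtain ⟨t, htT, htc⟩ := Finset.exists_subset_card_eq (show q + 1 ≤ T.card by omega)
  have hA : Atom Pj pa j M 1 t Prod.fst Prod.snd :=
    ⟨hjM, htc.le.trans hqj, zero_le_one, le_rfl, fun b hb => (hT b (htT hb)).1,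
      fun a ha b hb hne => hsep a (htT ha) b (htT hb) hne,
      fun b hb => by have := (hT b (htT hb)).2.2.1; linarith,
      fun b hb => by have := (hT b (htT hb)).2.2.2.1; linarith,
      fun b hb => by have := (hT b (htT hb)).2.2.2.2.1; linarith,
      fun b hb => by have := (hT b (htT hb)).2.2.2.2.2; linarith⟩
  have hd : ∀ b ∈ t, 0 < ‖b.1 - b.2‖ := by
    intro b hb
    refine norm_pos_iff.mpr (sub_ne_zero.mpr fun h => ?_)
    have := (hT b (htT hb)).2.1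
    rw [h] at this
    simp at this
  have hq0 : (0 : ℝ) < q + 1 := by positivity
  let a : W × W → ℝ := fun b => (if 0 ≤ f b.1 - f b.2 then 1 else -1) / ‖b.1 - b.2‖
  have h1 := hf.atom j M 1 _ t Prod.fst Prod.snd hA a (√(q + 1)) (Real.sqrt_nonneg _) (by
    rw [Real.sq_sqrt hq0.le]
    have : ∀ b ∈ t, (a b * ‖b.1 - b.2‖) ^ 2 = 1 := by
      intro b hb
      simp only [a]
      rw [div_mul_cancel₀ _ (hd b hb).ne']
      split_ifs <;> norm_num
    rw [Finset.sum_congr rfl this]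
    simp [htc])
  have h2 : ∀ b ∈ t, η ≤ a b * (f b.1 - f b.2) := by
    intro b hb
    have h3 := (hT b (htT hb)).2.1
    simp only [a]
    rw [div_mul_eq_mul_div, le_div_iff₀ (hd b hb)]
    split_ifs with h
    · rw [abs_of_nonneg h] at h3; linarith
    · rw [abs_of_neg (not_le.mp h)] at h3; linarith
  have h3 := Finset.card_nsmul_le_sum t _ η h2
  rw [htc, nsmul_eq_mul] at h3
  push_cast at h3
  rw [one_mul] at h1
  have h4 := pow_le_pow_left₀ (by positivity) (h3.trans h1) 2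
  rw [mul_pow, mul_pow, Real.sq_sqrt hq0.le] at h4
  nlinarith

theorem good_mult {C σ Λ : ℝ} {h π : W → ℝ} {j : ℕ} (hh : Good Pj pa C h) (hσ : ∀ w, |h w| ≤ σ)
    (hπ : ∀ w, |π w| ≤ 1) (hΛ : 0 ≤ Λ) (hlip : ∀ u v, |π u - π v| ≤ Λ * ‖u - v‖)
    (hdep : ∀ w, π (Pj.P j w) = π w) (hs : σ * ((j + 1) * Λ) ≤ 1) :
    Good Pj pa (C + 1) (fun w => π w * h w) :=
  ((good_of_lip_dep hΛ hlip hdep).mul hh hπ hσ).mono (by linarith)

/-- Removing finitely many cylinders. -/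
theorem remove_cyl {α : Type*} {C σ ε : ℝ} {h : W → ℝ} {j k q : ℕ} (hh : Good Pj pa C h)
    (hσ : ∀ w, |h w| ≤ σ) (hs : σ * ((j + 1) * ((q + 1) / pa.ρ j)) ≤ 1) (y : α → W)
    (T : Finset α) (hT : T.card ≤ q)
    (hε : ∀ b ∈ T, ∀ f : W → ℝ, Good Pj pa (C + 1) f →
      (∀ w, f w ≠ 0 → ‖Pj.P j (w - y b)‖ ≤ 2 * pa.ρ j) → |ζ k f| ≤ ε) :
    ∃ π : W → ℝ, (∀ w, |π w| ≤ 1) ∧ (∀ u v, |π u - π v| ≤ T.card / pa.ρ j * ‖u - v‖) ∧
      (∀ w, π (Pj.P j w) = π w) ∧ (∀ b ∈ T, ∀ w, ‖Pj.P j (w - y b)‖ ≤ pa.ρ j → π w = 0) ∧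
      ζ k h - T.card * ε ≤ ζ k (fun w => π w * h w) := by
  classical
  have hρ := pa.ρ_pos j
  have hlt : pa.ρ j < 2 * pa.ρ j := by linarith
  have hσ0 : 0 ≤ σ := (abs_nonneg _).trans (hσ 0)
  induction T using Finset.induction_on with
  | empty => exact ⟨fun _ => 1, by simp, by simp, by simp, by simp, by simp⟩
  | insert b T hb ih =>
    rw [Finset.card_insert_of_notMem hb] at hT ⊢
    obtain ⟨π, h1, h2, h3, h4, h5⟩ := ih (by omega) fun b' hb' =>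
      hε b' (Finset.mem_insert_of_mem hb')
    let χ : W → ℝ := fun w => cut (pa.ρ j) (2 * pa.ρ j) ‖Pj.P j (w - y b)‖
    have hχ : ∀ u v, |χ u - χ v| ≤ 1 / pa.ρ j * ‖u - v‖ := by
      intro u v
      refine (cut_lip hlt _ _).trans ?_
      rw [show 2 * pa.ρ j - pa.ρ j = pa.ρ j by ring, one_div_mul_eq_div]
      refine div_le_div_of_nonneg_right ((abs_norm_sub_norm_le _ _).trans ?_) hρ.le
      have := Pj.norm_P_sub_le j (u - y b) (v - y b)
      rwa [sub_sub_sub_cancel_right] at this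
    have hχd : ∀ w, χ (Pj.P j w) = χ w := fun w => by
      simp only [χ, map_sub, Pj.PP_le le_rfl]
    have hprod : ∀ ψ : W → ℝ, (∀ w, |ψ w| ≤ 1) → (∀ u v, |ψ u - ψ v| ≤ 1 / pa.ρ j * ‖u - v‖) →
        (∀ w, |π w * ψ w| ≤ 1) ∧
        ∀ u v, |π u * ψ u - π v * ψ v| ≤ ((T.card + 1 : ℕ) : ℝ) / pa.ρ j * ‖u - v‖ := by
      intro ψ hψ1 hψ2
      refine ⟨fun w => ?_, fun u v => ?_⟩
      · rw [abs_mul]; exact mul_le_one₀ (h1 w) (abs_nonneg _) (hψ1 w)
      · have := lip_mul_cut (f := π) (φ := ψ) (C' := 1 / pa.ρ j) (by positivity) (by positivity) h2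
          hψ1 (fun u v _ => by
            have := mul_le_mul (h1 u) (hψ2 u v) (abs_nonneg _) zero_le_one
            linarith) u v
        refine this.trans (le_of_eq ?_)
        push_cast; ring
    have hχ1 : ∀ w, |1 - χ w| ≤ 1 := fun w => by
      have := abs_sub_mul_cut_le 1 (pa.ρ j) (2 * pa.ρ j) ‖Pj.P j (w - y b)‖
      rwa [one_mul, abs_one] at this
    obtain ⟨a1, a2⟩ := hprod χ (fun w => abs_cut_le _ _ _) hχ
    obtain ⟨b1, b2⟩ := hprod (fun w => 1 - χ w) hχ1 fun u v => by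
      rw [show 1 - χ u - (1 - χ v) = -(χ u - χ v) by ring, abs_neg]; exact hχ u v
    refine ⟨fun w => π w * (1 - χ w), b1, b2, fun w => by simp only [h3, hχd],
      fun b' hb' w hw => ?_, ?_⟩
    · rcases Finset.mem_insert.mp hb' with rfl | hb'
      · simp only [χ, cut_eq_one hlt hw, sub_self, mul_zero]
      · simp only [h4 b' hb' w hw, zero_mul]
    · have hg := good_mult (j := j) hh hσ a1 (by positivity) a2
        (fun w => by simp only [h3, hχd]) (by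
          refine le_trans (mul_le_mul_of_nonneg_left ?_ hσ0) hs
          have : ((T.card + 1 : ℕ) : ℝ) ≤ q + 1 := by exact_mod_cast hT.trans (Nat.le_succ q)
          gcongr)
      have h6 := hε b (Finset.mem_insert_self _ _) _ hg fun w hw =>
        (lt_of_cut_ne_zero hlt (right_ne_zero_of_mul (left_ne_zero_of_mul hw))).le
      have h7 : (fun w => π w * (1 - χ w) * h w) =
          fun w => π w * h w - π w * χ w * h w := by ext w; ring
      rw [h7, zeta_sub]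
      push_cast
      linarith [(abs_le.mp h6).2]

theorem stage3 (hW : WUC Pj pa ζ CW) {C c R : ℝ} (hc : 0 < c)
    (h2 : ∀ σ : ℝ, 0 < σ → ∀ K : ℕ, ∃ k, K ≤ k ∧ ∃ h : W → ℝ, Good Pj pa C h ∧
      (∀ w, R ≤ ‖w‖ → h w = 0) ∧ (∀ w, |h w| ≤ σ) ∧ c ≤ ζ k h) :
    Stage3 Pj pa ζ (C + 1 + 1) (c / 2) := by
  intro η hη
  obtain ⟨q, hq⟩ := exists_nat_gt ((C + 1) ^ 2 / η ^ 2)
  have hq' : (C + 1) ^ 2 < η ^ 2 * (q + 1) := by
    rw [div_lt_iff₀ (by positivity)] at hq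
    nlinarith [sq_nonneg η]
  have hq0 : (0 : ℝ) < q + 1 := by positivity
  obtain ⟨n, hn⟩ := escape_cyl hW (C + 1 + 1) (R + 1) (show 0 < c / (4 * (q + 1)) by positivity)
  obtain ⟨nR, hnR⟩ := exists_nat_ge (R + 1)
  set j := max n (max (q + 1) nR) with hj
  have hjn : n ≤ j := le_max_left _ _
  have hjq : q + 1 ≤ j := (le_max_left _ _).trans (le_max_right _ _)
  have hjR : R + 1 ≤ j := hnR.trans (by
    exact_mod_cast (le_max_right (q + 1) nR).trans (le_max_right n _))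
  have hr := pa.r_pos (j + 1)
  have hr1 := pa.r_le_one (j + 1)
  have hρ := pa.ρ_pos j
  have hlo : 0 < pa.r (j + 1) / 2 := by linarith
  have hlt : pa.r (j + 1) / 2 < pa.r (j + 1) := by linarith
  obtain ⟨K₁, hK₁⟩ := good_cut_tail Pj pa hlo hlt
  have hK₁0 : 0 ≤ K₁ := (hK₁ 0).nonneg
  obtain ⟨M₁, K₀, hK₀⟩ := escape_tail hW (C + (C + 1)) 1 hlo (show 0 < c / 4 by linarith)
  set M := max M₁ j with hM
  have hjM : j ≤ M := le_max_right _ _
  refine ⟨pa.γ M, fun σ hσ K => ?_⟩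
  -- a small sup norm
  obtain ⟨τ, hτ0, hτσ, hτ1, hτK, hτρ, hτr⟩ : ∃ τ : ℝ, 0 < τ ∧ τ ≤ σ ∧ τ ≤ 1 ∧ τ * K₁ ≤ 1 ∧
      τ * ((j + 1) * ((q + 1) / pa.ρ j)) ≤ 1 ∧ 2 * τ ≤ η * pa.r (j + 1) := by
    have e0 : ∀ᶠ τ : ℝ in 𝓝[>] 0, 0 < τ := self_mem_nhdsWithin
    have e : ∀ (a b : ℝ), 0 < b → ∀ᶠ τ : ℝ in 𝓝[>] 0, τ * a ≤ b := by
      intro a b hb
      have h1 : Tendsto (fun τ : ℝ => τ * a) (𝓝 0) (𝓝 (0 * a)) :=
        (continuous_id.mul continuous_const).tendsto 0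
      rw [zero_mul] at h1
      exact nhdsWithin_le_nhds (h1.eventually (ge_mem_nhds hb))
    obtain ⟨τ, a0, a1, a2, a3, a4, a5⟩ := (e0.and ((e 1 σ hσ).and ((e 1 1 one_pos).and
      ((e K₁ 1 one_pos).and ((e ((j + 1) * ((q + 1) / pa.ρ j)) 1 one_pos).and
        (e 2 (η * pa.r (j + 1)) (by positivity))))))).exists
    exact ⟨τ, a0, by linarith, by linarith, a3, a4, by linarith⟩
  obtain ⟨k, hk, h, hh, hz, hb, hζ⟩ := h2 τ hτ0 (max K (max n K₀))
  have hkn : n ≤ k := ((le_max_left _ _).trans (le_max_right _ _)).trans hk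
  have hkK : K₀ ≤ k := ((le_max_right _ _).trans (le_max_right _ _)).trans hk
  let h' : W → ℝ := fun w => h w * cut (pa.r (j + 1) / 2) (pa.r (j + 1)) ‖w - Pj.P M w‖
  have hh' : Good Pj pa (C + 1) h' :=
    (hh.mul (hK₁ M) hb fun w => abs_cut_le _ _ _).mono (by linarith)
  have hb' : ∀ w, |h' w| ≤ τ := fun w => (abs_mul_cut_le _ _ _ _).trans (hb w)
  have hζ' : c - c / 4 ≤ ζ k h' := by
    have h1 := hK₀ k hkK _ (hh.sub hh')
      (fun w => ((abs_sub_mul_cut_le _ _ _ _).trans (hb w)).trans hτ1) fun w hw => by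
        simp only [h']
        rw [cut_eq_one hlt ((Pj.tail_anti (le_max_left M₁ j) w).trans hw.le), mul_one, sub_self]
    rw [zeta_sub] at h1
    linarith [(abs_le.mp h1).2]
  have hsupp : ∀ w, h' w ≠ 0 → ‖w‖ ≤ R ∧ ‖w - Pj.P M w‖ ≤ pa.r (j + 1) := fun w hw =>
    ⟨by
      by_contra h1
      exact left_ne_zero_of_mul hw (hz w (not_le.mp h1).le),
    (lt_of_cut_ne_zero hlt (right_ne_zero_of_mul hw)).le⟩
  let Bad : W × W → Prop := fun b =>
    Pj.P (pa.γ M) b.1 = Pj.P (pa.γ M) b.2 ∧ η * ‖b.1 - b.2‖ < |h' b.1 - h' b.2|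
  have hBad : ∀ b, Bad b → ‖b.1 - Pj.P M b.1‖ ≤ pa.r j ∧ ‖b.2 - Pj.P M b.2‖ ≤ pa.r j ∧
      ‖b.1‖ ≤ R + 1 ∧ ‖b.2‖ ≤ R + 1 := by
    rintro ⟨u, v⟩ ⟨-, hb2⟩
    simp only at hb2 ⊢
    have h1 := abs_sub (h' u) (h' v)
    have h3 := hb' u
    have h4 := hb' v
    have hd : ‖u - v‖ ≤ pa.r (j + 1) := by
      refine le_of_mul_le_mul_left ?_ hη
      linarith
    have h5 := abs_le.mp (Pj.tail_lip M u v)
    have h6 := abs_le.mp (abs_norm_sub_norm_le u v)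
    have h7 := pa.four_r_le (Nat.lt_succ_self j)
    by_cases hu : h' u = 0
    · have hv : h' v ≠ 0 := by
        intro hv
        rw [hu, hv, sub_self, abs_zero] at hb2
        exact absurd hb2 (not_lt.mpr (by positivity))
      obtain ⟨h8, h9⟩ := hsupp v hv
      exact ⟨by linarith [h5.2], by linarith, by linarith [h6.2], by linarith⟩
    · obtain ⟨h8, h9⟩ := hsupp u hu
      exact ⟨by linarith, by linarith [h5.1], by linarith, by linarith [h6.1]⟩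
  obtain ⟨T, hT1, hT2, hT3⟩ := exists_net Bad (fun a b => pa.ρ j ≤ ‖Pj.P j (a.1 - b.1)‖)
    (fun a b hab => by rwa [← neg_sub, map_neg, norm_neg]) q fun T hT hsep =>
      card_bad_le hh' hη hq' hjq hjM T (fun b hb => by
        obtain ⟨a1, a2, a3, a4⟩ := hBad b (hT b hb)
        exact ⟨(hT b hb).1, (hT b hb).2, a1, a2, a3.trans hjR, a4.trans hjR⟩) hsep
  obtain ⟨π, p1, p2, p3, p4, p5⟩ := remove_cyl (ζ := ζ) (k := k) (ε := c / (4 * (q + 1))) hh' hb' hτρ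
    Prod.fst T hT2 fun b hb f hf hfs => hn j hjn k hkn b.1 (hBad b (hT1 b hb)).2.2.1 f hf hfs
  have hTq : (T.card : ℝ) ≤ q + 1 := by exact_mod_cast hT2.trans (Nat.le_succ q)
  refine ⟨k, (le_max_left _ _).trans hk, fun w => π w * h' w, ?_, fun w => ?_, fun u v huv => ?_, ?_⟩
  · refine good_mult (j := j) hh' hb' p1 (by positivity) p2 p3 ?_
    refine le_trans (mul_le_mul_of_nonneg_left ?_ hτ0.le) hτρ
    gcongr
  · rw [abs_mul]
    have := mul_le_mul (p1 w) (hb' w) (abs_nonneg _) zero_le_one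
    linarith
  · have hπ : π u = π v := by
      rw [← p3 u, ← p3 v, Pj.eq_of_le (hjM.trans (pa.le_γ M)) huv]
    show |π u * h' u - π v * h' v| ≤ η * ‖u - v‖
    rw [← hπ, ← mul_sub, abs_mul]
    by_cases hbad : Bad (u, v)
    · have : π u = 0 := by
        rcases hT3 _ hbad with h1 | ⟨b, hb1, hb2⟩
        · exact p4 _ h1 u (by simpa using hρ.le)
        · exact p4 b hb1 u (not_le.mp hb2).le
      rw [this, abs_zero, zero_mul]; positivity
    · have h1 : |h' u - h' v| ≤ η * ‖u - v‖ := by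
        by_contra h1
        exact hbad ⟨huv, not_le.mp h1⟩
      have := mul_le_mul (p1 u) h1 (abs_nonneg _) zero_le_one
      linarith
  · have h1 : (T.card : ℝ) * (c / (4 * (q + 1))) ≤ c / 4 := by
      refine (mul_le_mul_of_nonneg_right hTq (by positivity)).trans (le_of_eq ?_)
      field_simp
    linarith

theorem claimNoWUC (hM : ClaimMart) : ClaimNoWUC := by
  intro W _ _ Pj pa ζ CW c hW hc hn
  obtain ⟨R, hR⟩ := stage2 hW hc hn
  have h3 := stage3 hW (show 0 < c / 8 by linarith) hR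
  obtain ⟨C', β, hβ, h4⟩ := hM W Pj pa ζ CW _ _ hW (by linarith) h3
  exact glide hW hβ h4

end Crest.Agent.R91
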