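import Crest.Agent.R91.Defs

/-! Row 91: the cube truncations of `c₀(ℓ₂(ℓ₂))`. -/

set_option autoImplicit false

open Filter Topology

namespace Crest.Agent.R91

namespace Cube

section Lp

variable {G : Type} [NormedAddCommGroup G]

theorem hasSum_sq (f : lp (fun _ : ℕ => G) 2) : HasSum (fun i => ‖f i‖ ^ 2) (‖f‖ ^ 2) := by
  have h := lp.hasSum_norm (p := 2) (by simp) f
  simpa using h

theorem lp_tendsto {f : ℕ → lp (fun _ : ℕ => G) 2} {g : lp (fun _ : ℕ => G) 2}
    (h1 : ∀ M i, ‖f M i‖ ≤ ‖g i‖) (h2 : ∀ i, Tendsto (fun M => ‖f M i‖) atTop (𝓝 0)) :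
    Tendsto (fun M => ‖f M‖) atTop (𝓝 0) := by
  have h := tendsto_tsum_of_dominated_convergence (𝓕 := atTop) (f := fun M i => ‖f M i‖ ^ 2)
    (g := fun _ => (0 : ℝ)) (hasSum_sq g).summable
    (fun i => by simpa using (h2 i).pow 2)
    (Eventually.of_forall fun M i => by
      rw [Real.norm_of_nonneg (by positivity)]
      exact pow_le_pow_left₀ (norm_nonneg _) (h1 M i) 2)
  simp only [(hasSum_sq _).tsum_eq, tsum_zero] at h
  have h' := h.sqrt
  simpa using h'

end Lp

theorem blk_mono {a b : Blk} (h : ∀ m κ, |a m κ| ≤ |b m κ|) : ‖a‖ ≤ ‖b‖ :=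
  lp.norm_mono (by simp) fun m => lp.norm_mono (by simp) fun κ => h m κ

theorem blk_inner {a b : Blk} (h : ∀ m κ, a m κ = 0 ∨ b m κ = 0) : inner ℝ a b = 0 := by
  rw [lp.inner_eq_tsum]
  have : ∀ m, inner ℝ (a m) (b m) = (0 : ℝ) := fun m => by
    rw [lp.inner_eq_tsum]
    have : ∀ κ, inner ℝ (a m κ) (b m κ) = (0 : ℝ) := fun κ => by
      rcases h m κ with h | h <;> simp [h]
    simp only [this, tsum_zero]
  simp only [this, tsum_zero]

theorem blk_ext {a b : Blk} (h : ∀ m κ, a m κ = b m κ) : a = b :=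
  lp.ext (funext fun m => lp.ext (funext (h m)))

theorem ww_ext {u v : WW} (h : ∀ n m κ, u n m κ = v n m κ) : u = v :=
  ZeroAtInftyContinuousMap.ext fun n => blk_ext (h n)

theorem blk_le (w : WW) (n : ℕ) : ‖w n‖ ≤ ‖w‖ := by
  rw [← ZeroAtInftyContinuousMap.norm_toBCF_eq_norm]
  exact w.toBCF.norm_coe_le_norm n

theorem ww_le {w : WW} {C : ℝ} (hC : 0 ≤ C) (h : ∀ n, ‖w n‖ ≤ C) : ‖w‖ ≤ C := by
  rw [← ZeroAtInftyContinuousMap.norm_toBCF_eq_norm]
  exact (BoundedContinuousFunction.norm_le hC).2 h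

theorem ww_mono {u v : WW} (h : ∀ n m κ, |u n m κ| ≤ |v n m κ|) : ‖u‖ ≤ ‖v‖ :=
  ww_le (norm_nonneg _) fun n => (blk_mono (h n)).trans (blk_le v n)

theorem coord_le (w : WW) (n m κ : ℕ) : |w n m κ| ≤ ‖w‖ :=
  ((lp.norm_apply_le_norm (by simp) (w n m) κ).trans
    (lp.norm_apply_le_norm (by simp) (w n) m)).trans (blk_le w n)

theorem sub_coord (u v : WW) (n m κ : ℕ) : (u - v) n m κ = u n m κ - v n m κ := rfl

theorem bsub_coord (a b : Blk) (m κ : ℕ) : (a - b) m κ = a m κ - b m κ := rfl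

theorem sum_coord {α : Type} (s : Finset α) (f : α → WW) (n m κ : ℕ) :
    (∑ d ∈ s, f d) n m κ = ∑ d ∈ s, f d n m κ := by
  classical
  induction s using Finset.induction_on with
  | empty => rfl
  | insert a s ha ih =>
    rw [Finset.sum_insert ha, Finset.sum_insert ha, ← ih]
    rfl

/-- the coordinate functionals -/
noncomputable def coord (d : ℕ × ℕ × ℕ) : WW →L[ℝ] ℝ :=
  LinearMap.mkContinuous
    { toFun := fun w => w d.1 d.2.1 d.2.2
      map_add' := fun _ _ => rfl
      map_smul' := fun _ _ => rfl } 1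
    fun w => by simpa using coord_le w d.1 d.2.1 d.2.2

/-- the unit vectors -/
noncomputable def bas (d : ℕ × ℕ × ℕ) : WW where
  toFun := Pi.single d.1 (lp.single 2 d.2.1 (lp.single 2 d.2.2 (1 : ℝ)))
  continuous_toFun := continuous_of_discreteTopology
  zero_at_infty' := by
    rw [cocompact_eq_atTop]
    refine tendsto_const_nhds.congr' ?_
    filter_upwards [eventually_gt_atTop d.1] with n hn
    simp [Pi.single_eq_of_ne hn.ne']

theorem bas_blk (d : ℕ × ℕ × ℕ) (n : ℕ) : bas d n =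
    (Pi.single d.1 (lp.single 2 d.2.1 (lp.single 2 d.2.2 (1 : ℝ))) : ℕ → Blk) n := rfl

theorem bas_coord (d : ℕ × ℕ × ℕ) (n m κ : ℕ) :
    bas d n m κ = if (n, m, κ) = d then 1 else 0 := by
  obtain ⟨a, b, c⟩ := d
  rw [bas_blk]
  by_cases h1 : n = a
  · subst h1
    by_cases h2 : m = b
    · subst h2
      by_cases h3 : κ = c
      · subst h3; simp
      · simp [h3]
    · simp [h2]
  · simp [h1]

theorem norm_bas (d : ℕ × ℕ × ℕ) : ‖bas d‖ ≤ 1 := by
  refine ww_le zero_le_one fun n => ?_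
  rw [bas_blk]
  by_cases h : n = d.1
  · subst h
    rw [Pi.single_eq_same, lp.norm_single (by simp), lp.norm_single (by simp), norm_one]
  · simp [h]

/-- the cube -/
def cube (M : ℕ) : Finset (ℕ × ℕ × ℕ) := Finset.range M ×ˢ Finset.range M ×ˢ Finset.range M

theorem mem_cube (M n m κ : ℕ) : (n, m, κ) ∈ cube M ↔ n < M ∧ m < M ∧ κ < M := by
  simp [cube]

/-- the truncation -/
noncomputable def PP (M : ℕ) : WW →L[ℝ] WW := ∑ d ∈ cube M, (coord d).smulRight (bas d)

theorem PP_eq (M : ℕ) (w : WW) : PP M w = ∑ d ∈ cube M, w d.1 d.2.1 d.2.2 • bas d := by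
  rw [PP, _root_.sum_apply]
  rfl

theorem PP_coord (M : ℕ) (w : WW) (n m κ : ℕ) :
    PP M w n m κ = if n < M ∧ m < M ∧ κ < M then w n m κ else 0 := by
  rw [PP_eq, sum_coord]
  have : ∀ d : ℕ × ℕ × ℕ, (w d.1 d.2.1 d.2.2 • bas d) n m κ =
      if (n, m, κ) = d then w n m κ else 0 := by
    intro d
    change w d.1 d.2.1 d.2.2 * bas d n m κ = _
    rw [bas_coord]
    split_ifs with h
    · subst h; simp
    · simp
  simp only [this, Finset.sum_ite_eq, mem_cube]

theorem tl_coord (M : ℕ) (w : WW) (n m κ : ℕ) :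
    (w - PP M w) n m κ = if n < M ∧ m < M ∧ κ < M then 0 else w n m κ := by
  rw [sub_coord, PP_coord]
  split_ifs <;> simp

theorem tl_le (M : ℕ) (w : WW) : ‖w - PP M w‖ ≤ ‖w‖ :=
  ww_mono fun n m κ => by
    rw [tl_coord]
    split_ifs <;> simp

theorem PP_comp (M N : ℕ) (w : WW) : PP M (PP N w) = PP (min M N) w :=
  ww_ext fun n m κ => by
    simp only [PP_coord, lt_min_iff]
    split_ifs <;> tauto

theorem PP_lim (w : WW) : Tendsto (fun M => PP M w) atTop (𝓝 w) := by
  have hb : ∀ n, Tendsto (fun M => ‖(w - PP M w) n‖) atTop (𝓝 0) := fun n => by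
    have hle : ∀ M m κ, ‖(w - PP M w) n m κ‖ ≤ ‖w n m κ‖ := fun M m κ => by
      rw [tl_coord]
      split_ifs <;> simp
    refine lp_tendsto (g := w n) (fun M m => lp.norm_mono (by simp) (hle M m)) fun m => ?_
    refine lp_tendsto (g := w n m) (fun M => hle M m) fun κ => ?_
    refine tendsto_const_nhds.congr' ?_
    filter_upwards [eventually_gt_atTop n, eventually_gt_atTop m, eventually_gt_atTop κ]
      with M h1 h2 h3
    rw [tl_coord, if_pos ⟨h1, h2, h3⟩, norm_zero]
  rw [Metric.tendsto_nhds]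
  intro ε hε
  have h0 : Tendsto (fun n => w n) atTop (𝓝 0) := by
    have := ZeroAtInftyContinuousMapClass.zero_at_infty w
    rwa [cocompact_eq_atTop] at this
  obtain ⟨N, hN⟩ := eventually_atTop.1 (h0.norm.eventually_lt_const
    (show ‖(0 : Blk)‖ < ε / 2 by simpa using hε))
  have h1 : ∀ᶠ M in atTop, ∀ n ∈ Finset.range N, ‖(w - PP M w) n‖ < ε / 2 :=
    (eventually_all_finset _).2 fun n _ => (hb n).eventually_lt_const (by positivity)
  filter_upwards [h1] with M hM
  rw [dist_eq_norm, norm_sub_rev]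
  refine lt_of_le_of_lt (ww_le (C := ε / 2) (by positivity) fun n => ?_) (by linarith)
  rcases lt_or_ge n N with h | h
  · exact (hM n (Finset.mem_range.2 h)).le
  · refine le_trans (blk_mono fun m κ => ?_) (hN n h).le
    rw [tl_coord]
    split_ifs <;> simp

theorem quad_blk {x y tx ty : Blk} {s D : ℝ} (h : x - tx = y - ty)
    (hx : inner ℝ (x - tx) tx = 0) (hy : inner ℝ (y - ty) ty = 0) (h1 : ‖tx‖ ≤ s) (h2 : ‖ty‖ ≤ s)
    (h3 : ‖tx - ty‖ ≤ D) : ‖x‖ ^ 2 ≤ ‖y‖ ^ 2 + 2 * s * D := by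
  have e1 := norm_add_sq_real (x - tx) tx
  have e2 := norm_add_sq_real (y - ty) ty
  rw [sub_add_cancel, hx] at e1
  rw [sub_add_cancel, hy, ← h] at e2
  have e3 : ‖tx‖ - ‖ty‖ ≤ D := (norm_sub_norm_le tx ty).trans h3
  have n1 := norm_nonneg tx
  have n2 := norm_nonneg ty
  have n3 : 0 ≤ D := (norm_nonneg _).trans h3
  have e4 : (‖tx‖ - ‖ty‖) * (‖tx‖ + ‖ty‖) ≤ D * (2 * s) :=
    (mul_le_mul_of_nonneg_right e3 (by linarith)).trans
      (mul_le_mul_of_nonneg_left (by linarith) n3)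
  nlinarith

theorem tl_sub (M : ℕ) (u v : WW) : (u - PP M u) - (v - PP M v) = (u - v) - PP M (u - v) := by
  rw [map_sub]; abel

theorem PP_quad1 (M M' : ℕ) (u v : WW) (s : ℝ) (hM : M ≤ M') (h : PP M' u = PP M' v)
    (hu : ‖u - PP M' u‖ ≤ s) (hv : ‖v - PP M' v‖ ≤ s) :
    ‖u - PP M u‖ ^ 2 ≤ ‖v - PP M v‖ ^ 2 + 2 * s * ‖u - v‖ := by
  have hs : 0 ≤ s := (norm_nonneg _).trans hu
  have h' : PP M u = PP M v := by
    have := congrArg (PP M) h
    rwa [PP_comp, PP_comp, min_eq_left hM] at this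
  have orth : ∀ (w : WW) (n : ℕ),
      inner ℝ ((w - PP M w) n - (w - PP M' w) n) ((w - PP M' w) n) = 0 := fun w n =>
    blk_inner fun m κ => by
      rw [bsub_coord, tl_coord, tl_coord]
      by_cases hc : n < M' ∧ m < M' ∧ κ < M'
      · right; rw [if_pos hc]
      · left
        rw [if_neg hc, if_neg (by omega), sub_self]
  have key : ∀ n, ‖(u - PP M u) n‖ ^ 2 ≤ ‖v - PP M v‖ ^ 2 + 2 * s * ‖u - v‖ := fun n => by
    have e : (u - PP M u) - (u - PP M' u) = (v - PP M v) - (v - PP M' v) := by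
      rw [h, h']; abel
    have := quad_blk (s := s) (D := ‖u - v‖) (x := (u - PP M u) n) (y := (v - PP M v) n)
      (tx := (u - PP M' u) n) (ty := (v - PP M' v) n) (congrArg (fun w : WW => w n) e)
      (orth u n) (orth v n) ((blk_le _ n).trans hu) ((blk_le _ n).trans hv)
      ((blk_le ((u - PP M' u) - (v - PP M' v)) n).trans (by rw [tl_sub]; exact tl_le _ _))
    have h2 := pow_le_pow_left₀ (norm_nonneg _) (blk_le (v - PP M v) n) 2
    linarith
  have h0 : 0 ≤ ‖v - PP M v‖ ^ 2 + 2 * s * ‖u - v‖ := by positivity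
  rw [← Real.le_sqrt (norm_nonneg _) h0]
  exact ww_le (Real.sqrt_nonneg _) fun n => (Real.le_sqrt (norm_nonneg _) h0).2 (key n)

/-- the system of cube truncations -/
noncomputable def cubeProj : Proj WW where
  P := PP
  norm_le M w := ww_mono fun n m κ => by
    rw [PP_coord]
    split_ifs <;> simp
  tail_le := tl_le
  comp := PP_comp
  zero w := by simp [PP_eq, cube]
  lim := PP_lim
  fin M := ⟨ℕ × ℕ × ℕ, cube M, bas, fun d w => w d.1 d.2.1 d.2.2, fun d _ => norm_bas d,
    fun d hd => ww_ext fun n m κ => by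
      rw [PP_coord, bas_coord]
      by_cases h : (n, m, κ) = d
      · subst h
        rw [if_pos ((mem_cube M n m κ).1 hd)]
      · simp [h],
    fun d _ w => coord_le w _ _ _, PP_eq M⟩
  quad M M' u v s hM h hu hv := by
    have h1 := PP_quad1 M M' u v s hM h hu hv
    have h2 := PP_quad1 M M' v u s hM h.symm hv hu
    rw [norm_sub_rev v u] at h2
    rw [abs_le]
    constructor <;> linarith

/-- the tail of a block -/
noncomputable def tail (l : ℕ) (b : Blk) : Blk :=
  b - ∑ m ∈ Finset.range l, lp.single 2 m (b m)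

theorem tail_fib (l : ℕ) (b : Blk) (m : ℕ) : tail l b m = if m < l then 0 else b m := by
  rw [tail, lp.coeFn_sub, lp.coeFn_sum, Pi.sub_apply, Finset.sum_apply]
  simp only [lp.single_apply, Finset.sum_pi_single, Finset.mem_range]
  split_ifs <;> simp

theorem tail_coord (l : ℕ) (b : Blk) (m κ : ℕ) :
    tail l b m κ = if m < l then 0 else b m κ := by
  rw [tail_fib]
  split_ifs <;> rfl

theorem RR_eq (w : WW) (n l : ℕ) : RR w n l = ‖tail l (w n)‖ := by
  have h := lp.norm_compl_sum_single (p := 2) (by simp) (w n) (Finset.range l)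
  simp only [ENNReal.toReal_ofNat, Real.rpow_ofNat] at h
  rw [RR, ← h, Real.sqrt_sq (norm_nonneg _), tail]

theorem tail_le (l : ℕ) (b : Blk) : ‖tail l b‖ ≤ ‖b‖ :=
  blk_mono fun m κ => by
    rw [tail_coord]
    split_ifs <;> simp

theorem tail_sub (l : ℕ) (a b : Blk) : tail l a - tail l b = tail l (a - b) :=
  blk_ext fun m κ => by
    simp only [bsub_coord, tail_coord]
    split_ifs <;> simp

theorem RR_quad1 (M : ℕ) (u v : WW) (s : ℝ) (n l : ℕ) (h : PP M u = PP M v)
    (hu : ‖u - PP M u‖ ≤ s) (hv : ‖v - PP M v‖ ≤ s) :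
    RR u n l ^ 2 ≤ RR v n l ^ 2 + 2 * s * ‖u - v‖ := by
  have orth : ∀ w : WW, inner ℝ (tail l (w n) - tail l ((w - PP M w) n))
      (tail l ((w - PP M w) n)) = 0 := fun w =>
    blk_inner fun m κ => by
      simp only [bsub_coord, tail_coord, tl_coord]
      split_ifs <;> simp
  have e : u - (u - PP M u) = v - (v - PP M v) := by
    rw [h]; abel
  rw [RR_eq, RR_eq]
  refine quad_blk (tx := tail l ((u - PP M u) n)) (ty := tail l ((v - PP M v) n)) ?_
    (orth u) (orth v) ((tail_le _ _).trans ((blk_le _ n).trans hu))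
    ((tail_le _ _).trans ((blk_le _ n).trans hv)) ?_
  · rw [tail_sub, tail_sub]
    exact congrArg (fun w : WW => tail l (w n)) e
  · rw [tail_sub]
    exact (tail_le _ _).trans
      ((blk_le ((u - PP M u) - (v - PP M v)) n).trans (by rw [tl_sub]; exact tl_le _ _))

theorem rfacts : RFacts cubeProj RR where
  nonneg _ _ _ := Real.sqrt_nonneg _
  anti w n l := by
    rw [RR_eq, RR_eq]
    refine blk_mono fun m κ => ?_
    simp only [tail_coord]
    by_cases h : m < l + 1
    · simp [h]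
    · rw [if_neg h, if_neg (by omega)]
  lip u v n l := by
    rw [RR_eq, RR_eq]
    refine (abs_norm_sub_norm_le _ _).trans ?_
    rw [tail_sub]
    exact (tail_le _ _).trans (blk_le (u - v) n)
  quad M u v s n l h hu hv := by
    have h1 := RR_quad1 M u v s n l h hu hv
    have h2 := RR_quad1 M v u s n l h.symm hv hu
    rw [norm_sub_rev v u] at h2
    rw [abs_le]
    constructor <;> linarith
  tail M w n l h := by
    rw [RR_eq]
    refine le_trans (blk_mono fun m κ => ?_) (blk_le (w - PP M w) n)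
    rw [tail_coord, tl_coord]
    by_cases hm : m < l
    · simp [hm]
    · rw [if_neg hm, if_neg (by omega)]

end Cube

theorem claimCube : ClaimCube := ⟨Cube.cubeProj, Cube.PP_coord, Cube.rfacts⟩

end Crest.Agent.R91
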