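import Crest.Agent.R91.Basic

/-! Row 91: cutoff functions and their cost. -/

set_option autoImplicit false

open Filter Topology

namespace Crest.Agent.R91

/-- `1` below `lo`, `0` above `hi`, affine in between. -/
noncomputable def cut (lo hi x : ℝ) : ℝ := max 0 (min 1 ((hi - x) / (hi - lo)))

theorem cut_nonneg (lo hi x : ℝ) : 0 ≤ cut lo hi x := le_max_left _ _

theorem cut_le_one (lo hi x : ℝ) : cut lo hi x ≤ 1 := max_le zero_le_one (min_le_left _ _)

theorem abs_cut_le (lo hi x : ℝ) : |cut lo hi x| ≤ 1 := by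
  rw [abs_of_nonneg (cut_nonneg _ _ _)]; exact cut_le_one _ _ _

theorem cut_eq_one {lo hi x : ℝ} (h : lo < hi) (hx : x ≤ lo) : cut lo hi x = 1 := by
  have : 1 ≤ (hi - x) / (hi - lo) := by
    rw [le_div_iff₀ (by linarith)]; linarith
  rw [cut, min_eq_left this, max_eq_right zero_le_one]

theorem cut_eq_zero {lo hi x : ℝ} (h : lo < hi) (hx : hi ≤ x) : cut lo hi x = 0 := by
  have : (hi - x) / (hi - lo) ≤ 0 := div_nonpos_of_nonpos_of_nonneg (by linarith) (by linarith)
  rw [cut, max_eq_left ((min_le_right _ _).trans this)]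

theorem lt_of_cut_ne_zero {lo hi x : ℝ} (h : lo < hi) (hx : cut lo hi x ≠ 0) : x < hi := by
  by_contra h1
  exact hx (cut_eq_zero h (not_lt.mp h1))

theorem cut_lip {lo hi : ℝ} (h : lo < hi) (x y : ℝ) :
    |cut lo hi x - cut lo hi y| ≤ |x - y| / (hi - lo) := by
  have h0 : 0 < hi - lo := by linarith
  have h1 : |(hi - x) / (hi - lo) - (hi - y) / (hi - lo)| = |x - y| / (hi - lo) := by
    rw [← sub_div, abs_div, abs_of_pos h0, show hi - x - (hi - y) = -(x - y) by ring, abs_neg]
  rw [← h1]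
  have h2 := abs_max_sub_max_le_max 0 (min 1 ((hi - x) / (hi - lo))) 0
    (min 1 ((hi - y) / (hi - lo)))
  have h3 := abs_min_sub_min_le_max 1 ((hi - x) / (hi - lo)) 1 ((hi - y) / (hi - lo))
  simp only [sub_self, abs_zero] at h2 h3
  exact h2.trans (max_le (abs_nonneg _) (h3.trans (max_le (abs_nonneg _) le_rfl)))

theorem cut_sq {lo hi : ℝ} (h0 : 0 < lo) (h : lo < hi) {x y : ℝ} (hx : 0 ≤ x) (hy : 0 ≤ y) :
    |cut lo hi x - cut lo hi y| ≤ |x ^ 2 - y ^ 2| / (lo * (hi - lo)) := by
  have h1 : 0 < hi - lo := by linarith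
  by_cases hxy : x + y ≤ lo
  · rw [cut_eq_one h (by linarith), cut_eq_one h (by linarith), sub_self, abs_zero]
    positivity
  · refine (cut_lip h x y).trans ?_
    have h2 : |x ^ 2 - y ^ 2| = |x - y| * (x + y) := by
      rw [show x ^ 2 - y ^ 2 = (x - y) * (x + y) by ring, abs_mul,
        abs_of_nonneg (add_nonneg hx hy)]
    rw [h2, div_le_div_iff₀ h1 (mul_pos h0 h1)]
    have h3 : lo ≤ x + y := (not_le.mp hxy).le
    have h4 := abs_nonneg (x - y)
    have := mul_le_mul_of_nonneg_left h3 (mul_nonneg h4 h1.le)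
    linarith

variable {W : Type} [NormedAddCommGroup W] [NormedSpace ℝ W] {Pj : Proj W} {pa : Par}

theorem cut_tail_lip {lo hi : ℝ} (h : lo < hi) (M : ℕ) (u v : W) :
    |cut lo hi ‖u - Pj.P M u‖ - cut lo hi ‖v - Pj.P M v‖| ≤ 1 / (hi - lo) * ‖u - v‖ := by
  refine (cut_lip h _ _).trans ?_
  rw [one_div_mul_eq_div]
  exact div_le_div_of_nonneg_right (Pj.tail_lip M u v) (by linarith)

theorem cut_tail_quad {lo hi : ℝ} (h0 : 0 < lo) (h : lo < hi) {j M M' : ℕ} {κ : ℝ} {ι : Type}
    {s : Finset ι} {u v : ι → W} (hA : Atom Pj pa j M' κ s u v) (hM : M ≤ M') {i : ι}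
    (hi' : i ∈ s) :
    |cut lo hi ‖u i - Pj.P M (u i)‖ - cut lo hi ‖v i - Pj.P M (v i)‖| ≤
      4 * pa.r j / (lo * (hi - lo)) * ‖u i - v i‖ := by
  refine (cut_sq h0 h (norm_nonneg _) (norm_nonneg _)).trans ?_
  rw [div_mul_eq_mul_div]
  exact div_le_div_of_nonneg_right (hA.quad hM hi') (mul_pos h0 (by linarith)).le

theorem cut_tail_one {lo hi : ℝ} (h : lo < hi) {j M M' : ℕ} {κ : ℝ} {ι : Type}
    {s : Finset ι} {u v : ι → W} (hA : Atom Pj pa j M' κ s u v) (hM : M' ≤ M)
    (hr : 2 * pa.r j ≤ lo) {i : ι} (hi' : i ∈ s) :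
    cut lo hi ‖u i - Pj.P M (u i)‖ - cut lo hi ‖v i - Pj.P M (v i)‖ = 0 := by
  rw [cut_eq_one h (((Pj.tail_anti hM _).trans (hA.tail_u' hi')).trans hr),
    cut_eq_one h (((Pj.tail_anti hM _).trans (hA.tail_v' hi')).trans hr), sub_self]

/-- Tail cutoffs are good, uniformly in the place of the cut. -/
theorem good_cut_tail (Pj : Proj W) (pa : Par) {lo hi : ℝ} (h0 : 0 < lo) (h : lo < hi) :
    ∃ K : ℝ, ∀ M, Good Pj pa K (fun w => cut lo hi ‖w - Pj.P M w‖) := by
  have h1 : 0 < hi - lo := by linarith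
  obtain ⟨J, hJ⟩ := eventually_atTop.mp
    (pa.r_tendsto.eventually (gt_mem_nhds (show 0 < lo / 2 by linarith)))
  have hK1 : 0 ≤ (J + 1) * (1 / (hi - lo)) := by positivity
  have hK2 : 0 ≤ 4 / (lo * (hi - lo)) := by positivity
  refine ⟨(J + 1) * (1 / (hi - lo)) + 4 / (lo * (hi - lo)), fun M => ⟨by positivity, fun u v => ?_,
    fun j M' κ ι s u v hA a A hA0 hs => ?_⟩⟩
  · refine (cut_tail_lip h M u v).trans (mul_le_mul_of_nonneg_right ?_ (norm_nonneg _))
    have : 0 ≤ (J : ℝ) * (1 / (hi - lo)) := by positivity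
    linarith
  · refine kappa_le hA.κ_nonneg hA.κ_le (by positivity) ?_
    rcases le_total M M' with hM | hM
    · have hrj := pa.r_pos j
      refine (sum_le_card hA0 (by positivity) hA.card_le (fun _ _ => norm_nonneg _) hs
        fun i hi' => cut_tail_quad h0 h hA hM hi').trans ?_
      refine mul_le_mul_of_nonneg_right ?_ hA0
      have h2 : (j : ℝ) * (4 * pa.r j / (lo * (hi - lo))) =
          (j * pa.r j) * (4 / (lo * (hi - lo))) := by ring
      have h3 := mul_le_mul_of_nonneg_right (pa.mul_r_le_one j) hK2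
      linarith
    · rcases le_total J j with hj | hj
      · have := hJ j hj
        rw [Finset.sum_eq_zero fun i hi' => by
          rw [cut_tail_one h hA hM (by linarith) hi', mul_zero]]
        positivity
      · refine (sum_le_card hA0 (by positivity) hA.card_le (fun _ _ => norm_nonneg _) hs
          fun i _ => cut_tail_lip h M _ _).trans ?_
        refine mul_le_mul_of_nonneg_right ?_ hA0
        have h2 : (j : ℝ) ≤ J + 1 := by exact_mod_cast hj.trans (Nat.le_succ J)
        have h3 := mul_le_mul_of_nonneg_right h2 (show 0 ≤ 1 / (hi - lo) by positivity)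
        linarith

/-- Cutting at a large radius. -/
theorem Good.mul_ball {C R : ℝ} {f : W → ℝ} (hf : Good Pj pa C f) (h0 : f 0 = 0) (hR : 1 ≤ R) :
    Good Pj pa (9 * C) (fun w => f w * cut R (2 * R) ‖w‖) := by
  have hC := hf.nonneg
  have hR0 : 0 < R := by linarith
  have hlt : R < 2 * R := by linarith
  have hb : ∀ w : W, cut R (2 * R) ‖w‖ ≠ 0 → |f w| ≤ 2 * C * R := by
    intro w hw
    have h1 := hf.lip w 0
    rw [h0, sub_zero, sub_zero] at h1
    have h2 := mul_le_mul_of_nonneg_left (lt_of_cut_ne_zero hlt hw).le hC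
    linarith
  have hz : ∀ w : W, ‖w‖ = ‖w - Pj.P 0 w‖ := fun w => by rw [Pj.zero, sub_zero]
  have := hf.mul_cut (φ := fun w => cut R (2 * R) ‖w‖) (C' := 8 * C) (fun w => abs_cut_le _ _ _)
    (by positivity) (fun u v hu => ?_) (fun j M κ ι s u v hA a A hA0 hs p hp => ?_)
  · exact this.mono (by linarith)
  · have h1 := cut_tail_lip (Pj := Pj) hlt 0 u v
    rw [← hz, ← hz] at h1
    refine (mul_le_mul (hb u hu) h1 (abs_nonneg _) (by positivity)).trans ?_
    have h2 : 2 * C * R * (1 / (2 * R - R) * ‖u - v‖) = 2 * C * ‖u - v‖ := by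
      rw [show 2 * R - R = R by ring]; field_simp
    rw [h2]
    have := mul_nonneg hC (norm_nonneg (u - v))
    linarith
  · refine kappa_le hA.κ_nonneg hA.κ_le (by positivity) ?_
    have hrj := pa.r_pos j
    refine (sum_le_card (L := 8 * C * pa.r j) hA0 (by positivity) hA.card_le
      (fun _ _ => norm_nonneg _) hs fun i hi => ?_).trans ?_
    · have h1 := cut_tail_quad hR0 hlt hA (Nat.zero_le M) hi
      rw [← hz, ← hz] at h1
      rw [abs_mul]
      refine (mul_le_mul (hb _ (hp i hi).2) h1 (abs_nonneg _) (by positivity)).trans ?_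
      have h2 : 2 * C * R * (4 * pa.r j / (R * (2 * R - R)) * ‖u i - v i‖) =
          8 * C * pa.r j * ‖u i - v i‖ / R := by
        rw [show 2 * R - R = R by ring]; field_simp; ring
      rw [h2]
      exact div_le_self (by positivity) hR
    · refine mul_le_mul_of_nonneg_right ?_ hA0
      have := mul_le_mul_of_nonneg_right (pa.mul_r_le_one j) (show 0 ≤ 8 * C by positivity)
      linarith

theorem Good.abs_le_of_tail {C : ℝ} {f : W → ℝ} (hf : Good Pj pa C f) {l M : ℕ} (hl : 1 ≤ l)
    (hs : ∀ w, |f (Pj.P (pa.γ M) w)| ≤ pa.r l / l) {w : W} (hw : ‖w - Pj.P M w‖ ≤ pa.r l) :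
    |f w| ≤ (C + 1) * pa.r l := by
  have h1 := hf.lip w (Pj.P (pa.γ M) w)
  have h2 := mul_le_mul_of_nonneg_left ((Pj.tail_anti (pa.le_γ M) w).trans hw) hf.nonneg
  have h3 : pa.r l / l ≤ pa.r l := div_le_self (pa.r_pos l).le (by exact_mod_cast hl)
  have h4 := abs_add_le (f w - f (Pj.P (pa.γ M) w)) (f (Pj.P (pa.γ M) w))
  rw [sub_add_cancel] at h4
  have h5 := hs w
  linarith

/-- Cutting at the tail amplitude `r l` has a cost that does not depend on `l`. -/
theorem Good.mul_refined {C : ℝ} {f : W → ℝ} (hf : Good Pj pa C f) {l M : ℕ} (hl : 1 ≤ l)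
    (hM : l ≤ M) (hsm : ∀ w, |f (Pj.P (pa.γ M) w)| ≤ pa.r l / l) :
    Good Pj pa (17 * C + 16) (fun w => f w * cut (pa.r l / 2) (pa.r l) ‖w - Pj.P M w‖) := by
  have hC := hf.nonneg
  have hr := pa.r_pos l
  have hl0 : (0 : ℝ) < l := by exact_mod_cast hl
  have hlo : 0 < pa.r l / 2 := by linarith
  have hlt : pa.r l / 2 < pa.r l := by linarith
  have hlip : ∀ u v : W, |cut (pa.r l / 2) (pa.r l) ‖u - Pj.P M u‖ -
      cut (pa.r l / 2) (pa.r l) ‖v - Pj.P M v‖| ≤ 2 / pa.r l * ‖u - v‖ := by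
    intro u v
    have h1 := cut_tail_lip (Pj := Pj) hlt M u v
    have h2 : 1 / (pa.r l - pa.r l / 2) = 2 / pa.r l := by field_simp; ring
    rwa [h2] at h1
  have := hf.mul_cut (φ := fun w => cut (pa.r l / 2) (pa.r l) ‖w - Pj.P M w‖)
    (C' := 16 * (C + 1)) (fun w => abs_cut_le _ _ _)
    (by positivity) (fun u v hu => ?_) (fun j M' κ ι s u v hA a A hA0 hs p hp => ?_)
  · exact this.mono (by linarith)
  · have hb := hf.abs_le_of_tail hl hsm (lt_of_cut_ne_zero hlt hu).le
    refine (mul_le_mul hb (hlip u v) (abs_nonneg _) (by positivity)).trans ?_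
    have h2 : (C + 1) * pa.r l * (2 / pa.r l * ‖u - v‖) = 2 * (C + 1) * ‖u - v‖ := by
      field_simp
    rw [h2]
    have := mul_nonneg (show 0 ≤ C + 1 by linarith) (norm_nonneg (u - v))
    linarith
  · have hpt : ∀ i ∈ s, ‖p i - Pj.P M (p i)‖ ≤ pa.r l := fun i hi =>
      (lt_of_cut_ne_zero hlt (hp i hi).2).le
    have hCA : 0 ≤ C * A := mul_nonneg hC hA0
    rcases le_or_gt j l with hj | hj
    · set φ : W → ℝ := fun w => cut (pa.r l / 2) (pa.r l) ‖w - Pj.P M w‖ with hφ
      have h3 : ∑ i ∈ s, a i * (f (p i) * (φ (u i) - φ (v i))) =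
          ∑ i ∈ s, a i * (f (Pj.P (pa.γ M) (p i)) * (φ (u i) - φ (v i))) +
          ∑ i ∈ s, a i * (φ (u i) - φ (v i)) * (f (p i) - f (Pj.P (pa.γ M) (p i))) := by
        rw [← Finset.sum_add_distrib]
        exact Finset.sum_congr rfl fun i _ => by ring
      have h4 : ∑ i ∈ s, a i * (f (Pj.P (pa.γ M) (p i)) * (φ (u i) - φ (v i))) ≤ 2 * A := by
        refine (sum_le_card (L := 2 / l) hA0 (by positivity) (hA.card_le.trans hj)
          (fun _ _ => norm_nonneg _) hs fun i _ => ?_).trans (le_of_eq ?_)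
        · rw [abs_mul]
          refine (mul_le_mul (hsm _) (hlip _ _) (abs_nonneg _) (by positivity)).trans (le_of_eq ?_)
          field_simp
        · field_simp
      have hpj : ∀ i ∈ s, Pj.P j (p i) = Pj.P j (u i) := fun i hi => by
        rcases (hp i hi).1 with h | h
        · rw [h]
        · rw [h, hA.head_j le_rfl hi]
      have hpn : ∀ i ∈ s, ‖p i‖ ≤ (2 - κ) * j := fun i hi => by
        rcases (hp i hi).1 with h | h
        · rw [h]; exact hA.norm_u i hi
        · rw [h]; exact hA.norm_v i hi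
      have hrr : pa.r l ≤ (2 - κ) * pa.r j := by
        have h5 := pa.r_anti hj
        have h6 := hA.κ_le
        have h7 := pa.r_pos j
        nlinarith
      have hA' : Atom Pj pa j M κ s p (fun i => Pj.P (pa.γ M) (p i)) := by
        refine ⟨hj.trans hM, hA.card_le, hA.κ_nonneg, hA.κ_le,
          fun i _ => (Pj.PP_le le_rfl _).symm, fun i hi i' hi' hne => ?_,
          fun i hi => (hpt i hi).trans hrr,
          fun i hi => ((Pj.tail_P _ _ _).trans (hpt i hi)).trans hrr, hpn,
          fun i hi => (Pj.norm_le _ _).trans (hpn i hi)⟩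
        rw [map_sub, hpj i hi, hpj i' hi', ← map_sub]
        exact hA.sep i hi i' hi' hne
      have h5 := hf.atom j M κ ι s p _ hA' (fun i => a i * (φ (u i) - φ (v i))) (2 * A)
        (by positivity) (by
          calc ∑ i ∈ s, (a i * (φ (u i) - φ (v i)) * ‖p i - Pj.P (pa.γ M) (p i)‖) ^ 2
              ≤ ∑ i ∈ s, 4 * (a i * ‖u i - v i‖) ^ 2 := by
                refine Finset.sum_le_sum fun i hi => ?_
                have h6 : |φ (u i) - φ (v i)| * ‖p i - Pj.P (pa.γ M) (p i)‖ ≤ 2 * ‖u i - v i‖ := by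
                  refine (mul_le_mul (hlip _ _) ((Pj.tail_anti (pa.le_γ M) _).trans (hpt i hi))
                    (norm_nonneg _) (by positivity)).trans (le_of_eq ?_)
                  field_simp
                have h7 := pow_le_pow_left₀ (by positivity) h6 2
                rw [mul_pow, sq_abs] at h7
                have h8 := mul_le_mul_of_nonneg_left h7 (sq_nonneg (a i))
                calc _ = a i ^ 2 * ((φ (u i) - φ (v i)) ^ 2 *
                      ‖p i - Pj.P (pa.γ M) (p i)‖ ^ 2) := by ring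
                  _ ≤ _ := h8
                  _ = _ := by ring
            _ = 4 * ∑ i ∈ s, (a i * ‖u i - v i‖) ^ 2 := by rw [Finset.mul_sum]
            _ ≤ (2 * A) ^ 2 := by linarith)
      have h6 := kappa_le hA.κ_nonneg hA.κ_le (by positivity) h4
      rw [h3]
      linarith
    · refine kappa_le hA.κ_nonneg hA.κ_le (by positivity) ?_
      rcases le_total M M' with hM' | hM'
      · have hrj := pa.r_pos j
        refine (sum_le_card (L := 16 * (C + 1) * (pa.r j / pa.r l)) hA0 (by positivity) hA.card_le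
          (fun _ _ => norm_nonneg _) hs fun i hi => ?_).trans ?_
        · rw [abs_mul]
          refine (mul_le_mul (hf.abs_le_of_tail hl hsm (hpt i hi))
            (cut_tail_quad hlo hlt hA hM' hi) (abs_nonneg _) (by positivity)).trans (le_of_eq ?_)
          rw [show pa.r l - pa.r l / 2 = pa.r l / 2 by ring]
          field_simp
          ring
        · refine mul_le_mul_of_nonneg_right ?_ hA0
          have h1 : (j : ℝ) * (pa.r j / pa.r l) ≤ 1 := by
            rw [← mul_div_assoc, div_le_one hr]; exact pa.mul_r_le hj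
          have h2 := mul_le_mul_of_nonneg_right h1 (show 0 ≤ 16 * (C + 1) by positivity)
          linarith
      · have h1 := pa.four_r_le hj
        rw [Finset.sum_eq_zero fun i hi => by
          rw [cut_tail_one hlt hA hM' (by linarith) hi, mul_zero, mul_zero]]
        positivity

/-- A function of `P N w` that lives in a thin cylinder is seen by at most one pair. -/
theorem good_cyl {g : W → ℝ} {L : ℝ} {N : ℕ} {y : W} (hL : 0 ≤ L)
    (hlip : ∀ u v, |g u - g v| ≤ L * ‖u - v‖) (hN : ∀ w, g (Pj.P N w) = g w)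
    (hsupp : ∀ w, g w ≠ 0 → ‖Pj.P N w - y‖ < pa.ρ N) : Good Pj pa L g := by
  classical
  refine ⟨hL, hlip, fun j M κ ι s u v hA a A hA0 hs => ?_⟩
  refine kappa_le hA.κ_nonneg hA.κ_le (by positivity) ?_
  rcases le_or_gt N j with hj | hj
  · rw [atom_dep hA hj hN]; positivity
  · let t := s.filter fun i => g (u i) ≠ 0 ∨ g (v i) ≠ 0
    have h1 : ∑ i ∈ s, a i * (g (u i) - g (v i)) = ∑ i ∈ t, a i * (g (u i) - g (v i)) := by
      rw [Finset.sum_filter]
      refine Finset.sum_congr rfl fun i _ => ?_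
      split_ifs with h
      · rfl
      · push Not at h
        rw [h.1, h.2]; simp
    have h2 : ∀ i ∈ t, ‖Pj.P j (u i) - Pj.P j y‖ < pa.ρ N := by
      intro i hi
      obtain ⟨his, hi'⟩ := Finset.mem_filter.mp hi
      rcases hi' with h | h
      · rw [← Pj.PP_le hj.le (u i)]
        exact (Pj.norm_P_sub_le _ _ _).trans_lt (hsupp _ h)
      · rw [hA.head_j le_rfl his, ← Pj.PP_le hj.le (v i)]
        exact (Pj.norm_P_sub_le _ _ _).trans_lt (hsupp _ h)
    have h3 : t.card ≤ 1 := by
      refine Finset.card_le_one.mpr fun i hi i' hi' => ?_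
      by_contra hne
      have h4 := hA.sep i (Finset.mem_filter.mp hi).1 i' (Finset.mem_filter.mp hi').1 hne
      have h5 := norm_sub_le_norm_sub_add_norm_sub (Pj.P j (u i)) (Pj.P j y) (Pj.P j (u i'))
      rw [map_sub] at h4
      have h6 := h2 i hi
      have h7 := h2 i' hi'
      rw [norm_sub_rev] at h7
      have h8 := pa.ρ_lt hj
      linarith
    rw [h1]
    have := sum_le_card (L := L) hA0 hL h3 (fun _ _ => norm_nonneg _)
      (le_trans (Finset.sum_le_sum_of_subset_of_nonneg (Finset.filter_subset _ _)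
        fun _ _ _ => sq_nonneg _) hs) fun i _ => hlip (u i) (v i)
    simpa using this

omit [NormedSpace ℝ W] in
theorem lip_mul_cut {f φ : W → ℝ} {C C' : ℝ} (hC : 0 ≤ C) (hC' : 0 ≤ C')
    (hf : ∀ u v, |f u - f v| ≤ C * ‖u - v‖) (hφ : ∀ w, |φ w| ≤ 1)
    (hlip : ∀ u v, φ u ≠ 0 → |f u| * |φ u - φ v| ≤ C' * ‖u - v‖) (u v : W) :
    |f u * φ u - f v * φ v| ≤ (C + C') * ‖u - v‖ := by
  have key : ∀ u v, φ u ≠ 0 → |f u * φ u - f v * φ v| ≤ (C + C') * ‖u - v‖ := by
    intro u v hu
    have h3 : f u * φ u - f v * φ v = φ v * (f u - f v) + f u * (φ u - φ v) := by ring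
    rw [h3]
    refine (abs_add_le _ _).trans ?_
    rw [abs_mul, abs_mul, add_mul]
    refine add_le_add ?_ (hlip u v hu)
    have := mul_le_mul (hφ v) (hf u v) (abs_nonneg _) zero_le_one
    linarith
  by_cases hu : φ u = 0
  · by_cases hv : φ v = 0
    · simp only [hu, hv, mul_zero, sub_self, abs_zero]; positivity
    · rw [abs_sub_comm, norm_sub_rev]; exact key v u hv
  · exact key u v hu

end Crest.Agent.R91
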