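import Mathlib

/-!
Row 91 (S0120, S0121): definitions and the list of claims.

`W` is a normed space with finite rank cuts `P M`.  `Good C f` says that `f` is `C`-Lipschitz and
that the square sum of its slopes over the admissible families of pairs (`Atom`) is at most `C ^ 2`.
-/

set_option autoImplicit false

open Filter Topology

namespace Crest.Agent.R91

/-- A system of finite rank cuts. -/
structure Proj (W : Type) [NormedAddCommGroup W] [NormedSpace ℝ W] where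
  P : ℕ → W →L[ℝ] W
  norm_le : ∀ M w, ‖P M w‖ ≤ ‖w‖
  tail_le : ∀ M w, ‖w - P M w‖ ≤ ‖w‖
  comp : ∀ M N w, P M (P N w) = P (min M N) w
  zero : ∀ w, P 0 w = 0
  lim : ∀ w, Tendsto (fun M => P M w) atTop (𝓝 w)
  fin : ∀ M, ∃ (ι : Type) (s : Finset ι) (e : ι → W) (l : ι → W → ℝ),
    (∀ d ∈ s, ‖e d‖ ≤ 1) ∧ (∀ d ∈ s, P M (e d) = e d) ∧ (∀ d ∈ s, ∀ w, |l d w| ≤ ‖w‖) ∧
      ∀ w, P M w = ∑ d ∈ s, l d w • e d
  quad : ∀ (M M' : ℕ) (u v : W) (s : ℝ), M ≤ M' → P M' u = P M' v → ‖u - P M' u‖ ≤ s →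
    ‖v - P M' v‖ ≤ s → |‖u - P M u‖ ^ 2 - ‖v - P M v‖ ^ 2| ≤ 2 * s * ‖u - v‖

/-- The numerical parameters. -/
structure Par where
  γ : ℕ → ℕ
  ρ : ℕ → ℝ
  r : ℕ → ℝ
  le_γ : ∀ M, M ≤ γ M
  ρ_pos : ∀ j, 0 < ρ j
  ρ_half : ∀ j, ρ (j + 1) ≤ ρ j / 2
  r_pos : ∀ j, 0 < r j
  r_zero : r 0 ≤ 1
  r_step : ∀ j : ℕ, ((j : ℝ) + 4) * r (j + 1) ≤ r j

section Abstract

variable {W : Type} [NormedAddCommGroup W] [NormedSpace ℝ W]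

/-- An admissible family of pairs of level `j`. -/
structure Atom (Pj : Proj W) (pa : Par) (j M : ℕ) (κ : ℝ) {ι : Type} (s : Finset ι)
    (u v : ι → W) : Prop where
  le_M : j ≤ M
  card_le : s.card ≤ j
  κ_nonneg : 0 ≤ κ
  κ_le : κ ≤ 1
  head : ∀ i ∈ s, Pj.P (pa.γ M) (u i) = Pj.P (pa.γ M) (v i)
  sep : ∀ i ∈ s, ∀ i' ∈ s, i ≠ i' → pa.ρ j ≤ ‖Pj.P j (u i - u i')‖
  tail_u : ∀ i ∈ s, ‖u i - Pj.P M (u i)‖ ≤ (2 - κ) * pa.r j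
  tail_v : ∀ i ∈ s, ‖v i - Pj.P M (v i)‖ ≤ (2 - κ) * pa.r j
  norm_u : ∀ i ∈ s, ‖u i‖ ≤ (2 - κ) * j
  norm_v : ∀ i ∈ s, ‖v i‖ ≤ (2 - κ) * j

/-- Good real functions with constant `C`. -/
structure Good (Pj : Proj W) (pa : Par) (C : ℝ) (f : W → ℝ) : Prop where
  nonneg : 0 ≤ C
  lip : ∀ u v, |f u - f v| ≤ C * ‖u - v‖
  atom : ∀ (j M : ℕ) (κ : ℝ) (ι : Type) (s : Finset ι) (u v : ι → W), Atom Pj pa j M κ s u v →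
    ∀ (a : ι → ℝ) (A : ℝ), 0 ≤ A → ∑ i ∈ s, (a i * ‖u i - v i‖) ^ 2 ≤ A ^ 2 →
      κ * ∑ i ∈ s, a i * (f (u i) - f (v i)) ≤ C * A

/-- Good maps `W → W` with constant `C`. -/
structure VGood (Pj : Proj W) (pa : Par) (C : ℝ) (D : W → W) : Prop where
  nonneg : 0 ≤ C
  lip : ∀ u v, ‖D u - D v‖ ≤ C * ‖u - v‖
  atom : ∀ (j M : ℕ) (κ : ℝ) (ι : Type) (s : Finset ι) (u v : ι → W), Atom Pj pa j M κ s u v →
    ∀ (a : ι → ℝ) (A : ℝ), 0 ≤ A → ∑ i ∈ s, (a i * ‖u i - v i‖) ^ 2 ≤ A ^ 2 →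
      ‖∑ i ∈ s, a i • (D (u i) - D (v i))‖ ≤ C * A

/-- A sequence of functionals that is weakly unconditionally summable on good functions and
continuous under bounded pointwise limits. -/
structure WUC (Pj : Proj W) (pa : Par) (ζ : ℕ → (W → ℝ) →ₗ[ℝ] ℝ) (CW : ℝ) : Prop where
  sum_le : ∀ (C : ℝ) (f : W → ℝ), Good Pj pa C f → ∀ F : Finset ℕ, ∑ k ∈ F, |ζ k f| ≤ CW * C
  cont : ∀ (k : ℕ) (C : ℝ) (f : ℕ → W → ℝ) (g : W → ℝ), (∀ n, Good Pj pa C (f n)) →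
    (∀ w, Tendsto (fun n => f n w) atTop (𝓝 (g w))) →
      Tendsto (fun n => ζ k (f n)) atTop (𝓝 (ζ k g))

/-- No such sequence is bounded below. -/
def NoWUC (Pj : Proj W) (pa : Par) : Prop :=
  ∀ (ζ : ℕ → (W → ℝ) →ₗ[ℝ] ℝ) (CW c : ℝ), WUC Pj pa ζ CW → 0 < c →
    (∀ k, ∃ f, Good Pj pa 1 f ∧ c ≤ ζ k f) → False

/-- Functions with small sup norm and small slope in the tail directions. -/
def Stage3 (Pj : Proj W) (pa : Par) (ζ : ℕ → (W → ℝ) →ₗ[ℝ] ℝ) (C c : ℝ) : Prop :=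
  ∀ η : ℝ, 0 < η → ∃ m : ℕ, ∀ σ : ℝ, 0 < σ → ∀ K : ℕ, ∃ k, K ≤ k ∧ ∃ h : W → ℝ,
    Good Pj pa C h ∧ (∀ w, |h w| ≤ σ) ∧
      (∀ u v, Pj.P m u = Pj.P m v → |h u - h v| ≤ η * ‖u - v‖) ∧ c ≤ ζ k h

/-- Functions with small Lipschitz constant that are seen by a block of functionals. -/
def Stage4 (Pj : Proj W) (pa : Par) (ζ : ℕ → (W → ℝ) →ₗ[ℝ] ℝ) (C β : ℝ) : Prop :=
  ∀ L : ℝ, 0 < L → ∀ K : ℕ, ∃ (K' : ℕ) (H : W → ℝ),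
    Good Pj pa C H ∧ (∀ u v, |H u - H v| ≤ L * ‖u - v‖) ∧ β ≤ ∑ k ∈ Finset.Ico K K', |ζ k H|

end Abstract

/-- The martingale step. -/
def ClaimMart : Prop :=
  ∀ (W : Type) [NormedAddCommGroup W] [NormedSpace ℝ W] (Pj : Proj W) (pa : Par)
    (ζ : ℕ → (W → ℝ) →ₗ[ℝ] ℝ) (CW C c : ℝ), WUC Pj pa ζ CW → 0 < c → Stage3 Pj pa ζ C c →
      ∃ C' β : ℝ, 0 < β ∧ Stage4 Pj pa ζ C' β

/-- The main abstract claim. -/
def ClaimNoWUC : Prop :=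
  ∀ (W : Type) [NormedAddCommGroup W] [NormedSpace ℝ W] (Pj : Proj W) (pa : Par), NoWUC Pj pa

/-! ### The concrete space -/

/-- `ℓ₂`. -/
abbrev Fib : Type := lp (fun _ : ℕ => ℝ) 2
/-- `ℓ₂(ℓ₂)`. -/
abbrev Blk : Type := lp (fun _ : ℕ => Fib) 2
/-- `c₀(ℓ₂(ℓ₂))`. -/
abbrev WW : Type := ZeroAtInftyContinuousMap ℕ Blk

/-- `Pj.P M` is the truncation to the cube `n, m, κ < M`. -/
def IsCube (Pj : Proj WW) : Prop :=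
  ∀ (M : ℕ) (w : WW) (n m κ : ℕ),
    Pj.P M w n m κ = if n < M ∧ m < M ∧ κ < M then w n m κ else 0

/-- `π` kills the coordinate `κ = 0`. -/
def IsPi (π : WW →L[ℝ] WW) : Prop :=
  ∀ (w : WW) (n m κ : ℕ), π w n m κ = if κ = 0 then 0 else w n m κ

/-- The norm of the tail `m ≥ l` of the block `w n`. -/
noncomputable def RR (w : WW) (n l : ℕ) : ℝ :=
  √(‖w n‖ ^ 2 - ∑ m ∈ Finset.range l, ‖w n m‖ ^ 2)

/-- What the construction of `Ψ` uses about the tail norms. -/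
structure RFacts {W : Type} [NormedAddCommGroup W] [NormedSpace ℝ W] (Pj : Proj W)
    (R : W → ℕ → ℕ → ℝ) : Prop where
  nonneg : ∀ w n l, 0 ≤ R w n l
  anti : ∀ w n l, R w n (l + 1) ≤ R w n l
  lip : ∀ u v n l, |R u n l - R v n l| ≤ ‖u - v‖
  quad : ∀ (M : ℕ) (u v : W) (s : ℝ) (n l : ℕ), Pj.P M u = Pj.P M v → ‖u - Pj.P M u‖ ≤ s →
    ‖v - Pj.P M v‖ ≤ s → |R u n l ^ 2 - R v n l ^ 2| ≤ 2 * s * ‖u - v‖
  tail : ∀ (M : ℕ) (w : W) (n l : ℕ), M ≤ n ∨ M ≤ l → R w n l ≤ ‖w - Pj.P M w‖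

open Classical in
/-- The properties of the field of unit vectors `Ψ`. -/
structure PsiFacts {W : Type} [NormedAddCommGroup W] [NormedSpace ℝ W] (Pj : Proj W) (pa : Par)
    (R : W → ℕ → ℕ → ℝ) (Ψ : W → ℕ → ℕ → Fib) : Prop where
  unit : ∀ w n m, ‖Ψ w n m‖ = 1
  zero : ∀ w n m, Ψ w n m 0 = 0
  lip : ∀ (u v : W) (n N : ℕ),
    ∑ m ∈ (Finset.range N).filter (fun m => R u n (m / 2) ≤ R v n (m / 2)),
      ‖Ψ u n m - Ψ v n m‖ ^ 2 * ((R u n (m / 2) ^ 2 - R u n (m / 2 + 1) ^ 2) +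
        (R u n m ^ 2 - R u n (m + 1) ^ 2)) ≤ (1 / 400) * ‖u - v‖ ^ 2
  dep : ∀ (u v : W) (n m : ℕ), R u n (m / 2) = R v n (m / 2) →
    Pj.P ((n + m) / 3) u = Pj.P ((n + m) / 3) v → Ψ u n m = Ψ v n m
  good : ∀ (j M : ℕ) (κ : ℝ) (ι : Type) (s : Finset ι) (u v : ι → W), Atom Pj pa j M κ s u v →
    ∃ Co : ι → ℕ → ℕ → Prop,
      (∀ i ∈ s, ∀ n m, Co i n m → Co i n (m / 2)) ∧
      (∀ i ∈ s, ∀ i' ∈ s, i ≠ i' → ∀ n m, ¬ Co i n m → ¬ Co i' n m → ∀ p p' : W,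
        (p = u i ∨ p = v i) → (p' = u i' ∨ p' = v i') → inner ℝ (Ψ p n m) (Ψ p' n m) = 0) ∧
      (∀ i ∈ s, ∀ n m, Co i n m → n < pa.γ M ∧ m < pa.γ M ∧
        (∀ k, pa.γ M ≤ k → Ψ (v i) n m k = 0) ∧
        10 * (j : ℝ) ^ 2 * ‖Ψ (u i) n m - Ψ (v i) n m‖ ≤ ‖u i - v i‖)

/-- The concrete cuts. -/
def ClaimCube : Prop := ∃ Pj : Proj WW, IsCube Pj ∧ RFacts Pj RR

/-- The linear maps of the concrete space. -/
def ClaimMaps : Prop :=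
  ∃ π : WW →L[ℝ] WW, IsPi π ∧
    (∃ ι : ZeroAtInftyContinuousMap ℕ Fib →ₗᵢ[ℝ] WW, ∀ c, π (ι c) = 0) ∧
    (∃ A : (WW × ZeroAtInftyContinuousMap ℕ ℝ) →ₗ[ℝ] WW, Function.Surjective A ∧
      (∀ p, ‖p‖ ≤ ‖A p‖ ∧ ‖A p‖ ≤ 2 * ‖p‖) ∧ ∀ p, π (A p) = π p.1)

/-- Partitions of unity in the location `P j w` at resolution `ρ j`, stored in disjoint rooms. -/
structure RoomFacts {W : Type} [NormedAddCommGroup W] [NormedSpace ℝ W] (Pj : Proj W)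
    (ρ : ℕ → ℝ) (ψ : ℕ → W → Fib) (N : ℕ → ℕ) (Λ : ℕ → ℝ) : Prop where
  unit : ∀ j w, ‖ψ j w‖ = 1
  zero : ∀ j w, ψ j w 0 = 0
  supp : ∀ j w k, N j ≤ k → ψ j w k = 0
  lip_nonneg : ∀ j, 0 ≤ Λ j
  lip : ∀ j u v, ‖ψ j u - ψ j v‖ ≤ Λ j * ‖u - v‖
  dep : ∀ j u v, Pj.P j u = Pj.P j v → ψ j u = ψ j v
  level : ∀ j j' u v k, ψ j u k ≠ 0 → ψ j' v k ≠ 0 → j = j'
  near : ∀ (j : ℕ) u v k, ‖u‖ ≤ 2 * j → ‖v‖ ≤ 2 * j → ψ j u k ≠ 0 → ψ j v k ≠ 0 →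
    ‖Pj.P j (u - v)‖ < ρ j

/-- The rooms. -/
def ClaimRooms : Prop :=
  ∀ (W : Type) [NormedAddCommGroup W] [NormedSpace ℝ W] (Pj : Proj W) (ρ : ℕ → ℝ),
    (∀ j, 0 < ρ j) → ∃ (ψ : ℕ → W → Fib) (N : ℕ → ℕ) (Λ : ℕ → ℝ), RoomFacts Pj ρ ψ N Λ

/-- The field of unit vectors. -/
def ClaimPsi : Prop :=
  ∀ (W : Type) [NormedAddCommGroup W] [NormedSpace ℝ W] (Pj : Proj W) (R : W → ℕ → ℕ → ℝ),
    RFacts Pj R → ∃ (pa : Par) (Ψ : W → ℕ → ℕ → Fib), PsiFacts Pj pa R Ψ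

/-- The first unit vector of `ℓ₂`. -/
noncomputable def e0 : Fib := lp.single 2 0 (1 : ℝ)

/-- The component of `b m` along `Φ m`. -/
noncomputable def aC (Φ : ℕ → Fib) (b : ℕ → Fib) (m : ℕ) : ℝ := inner ℝ (Φ m) (b m)

/-- The interleaving of the zeroth coordinates and of the components `aC`. -/
noncomputable def cC (Φ : ℕ → Fib) (b : ℕ → Fib) (m : ℕ) : ℝ :=
  if m % 2 = 0 then b (m / 2) 0 else aC Φ b (m / 2)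

/-- The formula for the nonlinear map. -/
def IsH (Ψ : WW → ℕ → ℕ → Fib) (H : WW → WW) : Prop :=
  ∀ (w : WW) (n m : ℕ), H w n m =
    w n m - (w n m 0) • e0 + (cC (Ψ w n) (w n) m - aC (Ψ w n) (w n) m) • Ψ w n m

/-- The properties of the nonlinear map `H`. -/
structure HFacts {W : Type} [NormedAddCommGroup W] [NormedSpace ℝ W] (Pj : Proj W) (pa : Par)
    (π : W →L[ℝ] W) (H : W → W) : Prop where
  zero : H 0 = 0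
  lower : ∀ u v, (1 / 2) * ‖u - v‖ ≤ ‖H u - H v‖
  upper : ∀ u v, ‖H u - H v‖ ≤ (3 / 2) * ‖u - v‖
  idem : ∀ w, π (π w) = π w
  mem : ∀ w, π (H w) = H w
  surj : ∀ e, π e = e → ∃ w, H w = e
  good : ∃ C, VGood Pj pa C (fun w => H w - π w)

/-- The nonlinear map. -/
def ClaimH : Prop :=
  ∀ (Pj : Proj WW) (pa : Par) (π : WW →L[ℝ] WW) (Ψ : WW → ℕ → ℕ → Fib),
    IsCube Pj → IsPi π → RFacts Pj RR → PsiFacts Pj pa RR Ψ → ∃ H, HFacts Pj pa π H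

/-- The nonlinear map exists and is bi-Lipschitz. -/
def ClaimH1 : Prop :=
  ∀ (Pj : Proj WW) (pa : Par) (Ψ : WW → ℕ → ℕ → Fib), PsiFacts Pj pa RR Ψ →
    ∃ H, IsH Ψ H ∧ ∀ u v, (1 / 2) * ‖u - v‖ ≤ ‖H u - H v‖ ∧ ‖H u - H v‖ ≤ (3 / 2) * ‖u - v‖

/-- The nonlinear map is onto the kernel of the zeroth coordinates. -/
def ClaimH2 : Prop :=
  ∀ (Pj : Proj WW) (pa : Par) (Ψ : WW → ℕ → ℕ → Fib) (H : WW → WW), IsCube Pj →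
    PsiFacts Pj pa RR Ψ → IsH Ψ H → ∀ e : WW, (∀ n m, e n m 0 = 0) → ∃ w, H w = e

/-- The nonlinear part of `H` is good. -/
def ClaimH3 : Prop :=
  ∀ (Pj : Proj WW) (pa : Par) (π : WW →L[ℝ] WW) (Ψ : WW → ℕ → ℕ → Fib) (H : WW → WW),
    IsCube Pj → IsPi π → PsiFacts Pj pa RR Ψ → IsH Ψ H →
    (∀ u v, ‖H u - H v‖ ≤ (3 / 2) * ‖u - v‖) → ∃ C, VGood Pj pa C (fun w => H w - π w)

/-- No sequence equivalent to the unit vector basis of `c₀`. -/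
def NoC0 (Z : Type) [NormedAddCommGroup Z] [NormedSpace ℝ Z] : Prop :=
  ∀ (z : ℕ → Z) (c C : ℝ), 0 < c → (∀ k, c ≤ ‖z k‖) →
    (∀ (F : Finset ℕ) (ε : ℕ → ℝ), (∀ k, |ε k| ≤ 1) → ‖∑ k ∈ F, ε k • z k‖ ≤ C) → False

/-- The space `Z` that linearises a good map. -/
def ClaimZ : Prop :=
  ∀ (W : Type) [NormedAddCommGroup W] [NormedSpace ℝ W] [CompleteSpace W] (Pj : Proj W) (pa : Par)
    (D : W → W) (C : ℝ), NoWUC Pj pa → VGood Pj pa C D → D 0 = 0 →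
    TopologicalSpace.SeparableSpace W ∧
    ∃ (Z : Type) (_ : NormedAddCommGroup Z) (_ : NormedSpace ℝ Z),
      CompleteSpace Z ∧ TopologicalSpace.SeparableSpace Z ∧ NoC0 Z ∧
      ∃ (Δ : W → Z) (B : Z →L[ℝ] W), (∀ u v, ‖Δ u - Δ v‖ ≤ ‖u - v‖) ∧ (∀ w, B (Δ w) = D w) ∧
        ∀ T : W →L[ℝ] W, (∀ w, T (D w) = D w) → ∀ ν, T (B ν) = B ν

/-- The first target. -/
def Target120 : Prop :=
  ∃ (X : Type) (_ : NormedAddCommGroup X) (_ : NormedSpace ℝ X)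
      (Y : Type) (_ : NormedAddCommGroup Y) (_ : NormedSpace ℝ Y),
      CompleteSpace X ∧ TopologicalSpace.SeparableSpace X ∧
      CompleteSpace Y ∧ TopologicalSpace.SeparableSpace Y ∧
      (∃ Ψ : X → Y, Function.Bijective Ψ ∧
        ∀ s t : X, (4 / 21 : ℝ) * ‖s - t‖ ≤ ‖Ψ s - Ψ t‖ ∧ ‖Ψ s - Ψ t‖ ≤ (76 / 25 : ℝ) * ‖s - t‖) ∧
      Nonempty (ZeroAtInftyContinuousMap ℕ (lp (fun _ : ℕ => ℝ) 2) →ₗᵢ[ℝ] X) ∧
      (∀ S : Submodule ℝ Y, IsClosed (S : Set Y) →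
        IsEmpty (S ≃L[ℝ] ZeroAtInftyContinuousMap ℕ (lp (fun _ : ℕ => ℝ) 2))) ∧
      IsEmpty (X ≃L[ℝ] Y)

/-- The second target. -/
def Target121 : Prop :=
  ∃ (Z : Type) (_ : NormedAddCommGroup Z) (_ : NormedSpace ℝ Z),
      CompleteSpace Z ∧ TopologicalSpace.SeparableSpace Z ∧
      (∀ S : Submodule ℝ Z, IsClosed (S : Set Z) →
        IsEmpty (S ≃L[ℝ] ZeroAtInftyContinuousMap ℕ ℝ)) ∧
      ∃ F : Z × ZeroAtInftyContinuousMap ℕ ℝ → Z, Function.Surjective F ∧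
        ∃ c C : ℝ, 0 < c ∧
          ∀ u v : Z × ZeroAtInftyContinuousMap ℕ ℝ,
            c * ‖u - v‖ ≤ ‖F u - F v‖ ∧ ‖F u - F v‖ ≤ C * ‖u - v‖

/-- The assembly. -/
def ClaimGlue : Prop :=
  ClaimNoWUC → ClaimCube → ClaimMaps → ClaimPsi → ClaimH1 → ClaimH2 → ClaimH3 → ClaimZ →
    Target120 ∧ Target121

end Crest.Agent.R91
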