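import Crest.Agent.R91.Glide

/-! Row 91: no mass escapes to infinity, to large tails or into thin cylinders. -/

set_option autoImplicit false

open Filter Topology

namespace Crest.Agent.R91

variable {W : Type} [NormedAddCommGroup W] [NormedSpace ℝ W] {Pj : Proj W} {pa : Par}
  {ζ : ℕ → (W → ℝ) →ₗ[ℝ] ℝ} {CW : ℝ}

theorem escape_ball (hW : WUC Pj pa ζ CW) (C : ℝ) {ε : ℝ} (hε : 0 < ε) :
    ∃ (R : ℝ) (K : ℕ), 1 ≤ R ∧ ∀ k, K ≤ k → ∀ f : W → ℝ, Good Pj pa C f →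
      (∀ w, ‖w‖ < R → f w = 0) → |ζ k f| ≤ ε := by
  by_contra hcon
  push Not at hcon
  refine nested hW (C := 9 * C) hε (U := fun M => {w | (M : ℝ) + 1 ≤ ‖w‖})
    (fun M => isClosed_le continuous_const continuous_norm) (fun M M' h w hw => ?_) fun M K => ?_
  · have h1 : (M : ℝ) ≤ M' := by exact_mod_cast h
    have h2 : (M' : ℝ) + 1 ≤ ‖w‖ := hw
    show (M : ℝ) + 1 ≤ ‖w‖
    linarith
  · have hM : (0 : ℝ) ≤ M := Nat.cast_nonneg M
    obtain ⟨k, hk, f, hf, hf0, hfε⟩ := hcon ((M : ℝ) + 1) K (by linarith)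
    have h0 : f 0 = 0 := hf0 0 (by rw [norm_zero]; linarith)
    have hn : ∀ n : ℕ, (1 : ℝ) ≤ (n : ℝ) + 1 := fun n => by
      have : (0 : ℝ) ≤ n := Nat.cast_nonneg n
      linarith
    have hlim := hW.cont k (9 * C) (fun n w => f w * cut ((n : ℝ) + 1) (2 * ((n : ℝ) + 1)) ‖w‖) f
      (fun n => hf.mul_ball h0 (hn n)) fun w => by
        refine tendsto_const_nhds.congr' ?_
        obtain ⟨n₀, hn₀⟩ := exists_nat_ge ‖w‖
        filter_upwards [eventually_ge_atTop n₀] with n hn1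
        have h1 : (n₀ : ℝ) ≤ n := by exact_mod_cast hn1
        rw [cut_eq_one (by linarith [hn n]) (by linarith), mul_one]
    obtain ⟨n, hn1⟩ := (hlim.abs.eventually (lt_mem_nhds hfε)).exists
    refine ⟨k, hk, 2 * n + 1, _, hf.mul_ball h0 (hn n), fun w hw => ?_, ⟨0, fun w hw => ?_⟩, hn1.le⟩
    · rw [hf0 w (not_le.mp hw), zero_mul]
    · have h1 : ((2 * n + 1 : ℕ) : ℝ) + 1 ≤ ‖w‖ := hw
      push_cast at h1
      rw [cut_eq_zero (by linarith [hn n]) (by linarith), mul_zero]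

theorem escape_tail (hW : WUC Pj pa ζ CW) (C B : ℝ) {lo ε : ℝ} (hlo : 0 < lo) (hε : 0 < ε) :
    ∃ M K : ℕ, ∀ k, K ≤ k → ∀ f : W → ℝ, Good Pj pa C f → (∀ w, |f w| ≤ B) →
      (∀ w, ‖w - Pj.P M w‖ < lo → f w = 0) → |ζ k f| ≤ ε := by
  by_contra hcon
  push Not at hcon
  have hlt : lo / 2 < lo := by linarith
  obtain ⟨K₁, hK₁⟩ := good_cut_tail Pj pa (show 0 < lo / 2 by linarith) hlt
  refine nested hW (C := 1 * C + B * K₁) hε (U := fun M => {w | lo ≤ ‖w - Pj.P M w‖})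
    (fun M => isClosed_le continuous_const (continuous_id.sub (Pj.P M).continuous).norm)
    (fun M M' h w hw => le_trans hw (Pj.tail_anti h w)) fun M K => ?_
  obtain ⟨k, hk, f, hf, hB, hf0, hfε⟩ := hcon M K
  have hg : ∀ n, Good Pj pa (1 * C + B * K₁) (fun w => f w * cut (lo / 2) lo ‖w - Pj.P n w‖) :=
    fun n => hf.mul (hK₁ n) hB fun w => abs_cut_le _ _ _
  have hlim := hW.cont k _ _ f hg fun w => by
    refine tendsto_const_nhds.congr' ?_
    filter_upwards [(Pj.tail_tendsto w).eventually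
      (gt_mem_nhds (show 0 < lo / 2 by linarith))] with n hn1
    rw [cut_eq_one hlt hn1.le, mul_one]
  obtain ⟨n, hn1⟩ := (hlim.abs.eventually (lt_mem_nhds hfε)).exists
  refine ⟨k, hk, n, _, hg n, fun w hw => ?_, ⟨0, fun w hw => ?_⟩, hn1.le⟩
  · rw [hf0 w (not_le.mp hw), zero_mul]
  · rw [cut_eq_zero hlt hw, mul_zero]

/-- Flattening a function of `P N w` on a thin cylinder. -/
theorem good_flatten {C : ℝ} {f : W → ℝ} (hf : Good Pj pa C f) {N M : ℕ} (hNM : N ≤ M) (y : W) :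
    Good Pj pa (3 * C) (fun w => (f (Pj.P N w) - f (Pj.P N y)) *
      cut (pa.ρ M / 2) (pa.ρ M) ‖Pj.P M w - y‖) ∧
    ∀ w, |(f (Pj.P N w) - f (Pj.P N y)) * cut (pa.ρ M / 2) (pa.ρ M) ‖Pj.P M w - y‖| ≤
      C * pa.ρ M := by
  have hC := hf.nonneg
  have hρ := pa.ρ_pos M
  have hlt : pa.ρ M / 2 < pa.ρ M := by linarith
  have hb : ∀ w, cut (pa.ρ M / 2) (pa.ρ M) ‖Pj.P M w - y‖ ≠ 0 →
      |f (Pj.P N w) - f (Pj.P N y)| ≤ C * pa.ρ M := by
    intro w hw
    refine (hf.lip _ _).trans (mul_le_mul_of_nonneg_left ?_ hC)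
    rw [← Pj.PP_le hNM w]
    exact (Pj.norm_P_sub_le _ _ _).trans (lt_of_cut_ne_zero hlt hw).le
  refine ⟨good_cyl (N := M) (y := y) (by positivity) (fun u v => ?_) (fun w => ?_) (fun w hw => ?_),
    fun w => ?_⟩
  · rw [show 3 * C = C + 2 * C by ring]
    refine lip_mul_cut (f := fun w => f (Pj.P N w) - f (Pj.P N y))
      (φ := fun w => cut (pa.ρ M / 2) (pa.ρ M) ‖Pj.P M w - y‖) hC (by positivity)
      ((hf.comp_P N).sub_const _).lip (fun w => abs_cut_le _ _ _) (fun u v hu => ?_) u v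
    have h1 : |cut (pa.ρ M / 2) (pa.ρ M) ‖Pj.P M u - y‖ -
        cut (pa.ρ M / 2) (pa.ρ M) ‖Pj.P M v - y‖| ≤ ‖u - v‖ / (pa.ρ M - pa.ρ M / 2) := by
      refine (cut_lip hlt _ _).trans (div_le_div_of_nonneg_right ?_ (by linarith))
      refine (abs_norm_sub_norm_le _ _).trans ?_
      rw [sub_sub_sub_cancel_right]
      exact Pj.norm_P_sub_le _ _ _
    refine (mul_le_mul (hb u hu) h1 (abs_nonneg _) (by positivity)).trans (le_of_eq ?_)
    rw [show pa.ρ M - pa.ρ M / 2 = pa.ρ M / 2 by ring]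
    field_simp
  · rw [Pj.PP_le hNM, Pj.PP_le le_rfl]
  · exact lt_of_cut_ne_zero hlt (right_ne_zero_of_mul hw)
  · by_cases hw : cut (pa.ρ M / 2) (pa.ρ M) ‖Pj.P M w - y‖ = 0
    · rw [hw, mul_zero, abs_zero]; positivity
    · rw [abs_mul]
      have := mul_le_mul (hb w hw) (abs_cut_le (pa.ρ M / 2) (pa.ρ M) ‖Pj.P M w - y‖) (abs_nonneg _)
        (by positivity)
      linarith

theorem escape_cyl (hW : WUC Pj pa ζ CW) (C R : ℝ) {ε : ℝ} (hε : 0 < ε) :
    ∃ n : ℕ, ∀ j, n ≤ j → ∀ k, n ≤ k → ∀ y : W, ‖y‖ ≤ R → ∀ f : W → ℝ, Good Pj pa C f →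
      (∀ w, f w ≠ 0 → ‖Pj.P j (w - y)‖ ≤ 2 * pa.ρ j) → |ζ k f| ≤ ε := by
  by_contra hcon
  push Not at hcon
  choose j hj k hk y hy f hf hsupp hfε using hcon
  have hω : ∀ M, ∃ x : W, Tendsto (fun n => Pj.P M (y n)) (hyperfilter ℕ) (𝓝 x) := by
    intro M
    obtain ⟨Kc, hKc, hmem⟩ := Pj.exists_compact M R
    obtain ⟨x, -, hx⟩ := hKc.ultrafilter_le_nhds ((hyperfilter ℕ).map fun n => Pj.P M (y n))
      (by
        rw [le_principal_iff]
        exact mem_map.mpr (Eventually.of_forall fun n => hmem _ (hy n)))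
    exact ⟨x, hx⟩
  choose ω hω using hω
  have hωP : ∀ M M', M ≤ M' → Pj.P M (ω M') = ω M := by
    intro M M' h
    have h1 := ((Pj.P M).continuous.tendsto _).comp (hω M')
    refine tendsto_nhds_unique h1 ((hω M).congr fun n => ?_)
    simp only [Function.comp, Pj.PP_le h]
  have hmono : ∀ M M' w, M ≤ M' → ‖Pj.P M w - ω M‖ ≤ ‖Pj.P M' w - ω M'‖ := by
    intro M M' w h
    rw [← hωP M M' h, ← Pj.PP_le h w]
    exact Pj.norm_P_sub_le _ _ _
  refine nested hW (C := C + 3 * C) hε (U := fun M => {w | ‖Pj.P M w - ω M‖ ≤ pa.ρ M / 2})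
    (fun M => isClosed_le ((Pj.P M).continuous.sub continuous_const).norm continuous_const)
    (fun M M' h w hw => ?_) fun M K => ?_
  · have h1 : ‖Pj.P M' w - ω M'‖ ≤ pa.ρ M' / 2 := hw
    have h2 := pa.ρ_anti h
    have h3 := hmono M M' w h
    show ‖Pj.P M w - ω M‖ ≤ pa.ρ M / 2
    linarith
  · have hρ := pa.ρ_pos M
    have e1 : ∀ᶠ n in (hyperfilter ℕ : Filter ℕ), ‖Pj.P M (y n) - ω M‖ < pa.ρ M / 4 := by
      have := (tendsto_iff_norm_sub_tendsto_zero.mp (hω M))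
      exact this.eventually (gt_mem_nhds (by linarith))
    have e2 : ∀ᶠ n in (hyperfilter ℕ : Filter ℕ), max K (M + 3) ≤ n :=
      Nat.hyperfilter_le_atTop (eventually_ge_atTop _)
    obtain ⟨n, hn1, hn2⟩ := (e1.and e2).exists
    have hKn : K ≤ k n := ((le_max_left _ _).trans hn2).trans (hk n)
    have hMj : M + 3 ≤ j n := ((le_max_right _ _).trans hn2).trans (hj n)
    have hρj : 2 * pa.ρ (j n) ≤ pa.ρ M / 4 := by
      have h1 := pa.ρ_anti hMj
      have h2 := pa.ρ_half M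
      have h3 := pa.ρ_half (M + 1)
      have h4 := pa.ρ_half (M + 2)
      linarith
    have hU : ∀ w, f n w ≠ 0 → ‖Pj.P M w - ω M‖ ≤ pa.ρ M / 2 := by
      intro w hw
      have h1 := (Pj.norm_P_mono (show M ≤ j n by omega) (w - y n)).trans (hsupp n w hw)
      rw [map_sub] at h1
      have h2 := norm_sub_le_norm_sub_add_norm_sub (Pj.P M w) (Pj.P M (y n)) (ω M)
      linarith
    obtain ⟨N, hN1, hN2⟩ := (((hW.comp_P (hf n) (k n)).abs.eventually (lt_mem_nhds (hfε n))).and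
      (eventually_ge_atTop (M + 1))).exists
    let g : ℕ → W → ℝ := fun i w => f n (Pj.P N w) - (f n (Pj.P N w) - f n (Pj.P N (ω (i + N)))) *
      cut (pa.ρ (i + N) / 2) (pa.ρ (i + N)) ‖Pj.P (i + N) w - ω (i + N)‖
    have hg : ∀ i, Good Pj pa (C + 3 * C) (g i) := fun i =>
      ((hf n).comp_P N).sub (good_flatten (hf n) (Nat.le_add_left N i) (ω (i + N))).1
    have hlim := hW.cont (k n) _ g (fun w => f n (Pj.P N w)) hg fun w => by
      have h1 : Tendsto (fun i => C * pa.ρ (i + N)) atTop (𝓝 (C * 0)) :=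
        (pa.ρ_tendsto.comp (tendsto_add_atTop_nat N)).const_mul C
      rw [mul_zero] at h1
      have h2 := (tendsto_zero_iff_abs_tendsto_zero _).mpr (squeeze_zero (fun i => abs_nonneg _)
        (fun i => (good_flatten (hf n) (Nat.le_add_left N i) (ω (i + N))).2 w) h1)
      simpa using (tendsto_const_nhds (x := f n (Pj.P N w))).sub h2
    obtain ⟨i, hi⟩ := (hlim.abs.eventually (lt_mem_nhds hN1)).exists
    have hρi := pa.ρ_pos (i + N)
    have hlt : pa.ρ (i + N) / 2 < pa.ρ (i + N) := by linarith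
    refine ⟨k n, hKn, i + N, g i, hg i, fun w hw => ?_, ⟨f n (Pj.P N (ω (i + N))), fun w hw => ?_⟩,
      hi.le⟩
    · have hw' : ¬ ‖Pj.P M w - ω M‖ ≤ pa.ρ M / 2 := hw
      have h1 : f n (Pj.P N w) = 0 := by
        by_contra h
        have := hU _ h
        rw [Pj.PP_le (by omega)] at this
        exact hw' this
      have h2 : cut (pa.ρ (i + N) / 2) (pa.ρ (i + N)) ‖Pj.P (i + N) w - ω (i + N)‖ = 0 := by
        by_contra h
        have h3 := lt_of_cut_ne_zero hlt h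
        have h4 := hmono M (i + N) w (by omega)
        have h5 := pa.ρ_lt (show M < i + N by omega)
        exact hw' (by linarith)
      simp only [g, h2, mul_zero, sub_zero, h1]
    · have hw' : ‖Pj.P (i + N) w - ω (i + N)‖ ≤ pa.ρ (i + N) / 2 := hw
      simp only [g, cut_eq_one hlt hw', mul_one, sub_sub_cancel]

end Crest.Agent.R91
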