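import Crest.Agent.R91.Cut

/-! Row 91: gluing by gliding over the levels and by nested supports. -/

set_option autoImplicit false

open Filter Topology

namespace Crest.Agent.R91

variable {W : Type} [NormedAddCommGroup W] [NormedSpace ℝ W] {Pj : Proj W} {pa : Par}
  {ζ : ℕ → (W → ℝ) →ₗ[ℝ] ℝ} {CW : ℝ}

omit [NormedAddCommGroup W] [NormedSpace ℝ W] in
theorem exists_sign (ζ : ℕ → (W → ℝ) →ₗ[ℝ] ℝ) (G H : W → ℝ) (F₁ F₂ : Finset ℕ) :
    ∃ θ : ℝ, |θ| = 1 ∧ ∑ k ∈ F₁, |ζ k G| + ∑ k ∈ F₂, |ζ k H| ≤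
      ∑ k ∈ F₁, |ζ k (fun w => G w + θ * H w)| + ∑ k ∈ F₂, |ζ k (fun w => G w + θ * H w)| := by
  have h0 : ∀ (θ : ℝ) k, ζ k (fun w => G w + θ * H w) = ζ k G + θ * ζ k H := by
    intro θ k
    have : (fun w => G w + θ * H w) = G + θ • H := by ext w; simp
    rw [this, map_add, map_smul, smul_eq_mul]
  have h1 : 2 * ∑ k ∈ F₁, |ζ k G| ≤
      ∑ k ∈ F₁, |ζ k G + 1 * ζ k H| + ∑ k ∈ F₁, |ζ k G + (-1) * ζ k H| := by
    rw [Finset.mul_sum, ← Finset.sum_add_distrib]
    refine Finset.sum_le_sum fun k _ => ?_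
    have := (abs_add_add_abs_sub (ζ k G) (ζ k H)).1
    simpa [sub_eq_add_neg] using this
  have h2 : 2 * ∑ k ∈ F₂, |ζ k H| ≤
      ∑ k ∈ F₂, |ζ k G + 1 * ζ k H| + ∑ k ∈ F₂, |ζ k G + (-1) * ζ k H| := by
    rw [Finset.mul_sum, ← Finset.sum_add_distrib]
    refine Finset.sum_le_sum fun k _ => ?_
    have := (abs_add_add_abs_sub (ζ k G) (ζ k H)).2
    simpa [sub_eq_add_neg] using this
  simp only [h0]
  by_contra hcon
  push Not at hcon
  have h3 := hcon 1 (by simp)
  have h4 := hcon (-1) (by simp)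
  linarith

theorem good_add_glide {G H : W → ℝ} {C b L ε : ℝ} {N : ℕ} (hb : 0 ≤ b) (hL : 0 ≤ L)
    (hG : Good Pj pa (C + b) G) (hN : ∀ w, G (Pj.P N w) = G w) (hH : Good Pj pa C H)
    (hlip : ∀ u v, |H u - H v| ≤ L * ‖u - v‖) (hε : (N + 1) * L ≤ ε) :
    Good Pj pa (C + b + ε) (fun w => G w + H w) := by
  have hN0 : (0 : ℝ) ≤ N := Nat.cast_nonneg N
  have hε0 : L ≤ ε := by nlinarith
  have hC := hH.nonneg
  refine ⟨by linarith, fun u v => ?_, fun j M κ ι s u v hA a A h0 hs => ?_⟩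
  · have h1 := hG.lip u v
    have h2 := hlip u v
    have h3 : G u + H u - (G v + H v) = (G u - G v) + (H u - H v) := by ring
    have h4 := abs_add_le (G u - G v) (H u - H v)
    have h5 := mul_le_mul_of_nonneg_right hε0 (norm_nonneg (u - v))
    rw [h3]; linarith
  · have h3 : ∑ i ∈ s, a i * (G (u i) + H (u i) - (G (v i) + H (v i))) =
        ∑ i ∈ s, a i * (G (u i) - G (v i)) + ∑ i ∈ s, a i * (H (u i) - H (v i)) := by
      rw [← Finset.sum_add_distrib]
      exact Finset.sum_congr rfl fun i _ => by ring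
    rw [h3]
    rcases le_total N j with hj | hj
    · rw [atom_dep hA hj hN, zero_add]
      refine (hH.atom j M κ ι s u v hA a A h0 hs).trans (mul_le_mul_of_nonneg_right ?_ h0)
      linarith
    · have h1 := hG.atom j M κ ι s u v hA a A h0 hs
      have h2 : ∑ i ∈ s, a i * (H (u i) - H (v i)) ≤ ε * A := by
        refine (atom_lip hA hL hlip h0 hs).trans (mul_le_mul_of_nonneg_right ?_ h0)
        have : (j : ℝ) ≤ N + 1 := by exact_mod_cast hj.trans (Nat.le_succ N)
        nlinarith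
      have h4 := kappa_le hA.κ_nonneg hA.κ_le (mul_nonneg (hL.trans hε0) h0) h2
      linarith

/-- Gliding over the levels. -/
theorem glide (hW : WUC Pj pa ζ CW) {C β : ℝ} (hβ : 0 < β) (h4 : Stage4 Pj pa ζ C β) : False := by
  have hCW := hW.nonneg
  have hC : 0 ≤ C := by
    obtain ⟨_, H, hH, -⟩ := h4 1 one_pos 0
    exact hH.nonneg
  set ε : ℝ := β / (4 * (CW + 1)) with hε
  have hε0 : 0 < ε := by positivity
  have key : ∀ i : ℕ, ∃ (K N : ℕ) (G : W → ℝ), Good Pj pa (C + i * ε) G ∧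
      (∀ w, G (Pj.P N w) = G w) ∧ i * (β / 2) ≤ ∑ k ∈ Finset.range K, |ζ k G| := by
    intro i
    induction i with
    | zero =>
      exact ⟨0, 0, fun _ => 0, (Good.const 0).mono (by simpa using hC), fun _ => rfl, by simp⟩
    | succ i ih =>
      obtain ⟨K, N, G, hG, hN, hV⟩ := ih
      have hL : 0 < ε / (N + 1) := by positivity
      obtain ⟨K', H, hH, hlip, hβH⟩ := h4 (ε / (N + 1)) hL K
      have hKK : K ≤ K' := by
        by_contra hlt
        rw [Finset.Ico_eq_empty (by omega), Finset.sum_empty] at hβH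
        linarith
      have hlim : Tendsto (fun N' => ∑ k ∈ Finset.Ico K K', |ζ k (fun w => H (Pj.P N' w))|) atTop
          (𝓝 (∑ k ∈ Finset.Ico K K', |ζ k H|)) :=
        tendsto_finsetSum _ fun k _ => (hW.comp_P hH k).abs
      obtain ⟨N', hN1, hN2⟩ := ((hlim.eventually (lt_mem_nhds (show β / 2 < _ by linarith))).and
        (eventually_ge_atTop N)).exists
      obtain ⟨θ, hθ, hs⟩ := exists_sign ζ G (fun w => H (Pj.P N' w)) (Finset.range K)
        (Finset.Ico K K')
      refine ⟨K', N', fun w => G w + θ * H (Pj.P N' w), ?_, fun w => ?_, ?_⟩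
      · have h1 := (hH.comp_P N').smul θ
        rw [hθ, one_mul] at h1
        have := good_add_glide (ε := ε) (by positivity) hL.le hG hN h1 (fun u v => ?_)
          (le_of_eq (by field_simp))
        · refine this.mono (le_of_eq ?_)
          push_cast; ring
        · rw [← mul_sub, abs_mul, hθ, one_mul]
          exact (hlip _ _).trans (mul_le_mul_of_nonneg_left (Pj.norm_P_sub_le _ _ _) hL.le)
      · simp only
        rw [Pj.PP_le le_rfl, ← hN (Pj.P N' w), Pj.PP_le hN2, hN]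
      · rw [← Finset.sum_range_add_sum_Ico _ hKK]
        push_cast
        linarith
  obtain ⟨i, hi⟩ := exists_nat_gt (CW * C / (β / 4))
  obtain ⟨K, N, G, hG, -, hV⟩ := key i
  have h1 := hW.sum_le _ G hG (Finset.range K)
  rw [div_lt_iff₀ (by positivity)] at hi
  have h2 : CW * ε ≤ β / 4 := by
    rw [hε, ← mul_div_assoc, div_le_div_iff₀ (by positivity) (by positivity)]
    nlinarith
  have h3 : (0 : ℝ) ≤ i := Nat.cast_nonneg i
  have h5 := mul_le_mul_of_nonneg_left h2 h3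
  nlinarith

theorem lip_add_nested {U : Set W} (hU : IsClosed U) {G f : W → ℝ} {C c : ℝ}
    (hG : ∀ u v, |G u - G v| ≤ C * ‖u - v‖) (hf : ∀ u v, |f u - f v| ≤ C * ‖u - v‖)
    (hfc : Continuous f) (hc : ∀ w ∈ U, G w = c) (h0 : ∀ w, w ∉ U → f w = 0) (u v : W) :
    |G u + f u - (G v + f v)| ≤ C * ‖u - v‖ := by
  have key : ∀ u v, u ∈ U → v ∉ U → |G u + f u - (G v + f v)| ≤ C * ‖u - v‖ := by
    intro u v hu hv
    have hpre : IsPreconnected (segment ℝ u v) := (convex_segment u v).isPreconnected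
    obtain ⟨p, hp, hp1, hp2⟩ := isPreconnected_closed_iff.mp hpre U (closure Uᶜ) hU
      isClosed_closure (fun x _ => by
        by_cases hx : x ∈ U
        · exact Or.inl hx
        · exact Or.inr (subset_closure hx))
      ⟨u, left_mem_segment ℝ u v, hu⟩ ⟨v, right_mem_segment ℝ u v, subset_closure hv⟩
    have hfp : f p = 0 :=
      closure_minimal (t := {w | f w = 0}) (fun w hw => h0 w hw)
        (isClosed_eq hfc continuous_const) hp2
    have hd := dist_add_dist_of_mem_segment hp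
    rw [dist_eq_norm, dist_eq_norm, dist_eq_norm] at hd
    have h1 : G u + f u - (G v + f v) = (f u - f p) + (G p - G v) := by
      rw [hc u hu, hc p hp1, hfp, h0 v hv]; ring
    have h2 := abs_add_le (f u - f p) (G p - G v)
    have h3 := hf u p
    have h4 := hG p v
    rw [h1, ← hd]; linarith
  by_cases hu : u ∈ U
  · by_cases hv : v ∈ U
    · rw [hc u hu, hc v hv, add_sub_add_left_eq_sub]; exact hf u v
    · exact key u v hu hv
  · by_cases hv : v ∈ U
    · rw [abs_sub_comm, norm_sub_rev]; exact key v u hv hu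
    · rw [h0 u hu, h0 v hv, add_zero, add_zero]; exact hG u v

/-- Gluing along nested closed sets. -/
theorem nested (hW : WUC Pj pa ζ CW) {C ε : ℝ} (hε : 0 < ε) {U : ℕ → Set W}
    (hU : ∀ M, IsClosed (U M)) (hanti : Antitone U)
    (h : ∀ M K : ℕ, ∃ k, K ≤ k ∧ ∃ (M' : ℕ) (f : W → ℝ), Good Pj pa C f ∧
      (∀ w, w ∉ U M → f w = 0) ∧ (∃ c, ∀ w ∈ U M', f w = c) ∧ ε ≤ |ζ k f|) : False := by
  have hC : 0 ≤ C := by
    obtain ⟨_, -, _, f, hf, -⟩ := h 0 0
    exact hf.nonneg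
  refine glide hW (C := C) hε fun L hL K => ?_
  have key : ∀ i : ℕ, ∃ (K' M : ℕ) (G : W → ℝ), K ≤ K' ∧ Good Pj pa (i * C) G ∧
      (∀ u v, |G u - G v| ≤ C * ‖u - v‖) ∧ (∃ c, ∀ w ∈ U M, G w = c) ∧
      i * ε ≤ ∑ k ∈ Finset.Ico K K', |ζ k G| := by
    intro i
    induction i with
    | zero =>
      refine ⟨K, 0, fun _ => 0, le_rfl, by simpa using Good.const (Pj := Pj) (pa := pa) 0,
        fun u v => ?_, ⟨0, fun _ _ => rfl⟩, by simp⟩
      simp only [sub_self, abs_zero]; positivity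
    | succ i ih =>
      obtain ⟨K', M, G, hK, hG, hlip, ⟨c, hc⟩, hV⟩ := ih
      obtain ⟨k, hk, M', f, hf, hf0, ⟨c', hc'⟩, hfε⟩ := h M K'
      obtain ⟨θ, hθ, hs⟩ := exists_sign ζ G f (Finset.Ico K K') {k}
      have hf' := hf.smul θ
      rw [hθ, one_mul] at hf'
      refine ⟨k + 1, max M M', fun w => G w + θ * f w, by omega, ?_, ?_, ⟨c + θ * c', ?_⟩, ?_⟩
      · refine (hG.add hf').mono (le_of_eq ?_)
        push_cast; ring
      · exact lip_add_nested (hU M) hlip hf'.lip hf'.continuous hc fun w hw => by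
          rw [hf0 w hw, mul_zero]
      · intro w hw
        simp only
        rw [hc w (hanti (le_max_left _ _) hw), hc' w (hanti (le_max_right _ _) hw)]
      · have h1 : ∑ k ∈ Finset.Ico K K', |ζ k (fun w => G w + θ * f w)| ≤
            ∑ k ∈ Finset.Ico K k, |ζ k (fun w => G w + θ * f w)| :=
          Finset.sum_le_sum_of_subset_of_nonneg (Finset.Ico_subset_Ico le_rfl hk)
            fun _ _ _ => abs_nonneg _
        rw [Finset.sum_Ico_succ_top (hK.trans hk)]
        rw [Finset.sum_singleton, Finset.sum_singleton] at hs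
        push_cast
        linarith
  obtain ⟨i, hi⟩ := exists_nat_gt (C / L)
  have hi0 : (0 : ℝ) < i := lt_of_le_of_lt (by positivity) hi
  obtain ⟨K', M, G, -, hG, hlip, -, hV⟩ := key i
  refine ⟨K', fun w => (i : ℝ)⁻¹ * G w, ?_, fun u v => ?_, ?_⟩
  · refine (hG.smul _).mono (le_of_eq ?_)
    rw [abs_of_pos (inv_pos.mpr hi0)]; field_simp
  · rw [← mul_sub, abs_mul, abs_of_pos (inv_pos.mpr hi0), inv_mul_le_iff₀ hi0]
    refine (hlip u v).trans ?_
    rw [div_lt_iff₀ hL] at hi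
    rw [← mul_assoc]
    exact mul_le_mul_of_nonneg_right hi.le (norm_nonneg _)
  · have h1 : ∀ k, |ζ k (fun w => (i : ℝ)⁻¹ * G w)| = (i : ℝ)⁻¹ * |ζ k G| := by
      intro k
      have : (fun w => (i : ℝ)⁻¹ * G w) = (i : ℝ)⁻¹ • G := by ext w; simp
      rw [this, map_smul, smul_eq_mul, abs_mul, abs_of_pos (inv_pos.mpr hi0)]
    simp only [h1]
    rw [← Finset.mul_sum, le_inv_mul_iff₀ hi0]
    exact hV

end Crest.Agent.R91
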