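import Crest.Agent.R91.Defs

/-!
Row 91: the assembly `claimGlue`.  The two spaces are graphs in `W × Z`.
-/

set_option autoImplicit false

open Filter Topology

namespace Crest.Agent.R91

namespace GlueAux

/-- The sequence with the single entry `x` at place `k`. -/
noncomputable def sgl {F : Type} [NormedAddCommGroup F] (k : ℕ) (x : F) :
    ZeroAtInftyContinuousMap ℕ F where
  toFun := fun n => if n = k then x else 0
  continuous_toFun := continuous_of_discreteTopology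
  zero_at_infty' := by
    rw [cocompact_eq_cofinite, Nat.cofinite_eq_atTop]
    refine tendsto_const_nhds.congr' ?_
    filter_upwards [eventually_gt_atTop k] with n hn
    simp [hn.ne']

theorem anchor : True := by
  have := @sgl.eq_1
  trivial

theorem sgl_apply {F : Type} [NormedAddCommGroup F] (k : ℕ) (x : F) (n : ℕ) :
    sgl k x n = if n = k then x else 0 := rfl

theorem norm_apply_le {F : Type} [NormedAddCommGroup F] (f : ZeroAtInftyContinuousMap ℕ F)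
    (n : ℕ) : ‖f n‖ ≤ ‖f‖ := by
  rw [← ZeroAtInftyContinuousMap.norm_toBCF_eq_norm]
  exact f.toBCF.norm_coe_le_norm n

theorem norm_le_of {F : Type} [NormedAddCommGroup F] (f : ZeroAtInftyContinuousMap ℕ F)
    (C : ℝ) (hC : 0 ≤ C) (h : ∀ n, ‖f n‖ ≤ C) : ‖f‖ ≤ C := by
  rw [← ZeroAtInftyContinuousMap.norm_toBCF_eq_norm]
  exact (BoundedContinuousFunction.norm_le hC).2 h

theorem sum_apply {F : Type} [NormedAddCommGroup F] (s : Finset ℕ)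
    (f : ℕ → ZeroAtInftyContinuousMap ℕ F) (n : ℕ) :
    (∑ k ∈ s, f k) n = ∑ k ∈ s, f k n := by
  classical
  induction s using Finset.induction_on with
  | empty => simp
  | insert a s ha ih => simp [Finset.sum_insert ha, ih]

/-- No bounded below operator from a `c₀` sum into a space without `c₀`. -/
theorem noEmb {F Z : Type} [NormedAddCommGroup F] [NormedSpace ℝ F] [NormedAddCommGroup Z]
    [NormedSpace ℝ Z] (hZ : NoC0 Z) (x0 : F) (hx0 : ‖x0‖ = 1)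
    (T : ZeroAtInftyContinuousMap ℕ F →L[ℝ] Z) (K : ℝ) (hK : 0 < K)
    (hT : ∀ x, ‖x‖ ≤ K * ‖T x‖) : False := by
  refine hZ (fun k => T (sgl k x0)) K⁻¹ ‖T‖ (inv_pos.2 hK) (fun k => ?_) (fun s ε hε => ?_)
  · have h1 : (1 : ℝ) ≤ ‖sgl k x0‖ := by
      have := norm_apply_le (sgl k x0) k
      rw [sgl_apply, if_pos rfl, hx0] at this
      exact this
    have h2 := hT (sgl k x0)
    rw [inv_le_iff_one_le_mul₀' hK]
    linarith
  · have h1 : ∑ k ∈ s, ε k • T (sgl k x0) = T (∑ k ∈ s, ε k • sgl k x0) := by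
      simp [map_sum]
    rw [h1]
    have h2 : ‖∑ k ∈ s, ε k • sgl k x0‖ ≤ 1 := by
      refine norm_le_of _ 1 zero_le_one fun n => ?_
      rw [sum_apply]
      have h3 : ∀ k ∈ s, (ε k • sgl k x0) n = if n = k then ε n • x0 else 0 := by
        intro k _
        rw [ZeroAtInftyContinuousMap.smul_apply, sgl_apply]
        split_ifs with h
        · rw [h]
        · simp
      rw [Finset.sum_congr rfl h3, Finset.sum_ite_eq]
      split_ifs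
      · rw [norm_smul, hx0, mul_one, Real.norm_eq_abs]
        exact hε n
      · simp
    calc ‖T (∑ k ∈ s, ε k • sgl k x0)‖ ≤ ‖T‖ * ‖∑ k ∈ s, ε k • sgl k x0‖ := T.le_opNorm _
      _ ≤ ‖T‖ * 1 := by gcongr
      _ = ‖T‖ := mul_one _

theorem noSub {F Y Z : Type} [NormedAddCommGroup F] [NormedSpace ℝ F] [NormedAddCommGroup Y]
    [NormedSpace ℝ Y] [NormedAddCommGroup Z] [NormedSpace ℝ Z] (hZ : NoC0 Z) (x0 : F)
    (hx0 : ‖x0‖ = 1) (J : Y →L[ℝ] Z) (K : ℝ) (hK : 0 < K) (hJ : ∀ y, ‖y‖ ≤ K * ‖J y‖)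
    (S : Submodule ℝ Y) : IsEmpty (S ≃L[ℝ] ZeroAtInftyContinuousMap ℕ F) := by
  refine ⟨fun e => ?_⟩
  refine noEmb hZ x0 hx0 (J ∘L S.subtypeL ∘L (e.symm : _ →L[ℝ] S))
    ((‖(e : S →L[ℝ] ZeroAtInftyContinuousMap ℕ F)‖ + 1) * K) (by positivity) fun x => ?_
  have h1 : ‖x‖ ≤ ‖(e : S →L[ℝ] ZeroAtInftyContinuousMap ℕ F)‖ * ‖e.symm x‖ := by
    have := (e : S →L[ℝ] ZeroAtInftyContinuousMap ℕ F).le_opNorm (e.symm x)
    simpa using this
  have h2 := hJ (e.symm x : Y)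
  have h3 : ‖((e.symm x : S) : Y)‖ = ‖e.symm x‖ := rfl
  have h4 : (J ∘L S.subtypeL ∘L (e.symm : _ →L[ℝ] S)) x = J (e.symm x : Y) := rfl
  rw [h4]
  rw [h3] at h2
  have h5 : 0 ≤ ‖(e : S →L[ℝ] ZeroAtInftyContinuousMap ℕ F)‖ :=
    ContinuousLinearMap.opNorm_nonneg _
  have h6 : 0 ≤ K * ‖J (e.symm x : Y)‖ := by positivity
  calc ‖x‖ ≤ ‖(e : S →L[ℝ] ZeroAtInftyContinuousMap ℕ F)‖ * ‖e.symm x‖ := h1
    _ ≤ ‖(e : S →L[ℝ] ZeroAtInftyContinuousMap ℕ F)‖ * (K * ‖J (e.symm x : Y)‖) := by gcongr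
    _ ≤ (‖(e : S →L[ℝ] ZeroAtInftyContinuousMap ℕ F)‖ + 1) * (K * ‖J (e.symm x : Y)‖) := by
        gcongr; linarith
    _ = _ := by ring

theorem norm_e0 : ‖e0‖ = 1 := by
  unfold e0
  rw [lp.norm_single (by norm_num)]
  simp

section Abstract

variable {W Z : Type} [NormedAddCommGroup W] [NormedSpace ℝ W] [NormedAddCommGroup Z]
  [NormedSpace ℝ Z]

theorem target120 [CompleteSpace W] [TopologicalSpace.SeparableSpace W] [CompleteSpace Z]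
    [TopologicalSpace.SeparableSpace Z] (hZ : NoC0 Z) (π : W →L[ℝ] W) (H : W → W) (Δ : W → Z)
    (B : Z →L[ℝ] W) (hlo : ∀ u v, (1 / 2) * ‖u - v‖ ≤ ‖H u - H v‖)
    (hup : ∀ u v, ‖H u - H v‖ ≤ (3 / 2) * ‖u - v‖) (hΔ : ∀ u v, ‖Δ u - Δ v‖ ≤ ‖u - v‖)
    (hB : ∀ w, B (Δ w) = H w - π w) (hs : ∀ ν, ∃ w, H w = B ν)
    (ι : ZeroAtInftyContinuousMap ℕ Fib →ₗᵢ[ℝ] W) (hι : ∀ c, π (ι c) = 0) : Target120 := by
  have : SecondCountableTopology W := UniformSpace.secondCountable_of_separable W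
  have : SecondCountableTopology Z := UniformSpace.secondCountable_of_separable Z
  let fX : W × Z →L[ℝ] W := π ∘L ContinuousLinearMap.fst ℝ W Z - B ∘L ContinuousLinearMap.snd ℝ W Z
  let fY : W × Z →L[ℝ] W := ContinuousLinearMap.fst ℝ W Z - B ∘L ContinuousLinearMap.snd ℝ W Z
  let X : Submodule ℝ (W × Z) := fX.ker
  let Y : Submodule ℝ (W × Z) := fY.ker
  have mX : ∀ p : W × Z, p ∈ X ↔ π p.1 = B p.2 := by
    intro p
    simp [X, fX, sub_eq_zero]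
  have mY : ∀ p : W × Z, p ∈ Y ↔ p.1 = B p.2 := by
    intro p
    simp [Y, fY, sub_eq_zero]
  have cX : IsClosed (X : Set (W × Z)) := fX.isClosed_ker
  have cY : IsClosed (Y : Set (W × Z)) := fY.isClosed_ker
  have hmap : ∀ p : X, ((H p.1.1, p.1.2 + Δ p.1.1) : W × Z) ∈ Y := by
    intro p
    rw [mY]
    have := (mX p.1).1 p.2
    simp only [map_add, hB, ← this]
    abel
  let Ψ : X → Y := fun p => ⟨(H p.1.1, p.1.2 + Δ p.1.1), hmap p⟩
  have hΨ : ∀ s t : X, (1 / 3 : ℝ) * ‖s - t‖ ≤ ‖Ψ s - Ψ t‖ ∧ ‖Ψ s - Ψ t‖ ≤ 2 * ‖s - t‖ := by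
    intro s t
    have e1 : ‖s - t‖ = max ‖s.1.1 - t.1.1‖ ‖s.1.2 - t.1.2‖ := rfl
    have e2 : ‖Ψ s - Ψ t‖ =
        max ‖H s.1.1 - H t.1.1‖ ‖(s.1.2 + Δ s.1.1) - (t.1.2 + Δ t.1.1)‖ := rfl
    have a1 := hlo s.1.1 t.1.1
    have a2 := hup s.1.1 t.1.1
    have a3 := hΔ s.1.1 t.1.1
    have a4 : ‖(s.1.2 + Δ s.1.1) - (t.1.2 + Δ t.1.1)‖ ≤
        ‖s.1.2 - t.1.2‖ + ‖Δ s.1.1 - Δ t.1.1‖ := by
      rw [show (s.1.2 + Δ s.1.1) - (t.1.2 + Δ t.1.1) =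
        (s.1.2 - t.1.2) + (Δ s.1.1 - Δ t.1.1) by abel]
      exact norm_add_le _ _
    have a5 : ‖s.1.2 - t.1.2‖ ≤
        ‖(s.1.2 + Δ s.1.1) - (t.1.2 + Δ t.1.1)‖ + ‖Δ s.1.1 - Δ t.1.1‖ := by
      rw [show s.1.2 - t.1.2 = ((s.1.2 + Δ s.1.1) - (t.1.2 + Δ t.1.1)) -
        (Δ s.1.1 - Δ t.1.1) by abel]
      refine (norm_sub_le _ _).trans (le_of_eq ?_)
      congr 2
    have b1 := le_max_left ‖s.1.1 - t.1.1‖ ‖s.1.2 - t.1.2‖
    have b2 := le_max_right ‖s.1.1 - t.1.1‖ ‖s.1.2 - t.1.2‖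
    have b3 := le_max_left ‖H s.1.1 - H t.1.1‖ ‖(s.1.2 + Δ s.1.1) - (t.1.2 + Δ t.1.1)‖
    have b4 := le_max_right ‖H s.1.1 - H t.1.1‖ ‖(s.1.2 + Δ s.1.1) - (t.1.2 + Δ t.1.1)‖
    have b5 := norm_nonneg (s.1.1 - t.1.1)
    have b6 := norm_nonneg (H s.1.1 - H t.1.1)
    rw [e1, e2]
    constructor
    · have : max ‖s.1.1 - t.1.1‖ ‖s.1.2 - t.1.2‖ ≤
          3 * max ‖H s.1.1 - H t.1.1‖ ‖(s.1.2 + Δ s.1.1) - (t.1.2 + Δ t.1.1)‖ :=
        max_le (by linarith) (by linarith)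
      linarith
    · exact max_le (by linarith) (by linarith)
  let J : Y →L[ℝ] Z := ContinuousLinearMap.snd ℝ W Z ∘L Y.subtypeL
  have hJ : ∀ y : Y, ‖y‖ ≤ (‖B‖ + 1) * ‖J y‖ := by
    intro y
    have e1 : ‖y‖ = max ‖y.1.1‖ ‖y.1.2‖ := rfl
    have e2 : J y = y.1.2 := rfl
    rw [e1, e2, (mY y.1).1 y.2]
    have a1 := B.le_opNorm y.1.2
    have a2 := norm_nonneg y.1.2
    have a3 := norm_nonneg B
    exact max_le (by nlinarith) (by nlinarith)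
  let ιX : ZeroAtInftyContinuousMap ℕ Fib →ₗᵢ[ℝ] X :=
    { toFun := fun c => ⟨(ι c, 0), by rw [mX]; simp [hι]⟩
      map_add' := fun c d => by ext <;> simp
      map_smul' := fun a c => by ext <;> simp
      norm_map' := fun c => by
        change max ‖ι c‖ ‖(0 : Z)‖ = ‖c‖
        simp }
  refine ⟨X, inferInstance, inferInstance, Y, inferInstance, inferInstance,
    cX.completeSpace_coe, inferInstance, cY.completeSpace_coe, inferInstance,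
    ⟨Ψ, ⟨fun s t hst => ?_, fun y => ?_⟩, fun s t => ?_⟩, ⟨ιX⟩, fun S _ => ?_, ⟨fun e => ?_⟩⟩
  · have := (hΨ s t).1
    rw [hst, sub_self, norm_zero] at this
    have h0 := norm_nonneg (s - t)
    exact sub_eq_zero.1 (norm_eq_zero.1 (by linarith))
  · obtain ⟨w, hw⟩ := hs y.1.2
    refine ⟨⟨(w, y.1.2 - Δ w), ?_⟩, ?_⟩
    · rw [mX]
      simp only [map_sub, hB, hw]
      abel
    · apply Subtype.ext
      apply Prod.ext
      · change H w = y.1.1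
        rw [hw, (mY y.1).1 y.2]
      · change y.1.2 - Δ w + Δ w = y.1.2
        abel
  · have h := hΨ s t
    have h0 := norm_nonneg (s - t)
    constructor <;> linarith [h.1, h.2]
  · exact noSub hZ e0 norm_e0 J (‖B‖ + 1) (by positivity) hJ S
  · refine noEmb hZ e0 norm_e0 (J ∘L (e : X →L[ℝ] Y) ∘L ιX.toContinuousLinearMap)
      ((‖(e.symm : Y →L[ℝ] X)‖ + 1) * (‖B‖ + 1)) (by positivity) fun x => ?_
    have h4 : (J ∘L (e : X →L[ℝ] Y) ∘L ιX.toContinuousLinearMap) x = J (e (ιX x)) := rfl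
    have h1 : ‖x‖ ≤ ‖(e.symm : Y →L[ℝ] X)‖ * ‖e (ιX x)‖ := by
      have := (e.symm : Y →L[ℝ] X).le_opNorm (e (ιX x))
      simpa using this
    have h2 := hJ (e (ιX x))
    rw [h4]
    have h5 : 0 ≤ ‖(e.symm : Y →L[ℝ] X)‖ := norm_nonneg _
    have h6 : 0 ≤ (‖B‖ + 1) * ‖J (e (ιX x))‖ := by positivity
    calc ‖x‖ ≤ ‖(e.symm : Y →L[ℝ] X)‖ * ‖e (ιX x)‖ := h1
      _ ≤ ‖(e.symm : Y →L[ℝ] X)‖ * ((‖B‖ + 1) * ‖J (e (ιX x))‖) := by gcongr
      _ ≤ (‖(e.symm : Y →L[ℝ] X)‖ + 1) * ((‖B‖ + 1) * ‖J (e (ιX x))‖) := by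
          gcongr; linarith
      _ = _ := by ring

theorem target121 [CompleteSpace Z] [TopologicalSpace.SeparableSpace Z] (hZ : NoC0 Z)
    (π : W →L[ℝ] W) (H : W → W) (Δ : W → Z)
    (B : Z →L[ℝ] W) (hlo : ∀ u v, (1 / 2) * ‖u - v‖ ≤ ‖H u - H v‖)
    (hΔ : ∀ u v, ‖Δ u - Δ v‖ ≤ ‖u - v‖)
    (hB : ∀ w, B (Δ w) = H w - π w) (hs : ∀ ν, ∃ w, H w = B ν)
    (A : (W × ZeroAtInftyContinuousMap ℕ ℝ) →ₗ[ℝ] W) (hA : Function.Surjective A)
    (hAn : ∀ p, ‖p‖ ≤ ‖A p‖ ∧ ‖A p‖ ≤ 2 * ‖p‖) (hAπ : ∀ p, π (A p) = π p.1) : Target121 := by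
  choose g hg using hs
  have hginj : ∀ z w, H w = B z → g z = w := by
    intro z w hw
    have := hlo (g z) w
    rw [hg, hw, sub_self, norm_zero] at this
    have h0 := norm_nonneg (g z - w)
    exact sub_eq_zero.1 (norm_eq_zero.1 (by linarith))
  let F : Z × ZeroAtInftyContinuousMap ℕ ℝ → Z :=
    fun p => p.1 - Δ (g p.1) + Δ (A (g p.1, p.2))
  have hBF : ∀ p, B (F p) = H (A (g p.1, p.2)) := by
    intro p
    simp only [F, map_add, map_sub, hB, hAπ, hg]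
    abel
  refine ⟨Z, inferInstance, inferInstance, inferInstance, inferInstance, fun S _ => ?_,
    F, fun z => ?_, (1 + 4 * ‖B‖)⁻¹, 3 + 6 * ‖B‖, by positivity, fun u v => ?_⟩
  · exact noSub hZ (1 : ℝ) (by simp) (ContinuousLinearMap.id ℝ Z) 1 one_pos (by simp) S
  · obtain ⟨⟨w, s⟩, hws⟩ := hA (g z)
    have h1 : π w = π (g z) := by rw [← hws, hAπ]
    have h2 : g (z - Δ (g z) + Δ w) = w := by
      apply hginj
      simp only [map_add, map_sub, hB, h1, hg]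
      abel
    refine ⟨(z - Δ (g z) + Δ w, s), ?_⟩
    simp only [F, h2, hws]
    abel
  · have e1 : ‖u - v‖ = max ‖u.1 - v.1‖ ‖u.2 - v.2‖ := rfl
    have e2 : ‖((g u.1, u.2) : W × ZeroAtInftyContinuousMap ℕ ℝ) - (g v.1, v.2)‖ =
        max ‖g u.1 - g v.1‖ ‖u.2 - v.2‖ := rfl
    have a1 := hAn ((g u.1, u.2) - (g v.1, v.2))
    rw [map_sub, e2] at a1
    obtain ⟨a1, a2⟩ := a1
    have a3 := hΔ (g u.1) (g v.1)
    have a4 := hΔ (A (g u.1, u.2)) (A (g v.1, v.2))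
    have a5 := hlo (g u.1) (g v.1)
    rw [hg, hg, ← map_sub] at a5
    have a6 := B.le_opNorm (u.1 - v.1)
    have a7 := hlo (A (g u.1, u.2)) (A (g v.1, v.2))
    rw [← hBF, ← hBF, ← map_sub B] at a7
    have a8 := B.le_opNorm (F u - F v)
    have a9 : ‖F u - F v‖ ≤ ‖u.1 - v.1‖ + ‖Δ (g u.1) - Δ (g v.1)‖ +
        ‖Δ (A (g u.1, u.2)) - Δ (A (g v.1, v.2))‖ := by
      rw [show F u - F v = (u.1 - v.1) - (Δ (g u.1) - Δ (g v.1)) +
        (Δ (A (g u.1, u.2)) - Δ (A (g v.1, v.2))) by simp only [F]; abel]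
      refine (norm_add_le _ _).trans ?_
      gcongr
      exact norm_sub_le _ _
    have a10 : ‖u.1 - v.1‖ ≤ ‖F u - F v‖ + ‖Δ (g u.1) - Δ (g v.1)‖ +
        ‖Δ (A (g u.1, u.2)) - Δ (A (g v.1, v.2))‖ := by
      have : u.1 - v.1 = (F u - F v) + (Δ (g u.1) - Δ (g v.1)) -
        (Δ (A (g u.1, u.2)) - Δ (A (g v.1, v.2))) := by simp only [F]; abel
      rw [this]
      refine (norm_sub_le _ _).trans ?_
      gcongr
      exact norm_add_le _ _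
    have b1 := le_max_left ‖u.1 - v.1‖ ‖u.2 - v.2‖
    have b2 := le_max_right ‖u.1 - v.1‖ ‖u.2 - v.2‖
    have b3 := le_max_left ‖g u.1 - g v.1‖ ‖u.2 - v.2‖
    have b4 := le_max_right ‖g u.1 - g v.1‖ ‖u.2 - v.2‖
    have b5 := norm_nonneg B
    have b6 := norm_nonneg (F u - F v)
    have b7 := norm_nonneg (u.1 - v.1)
    have b8 := norm_nonneg (u.2 - v.2)
    rw [e1]
    constructor
    · rw [inv_mul_le_iff₀ (by positivity)]
      exact max_le (by nlinarith) (by nlinarith)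
    · have c1 : ‖B‖ * ‖u.1 - v.1‖ ≤ ‖B‖ * max ‖u.1 - v.1‖ ‖u.2 - v.2‖ := by gcongr
      have c2 : max ‖g u.1 - g v.1‖ ‖u.2 - v.2‖ ≤
          (1 + 2 * ‖B‖) * max ‖u.1 - v.1‖ ‖u.2 - v.2‖ :=
        max_le (by nlinarith) (by nlinarith)
      nlinarith

end Abstract

theorem ww_ext {u v : WW} (h : ∀ n m κ, u n m κ = v n m κ) : u = v := by
  ext n m κ
  exact h n m κ

theorem e0_apply (k : ℕ) : e0 k = if k = 0 then 1 else 0 := by
  unfold e0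
  rw [lp.single_apply]
  by_cases h : k = 0
  · subst h; simp
  · simp [h]

end GlueAux

open GlueAux in
theorem claimGlue : ClaimGlue := by
  intro hN hC hM hP h1 h2 h3 hZ
  obtain ⟨Pj, hCube, hR⟩ := hC
  obtain ⟨π, hπ, ⟨ι, hι⟩, A, hA, hAn, hAπ⟩ := hM
  obtain ⟨pa, Ψ, hΨ⟩ := hP WW Pj RR hR
  obtain ⟨H, hH, hHl⟩ := h1 Pj pa Ψ hΨ
  obtain ⟨C, hgood⟩ := h3 Pj pa π Ψ H hCube hπ hΨ hH fun u v => (hHl u v).2
  have hH0 : H 0 = 0 := by
    refine ww_ext fun n m κ => ?_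
    rw [hH]
    simp [cC, aC]
  have hidem : ∀ w, π (π w) = π w := by
    intro w
    refine ww_ext fun n m κ => ?_
    rw [hπ, hπ]
    split_ifs <;> rfl
  have hmem : ∀ w, π (H w) = H w := by
    intro w
    refine ww_ext fun n m κ => ?_
    rw [hπ]
    split_ifs with h
    · subst h
      rw [hH]
      simp [e0_apply, hΨ.zero]
    · rfl
  obtain ⟨hsep, Z, _, _, hZc, hZs, hZ0, Δ, B, hΔ, hB, hT⟩ :=
    hZ WW Pj pa (fun w => H w - π w) C (hN WW Pj pa) hgood (by simp [hH0])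
  have hπB : ∀ ν, π (B ν) = B ν := hT π fun w => by rw [map_sub, hmem, hidem]
  have hs : ∀ ν, ∃ w, H w = B ν := by
    intro ν
    refine h2 Pj pa Ψ H hCube hΨ hH (B ν) fun n m => ?_
    rw [← hπB, hπ]
    simp
  exact ⟨target120 hZ0 π H Δ B (fun u v => (hHl u v).1) (fun u v => (hHl u v).2) hΔ hB hs ι hι,
    target121 hZ0 π H Δ B (fun u v => (hHl u v).1) hΔ hB hs A hA hAn hAπ⟩

end Crest.Agent.R91
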