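import Crest.Agent.R91.HAux

/-!
Row 91: the nonlinear map exists and is bi-Lipschitz.
-/

set_option autoImplicit false

open Filter Topology

namespace Crest.Agent.R91

namespace HA

variable {Φ Φ' : ℕ → Fib}

theorem hasSum_Uf (h1 : ∀ m, ‖Φ m‖ = 1) (h0 : ∀ m, Φ m 0 = 0) (b : Blk) :
    HasSum (fun m => ‖Uf Φ b m‖ ^ 2) (‖b‖ ^ 2) := by
  have hp := (summable_of_le b fun m => abs_zero_le (b m)).hasSum
  have hq := (summable_of_le b (c := aC Φ b) fun m => abs_inner_le (h1 m) _).hasSum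
  have hs := HasSum.even_add_odd (f := fun m => cC Φ b m ^ 2) (by simpa only [cC_even] using hp)
    (by simpa only [cC_odd] using hq)
  have h2 := ((hasSum_sq b).sub (hp.add hq)).add hs
  rw [sub_add_cancel] at h2
  refine h2.congr_fun fun m => ?_
  rw [Uf, sub_eq_add_neg (b m), ← neg_smul, norm_sq_add (h1 m) (h0 m)]
  simp only [aC]
  ring

theorem Uf_sub (Φ : ℕ → Fib) (b b' : Blk) (m : ℕ) :
    Uf Φ (b - b' : Blk) m = Uf Φ b m - Uf Φ b' m := by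
  have h1 : ∀ m, aC Φ (b - b' : Blk) m = aC Φ b m - aC Φ b' m := fun m => by
    simp [aC, inner_sub_right]
  have h2 : cC Φ (b - b' : Blk) m = cC Φ b m - cC Φ b' m := by
    simp only [cC, h1]
    split_ifs <;> simp
  rw [Uf, h1, h2]
  simp only [Uf, lp.coeFn_sub, Pi.sub_apply]
  module

theorem norm_Uf_sub_le (h1 : ∀ m, ‖Φ m‖ = 1) (h1' : ∀ m, ‖Φ' m‖ = 1) (b : ℕ → Fib) (m : ℕ) :
    ‖Uf Φ b m - Uf Φ' b m‖ ≤ ‖Φ m - Φ' m‖ * ‖b (m / 2)‖ + 2 * (‖Φ m - Φ' m‖ * ‖b m‖) +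
      ‖Φ (m / 2) - Φ' (m / 2)‖ * ‖b (m / 2)‖ := by
  have ha : ∀ m, |aC Φ b m| ≤ ‖b m‖ := fun m => abs_inner_le (h1 m) _
  have ha' : ∀ m, |aC Φ b m - aC Φ' b m| ≤ ‖Φ m - Φ' m‖ * ‖b m‖ := fun m => by
    rw [aC, aC, ← inner_sub_left]
    exact abs_real_inner_le_norm _ _
  have hc : |cC Φ b m| ≤ ‖b (m / 2)‖ := by
    rw [cC]
    split_ifs
    exacts [abs_zero_le _, ha _]
  have hc' : |cC Φ b m - cC Φ' b m| ≤ ‖Φ (m / 2) - Φ' (m / 2)‖ * ‖b (m / 2)‖ := by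
    rw [cC, cC]
    split_ifs
    · rw [sub_self, abs_zero]; positivity
    · exact ha' _
  have h2 : Uf Φ b m - Uf Φ' b m = (cC Φ b m - aC Φ b m) • (Φ m - Φ' m) +
      ((cC Φ b m - cC Φ' b m) - (aC Φ b m - aC Φ' b m)) • Φ' m := by
    rw [Uf, Uf]
    module
  rw [h2]
  refine (norm_add_le _ _).trans ?_
  rw [norm_smul, norm_smul, h1', mul_one, Real.norm_eq_abs, Real.norm_eq_abs]
  have h3 := mul_le_mul_of_nonneg_right ((abs_sub _ _).trans (add_le_add hc (ha m)))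
    (norm_nonneg (Φ m - Φ' m))
  have h4 := (abs_sub _ _).trans (add_le_add hc' (ha' m))
  linarith

theorem sum_half_le {g : ℕ → ℝ} (hg : ∀ l, 0 ≤ g l) (N : ℕ) :
    ∑ m ∈ Finset.range N, g (m / 2) ≤ 2 * ∑ l ∈ Finset.range N, g l := by
  refine (Finset.sum_le_sum_of_subset_of_nonneg (Finset.range_mono (by omega : N ≤ 2 * N))
    fun _ _ _ => hg _).trans_eq ?_
  induction N with
  | zero => simp
  | succ N ih =>
    rw [Nat.mul_succ, Finset.sum_range_succ, Finset.sum_range_succ, ih, Finset.sum_range_succ,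
      show 2 * N / 2 = N by omega, show (2 * N + 1) / 2 = N by omega]
    ring

theorem norm_U_sub_le (h1 : ∀ m, ‖Φ m‖ = 1) (h1' : ∀ m, ‖Φ' m‖ = 1) (b x x' : Blk)
    (hx : ∀ m, x m = Uf Φ b m) (hx' : ∀ m, x' m = Uf Φ' b m) {d : ℝ} (hd : 0 ≤ d)
    (h : ∀ N, ∑ m ∈ Finset.range N, ‖Φ m - Φ' m‖ ^ 2 * (‖b (m / 2)‖ ^ 2 + ‖b m‖ ^ 2) ≤
      (1 / 400) * d ^ 2) : ‖x - x'‖ ≤ d / 4 := by
  refine le_of_pow_le_pow_left₀ two_ne_zero (by positivity)
    (le_of_tendsto' (hasSum_sq _).tendsto_sum_nat fun N => ?_)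
  have h2 := sum_half_le (g := fun l => ‖Φ l - Φ' l‖ ^ 2 * ‖b l‖ ^ 2) (fun l => by positivity) N
  have h3 : ∑ m ∈ Finset.range N, ‖Φ m - Φ' m‖ ^ 2 * ‖b m‖ ^ 2 ≤ (1 / 400) * d ^ 2 :=
    le_trans (Finset.sum_le_sum fun m _ => by gcongr; exact le_add_of_nonneg_left (sq_nonneg _))
      (h N)
  have h4 : ∑ m ∈ Finset.range N, ‖(x - x' : Blk) m‖ ^ 2 ≤ ∑ m ∈ Finset.range N,
      (12 * (‖Φ m - Φ' m‖ ^ 2 * (‖b (m / 2)‖ ^ 2 + ‖b m‖ ^ 2)) +
        3 * (‖Φ (m / 2) - Φ' (m / 2)‖ ^ 2 * ‖b (m / 2)‖ ^ 2)) := by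
    refine Finset.sum_le_sum fun m _ => ?_
    rw [lp.coeFn_sub, Pi.sub_apply, hx, hx']
    refine (pow_le_pow_left₀ (norm_nonneg _) (norm_Uf_sub_le h1 h1' b m) 2).trans ?_
    rw [mul_add, ← mul_pow, ← mul_pow, ← mul_pow]
    generalize ‖Φ m - Φ' m‖ * ‖b (m / 2)‖ = p
    generalize ‖Φ m - Φ' m‖ * ‖b m‖ = q
    generalize ‖Φ (m / 2) - Φ' (m / 2)‖ * ‖b (m / 2)‖ = r
    nlinarith [sq_nonneg (p - 2 * q), sq_nonneg (p - r), sq_nonneg (2 * q - r), sq_nonneg p]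
  rw [Finset.sum_add_distrib, ← Finset.mul_sum, ← Finset.mul_sum] at h4
  nlinarith [h N, sq_nonneg d]

theorem RR_sub (w : WW) (n l : ℕ) : RR w n l ^ 2 - RR w n (l + 1) ^ 2 = ‖w n l‖ ^ 2 := by
  rw [RR_sq, RR_sq, Finset.sum_range_succ]
  ring

end HA

open HA

theorem claimH1 : ClaimH1 := by
  classical
  intro Pj pa Ψ hΨ
  have hs := fun (w : WW) n => hasSum_Uf (hΨ.unit w n) (hΨ.zero w n) (w n)
  let H : WW → WW := fun w => mkW (fun n => blk _ (hs w n).summable) w fun n => norm_blk (hs w n)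
  refine ⟨H, fun _ _ _ => rfl, fun u v => ?_⟩
  have key : ∀ n, |‖(H u - H v) n‖ - ‖(u - v) n‖| ≤ ‖u - v‖ / 2 := fun n => by
    let Φ : ℕ → Fib := fun m => if RR u n (m / 2) ≤ RR v n (m / 2) then Ψ v n m else Ψ u n m
    have h1 : ∀ m, ‖Φ m‖ = 1 := fun m => by simp only [Φ]; split_ifs <;> exact hΨ.unit _ _ _
    have h0 : ∀ m, Φ m 0 = 0 := fun m => by simp only [Φ]; split_ifs <;> exact hΨ.zero _ _ _
    have hu := norm_U_sub_le (hΨ.unit u n) h1 (u n) (H u n) (blk _ (hasSum_Uf h1 h0 (u n)).summable)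
      (fun _ => rfl) (fun _ => rfl) (norm_nonneg (u - v)) fun N => by
        refine le_trans ?_ (hΨ.lip u v n N)
        rw [Finset.sum_filter]
        refine Finset.sum_le_sum fun m _ => ?_
        simp only [Φ, RR_sub]
        split_ifs <;> simp
    have hv := norm_U_sub_le (hΨ.unit v n) h1 (v n) (H v n) (blk _ (hasSum_Uf h1 h0 (v n)).summable)
      (fun _ => rfl) (fun _ => rfl) (norm_nonneg (u - v)) fun N => by
        rw [norm_sub_rev u v]
        refine le_trans ?_ (hΨ.lip v u n N)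
        rw [Finset.sum_filter]
        refine Finset.sum_le_sum fun m _ => ?_
        simp only [Φ, RR_sub]
        split_ifs with h h' h'
        · rw [sub_self, norm_zero, zero_pow two_ne_zero, zero_mul]; positivity
        · simp
        · rfl
        · exact absurd (le_of_not_ge h) h'
    have h2 : blk _ (hasSum_Uf h1 h0 (u n - v n)).summable =
        blk _ (hasSum_Uf h1 h0 (u n)).summable - blk _ (hasSum_Uf h1 h0 (v n)).summable :=
      lp.ext (funext fun m => Uf_sub Φ _ _ m)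
    rw [ZeroAtInftyContinuousMap.sub_apply, ZeroAtInftyContinuousMap.sub_apply,
      ← norm_blk (hasSum_Uf h1 h0 (u n - v n)), h2]
    refine (abs_norm_sub_norm_le _ _).trans ?_
    rw [sub_sub_sub_comm]
    refine (norm_sub_le _ _).trans ?_
    linarith
  have h1 : ‖u - v‖ ≤ ‖H u - H v‖ + ‖u - v‖ / 2 := norm_le_of _ fun n => by
    linarith [(abs_le.1 (key n)).1, norm_apply_le (H u - H v) n]
  exact ⟨by linarith, norm_le_of _ fun n => by
    linarith [(abs_le.1 (key n)).2, norm_apply_le (u - v) n]⟩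

end Crest.Agent.R91
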