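import Crest.Agent.R91.HAux

/-!
Row 91: the nonlinear map is onto.
-/

set_option autoImplicit false

open Filter Topology

namespace Crest.Agent.R91

namespace HA

theorem exists_fixed {I A : Type} (ρ : I → ℕ) (T : (I → A) → I → A) (x₀ : I → A)
    (h : ∀ x y i, (∀ j, ρ j < ρ i → x j = y j) → T x i = T y i) : ∃ x, T x = x := by
  have wf : WellFounded fun j i => ρ j < ρ i := InvImage.wf ρ wellFounded_lt
  refine ⟨wf.fix (C := fun _ => A) fun i r => T (fun j => if h : ρ j < ρ i then r j h else x₀ j) i,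
    funext fun i => ?_⟩
  rw [wf.fix_eq]
  exact h _ _ _ fun j hj => by rw [dif_pos hj]

/-- The formula for the inverse of the Hilbert hotel. -/
noncomputable def Vf (Φ e : ℕ → Fib) (m : ℕ) : Fib :=
  e m + aC Φ e (2 * m) • e0 + (aC Φ e (2 * m + 1) - aC Φ e m) • Φ m

variable {Φ : ℕ → Fib}

theorem hasSum_Vf (h1 : ∀ m, ‖Φ m‖ = 1) (h0 : ∀ m, Φ m 0 = 0) (e : Blk) (he : ∀ m, e m 0 = 0) :
    HasSum (fun m => ‖Vf Φ e m‖ ^ 2) (‖e‖ ^ 2) := by
  have hc : Summable fun m => aC Φ e m ^ 2 := summable_of_le e fun m => abs_inner_le (h1 m) _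
  have he' := (hc.comp_injective (mul_right_injective₀ (two_ne_zero (α := ℕ)))).hasSum
  have ho := (hc.comp_injective (i := fun m => 2 * m + 1) fun a b h => by simpa using h).hasSum
  have hs := HasSum.even_add_odd (f := fun m => aC Φ e m ^ 2) he' ho
  have h2 := ((hasSum_sq e).sub hs).add (he'.add ho)
  rw [sub_add_cancel] at h2
  refine h2.congr_fun fun m => ?_
  rw [Vf, norm_sq_add (h1 m) (h0 m), he]
  simp only [aC, Function.comp_apply]
  ring

theorem Uf_Vf (h1 : ∀ m, ‖Φ m‖ = 1) (h0 : ∀ m, Φ m 0 = 0) (e : ℕ → Fib) (he : ∀ m, e m 0 = 0)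
    (m : ℕ) : Uf Φ (Vf Φ e) m = e m := by
  have h2 : ∀ m, Vf Φ e m 0 = aC Φ e (2 * m) := fun m => by simp [Vf, he, h0, e0_zero]
  have h3 : ∀ m, aC Φ (Vf Φ e) m = aC Φ e (2 * m + 1) := fun m => by
    rw [aC, Vf, inner_add_right, inner_add_right, real_inner_smul_right, real_inner_smul_right,
      real_inner_comm, real_inner_comm e0, inner_e0, h0, real_inner_self_eq_norm_sq, h1,
      real_inner_comm]
    simp [aC]
  have h4 : cC Φ (Vf Φ e) m = aC Φ e m := by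
    obtain ⟨l, rfl | rfl⟩ := m.even_or_odd'
    · rw [cC_even, h2]
    · rw [cC_odd, h3]
  rw [Uf, h2, h3, h4, Vf]
  module

theorem Vf_congr {Φ' : ℕ → Fib} (e : ℕ → Fib) {m : ℕ} (h : ∀ l ≤ 2 * m + 1, Φ l = Φ' l) :
    Vf Φ e m = Vf Φ' e m := by
  simp only [Vf, aC, h m (by omega), h (2 * m) (by omega), h (2 * m + 1) le_rfl]

end HA

open HA

theorem claimH2 : ClaimH2 := by
  intro Pj pa Ψ H hP hΨ hH e he
  have hs := fun (x : ℕ × ℕ → {φ : Fib // ‖φ‖ = 1 ∧ φ 0 = 0}) n =>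
    hasSum_Vf (Φ := fun m => x (n, m)) (fun m => (x (n, m)).2.1) (fun m => (x (n, m)).2.2) (e n)
      (he n)
  let V : (ℕ × ℕ → {φ : Fib // ‖φ‖ = 1 ∧ φ 0 = 0}) → WW := fun x =>
    mkW (fun n => blk _ (hs x n).summable) e fun n => norm_blk (hs x n)
  have hV : ∀ x n m, V x n m = Vf (fun m => x (n, m)) (e n) m := fun _ _ _ => rfl
  have hn : ∀ x n, ‖V x n‖ = ‖e n‖ := fun x n => norm_blk (hs x n)
  obtain ⟨x, hx⟩ := exists_fixed (A := {φ : Fib // ‖φ‖ = 1 ∧ φ 0 = 0}) (fun i : ℕ × ℕ => i.1 + i.2)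
    (fun x i => ⟨Ψ (V x) i.1 i.2, hΨ.unit _ _ _, hΨ.zero _ _ _⟩)
    (fun i => ⟨Ψ e i.1 i.2, hΨ.unit _ _ _, hΨ.zero _ _ _⟩) (by
      rintro x y ⟨n, m⟩ h
      refine Subtype.ext (hΨ.dep _ _ _ _ ?_ ?_)
      · rw [RR, RR, hn, hn, Finset.sum_congr rfl fun l hl => ?_]
        rw [hV, hV, Vf_congr _ fun k hk => ?_]
        rw [h (n, k) (by have := Finset.mem_range.1 hl; dsimp only at this ⊢; omega)]
      · ext n' m' κ
        rw [hP, hP]
        split_ifs with h'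
        · rw [hV, hV, Vf_congr _ fun k hk => ?_]
          rw [h (n', k) (by dsimp only at h' ⊢; omega)]
        · rfl)
  refine ⟨V x, ?_⟩
  ext n m : 3
  have h1 : Ψ (V x) n = fun m => (x (n, m) : Fib) :=
    funext fun m => congrArg Subtype.val (congrFun hx (n, m))
  rw [hH, h1]
  exact Uf_Vf (fun m => (x (n, m)).2.1) (fun m => (x (n, m)).2.2) _ (he n) m

end Crest.Agent.R91
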