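import Crest.Agent.R91.Defs

/-!
Row 91: the nonlinear part of `H` is good (`ClaimH3`).
-/

set_option autoImplicit false

open Filter Topology

namespace Crest.Agent.R91

namespace H3

theorem ww_apply_le (w : WW) (n : ℕ) : ‖w n‖ ≤ ‖w‖ := by
  rw [← ZeroAtInftyContinuousMap.norm_toBCF_eq_norm]
  exact w.toBCF.norm_coe_le_norm n

theorem ww_norm_le (w : WW) {C : ℝ} (hC : 0 ≤ C) (h : ∀ n, ‖w n‖ ≤ C) : ‖w‖ ≤ C := by
  rw [← ZeroAtInftyContinuousMap.norm_toBCF_eq_norm]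
  exact (BoundedContinuousFunction.norm_le hC).2 h

theorem blk_sum_le (b : Blk) (F : Finset ℕ) : ∑ m ∈ F, ‖b m‖ ^ 2 ≤ ‖b‖ ^ 2 := by
  have h := lp.sum_rpow_le_norm_rpow (p := 2) (by norm_num) b F
  simpa using h

theorem blk_norm_le (b : Blk) {C : ℝ} (hC : 0 ≤ C)
    (h : ∀ N, ∑ m ∈ Finset.range N, ‖b m‖ ^ 2 ≤ C ^ 2) : ‖b‖ ≤ C := by
  refine lp.norm_le_of_forall_sum_le (p := 2) (by norm_num) hC fun F => ?_
  obtain ⟨N, hN⟩ := F.exists_nat_subset_range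
  have h1 : ∑ m ∈ F, ‖b m‖ ^ 2 ≤ C ^ 2 :=
    (Finset.sum_le_sum_of_subset_of_nonneg hN fun _ _ _ => by positivity).trans (h N)
  simpa using h1

theorem fib_apply_le (x : Fib) (k : ℕ) : |x k| ≤ ‖x‖ := by
  have h := lp.norm_apply_le_norm (p := 2) (by norm_num) x k
  simpa using h

theorem sum_apply' {ι : Type} (s : Finset ι) (f : ι → WW) (n m : ℕ) :
    (∑ i ∈ s, f i) n m = ∑ i ∈ s, f i n m := by
  classical
  induction s using Finset.induction_on with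
  | empty => simp
  | insert a s ha ih =>
    rw [Finset.sum_insert ha, Finset.sum_insert ha, ← ih]
    rfl

theorem sum_half (f : ℕ → ℝ) (N : ℕ) :
    ∑ m ∈ Finset.range (2 * N), f (m / 2) = 2 * ∑ m ∈ Finset.range N, f m := by
  induction N with
  | zero => simp
  | succ N ih =>
    have h1 : 2 * (N + 1) = 2 * N + 1 + 1 := by ring
    have h2 : 2 * N / 2 = N := by omega
    have h3 : (2 * N + 1) / 2 = N := by omega
    rw [h1, Finset.sum_range_succ, Finset.sum_range_succ, ih, Finset.sum_range_succ, h2, h3]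
    ring

theorem blk_sum_half_le (b : Blk) (N : ℕ) :
    ∑ m ∈ Finset.range N, ‖b (m / 2)‖ ^ 2 ≤ 2 * ‖b‖ ^ 2 := by
  have h1 : ∑ m ∈ Finset.range N, ‖b (m / 2)‖ ^ 2 ≤
      ∑ m ∈ Finset.range (2 * N), ‖b (m / 2)‖ ^ 2 :=
    Finset.sum_le_sum_of_subset_of_nonneg (Finset.range_mono (by omega))
      fun _ _ _ => by positivity
  rw [sum_half (fun m => ‖b m‖ ^ 2) N] at h1
  have h2 := blk_sum_le b (Finset.range N)
  linarith

theorem norm_sum_sq_orth {E : Type} [NormedAddCommGroup E] [InnerProductSpace ℝ E] {ι : Type}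
    (t : Finset ι) (y : ι → E) (h : ∀ i ∈ t, ∀ i' ∈ t, i ≠ i' → inner ℝ (y i) (y i') = 0) :
    ‖∑ i ∈ t, y i‖ ^ 2 = ∑ i ∈ t, ‖y i‖ ^ 2 := by
  rw [← real_inner_self_eq_norm_sq, sum_inner]
  refine Finset.sum_congr rfl fun i hi => ?_
  rw [inner_sum, Finset.sum_eq_single i, real_inner_self_eq_norm_sq]
  · intro i' hi' hne
    exact h i hi i' hi' hne.symm
  · intro hi'
    exact absurd hi hi'

theorem norm_sum_sq_card {E : Type} [NormedAddCommGroup E] {ι : Type}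
    (t : Finset ι) (y : ι → E) : ‖∑ i ∈ t, y i‖ ^ 2 ≤ t.card * ∑ i ∈ t, ‖y i‖ ^ 2 := by
  have h1 : ‖∑ i ∈ t, y i‖ ≤ ∑ i ∈ t, ‖y i‖ := norm_sum_le _ _
  have h2 : (∑ i ∈ t, ‖y i‖) ^ 2 ≤ t.card * ∑ i ∈ t, ‖y i‖ ^ 2 := sq_sum_le_card_mul_sum_sq
  exact (pow_le_pow_left₀ (norm_nonneg _) h1 2).trans h2

theorem norm_add_sq_le {E : Type} [NormedAddCommGroup E] (x y : E) :
    ‖x + y‖ ^ 2 ≤ 2 * ‖x‖ ^ 2 + 2 * ‖y‖ ^ 2 := by
  have h1 : ‖x + y‖ ^ 2 ≤ (‖x‖ + ‖y‖) ^ 2 :=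
    pow_le_pow_left₀ (norm_nonneg _) (norm_add_le x y) 2
  nlinarith [sq_nonneg (‖x‖ - ‖y‖)]

/-- The formula for the nonlinear part. -/
theorem D_apply {π : WW →L[ℝ] WW} {Ψ : WW → ℕ → ℕ → Fib} {H : WW → WW} (hπ : IsPi π)
    (hH : IsH Ψ H) (w : WW) (n m : ℕ) :
    (H w - π w) n m = (cC (Ψ w n) (w n) m - aC (Ψ w n) (w n) m) • Ψ w n m := by
  have h1 : π w n m = w n m - (w n m 0) • e0 := by
    refine lp.ext (funext fun k => ?_)
    have h2 : (w n m - (w n m 0) • e0) k = w n m k - w n m 0 * e0 k := rfl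
    rw [hπ w n m k, h2]
    by_cases hk : k = 0
    · subst hk
      simp [e0]
    · simp [e0, hk, lp.single_apply]
  have h3 : (H w - π w) n m = H w n m - π w n m := rfl
  rw [h3, hH w n m, h1]
  abel

theorem abs_aC_le (Φ b : ℕ → Fib) (hΦ : ∀ m, ‖Φ m‖ = 1) (m : ℕ) : |aC Φ b m| ≤ ‖b m‖ := by
  have h := abs_real_inner_le_norm (Φ m) (b m)
  rw [hΦ m, one_mul] at h
  exact h

theorem abs_cC_le (Φ b : ℕ → Fib) (hΦ : ∀ m, ‖Φ m‖ = 1) (m : ℕ) :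
    |cC Φ b m| ≤ ‖b (m / 2)‖ := by
  unfold cC
  split_ifs
  · exact fib_apply_le _ _
  · exact abs_aC_le Φ b hΦ _

theorem aC_sub_le (Φ Φ' b b' : ℕ → Fib) (m G : ℕ) (ζ : ℝ) (hb : ∀ k < G, b m k = b' m k)
    (hΦ' : ∀ k, G ≤ k → Φ' m k = 0) (hζ : ‖Φ m - Φ' m‖ ≤ ζ) :
    |aC Φ b m - aC Φ' b' m| ≤ ζ * ‖b m‖ := by
  have h0 : inner ℝ (Φ' m) (b m - b' m) = 0 := by
    rw [lp.inner_eq_tsum]
    have : ∀ k, inner ℝ (Φ' m k) ((b m - b' m) k) = 0 := by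
      intro k
      have h2 : (b m - b' m) k = b m k - b' m k := rfl
      rcases lt_or_ge k G with hk | hk
      · rw [h2, hb k hk, sub_self, inner_zero_right]
      · rw [hΦ' k hk, inner_zero_left]
    simp only [this, tsum_zero]
  have h1 : aC Φ b m - aC Φ' b' m = inner ℝ (Φ m - Φ' m) (b m) := by
    unfold aC
    rw [inner_sub_right] at h0
    rw [inner_sub_left]
    linarith
  rw [h1]
  exact (abs_real_inner_le_norm _ _).trans (mul_le_mul_of_nonneg_right hζ (norm_nonneg _))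

/-- The coarse estimate for one entry. -/
theorem coarse_le (Φ Φ' b b' : ℕ → Fib) (hΦ : ∀ m, ‖Φ m‖ = 1) (hΦ1 : ∀ m, ‖Φ' m‖ = 1)
    (m G : ℕ) (ζ : ℝ) (hG : 0 < G) (hb : ∀ k < G, b m k = b' m k)
    (hb2 : ∀ k < G, b (m / 2) k = b' (m / 2) k)
    (hΦ' : ∀ k, G ≤ k → Φ' m k = 0) (hΦ2 : ∀ k, G ≤ k → Φ' (m / 2) k = 0)
    (hζ : ‖Φ m - Φ' m‖ ≤ ζ) (hζ2 : ‖Φ (m / 2) - Φ' (m / 2)‖ ≤ ζ) :
    ‖(cC Φ b m - aC Φ b m) • Φ m - (cC Φ' b' m - aC Φ' b' m) • Φ' m‖ ^ 2 ≤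
      8 * ζ ^ 2 * (‖b (m / 2)‖ ^ 2 + ‖b m‖ ^ 2) := by
  have hζ0 : 0 ≤ ζ := (norm_nonneg _).trans hζ
  have ha := aC_sub_le Φ Φ' b b' m G ζ hb hΦ' hζ
  have hc : |cC Φ b m - cC Φ' b' m| ≤ ζ * ‖b (m / 2)‖ := by
    unfold cC
    split_ifs
    · rw [hb2 0 hG, sub_self, abs_zero]
      positivity
    · exact aC_sub_le Φ Φ' b b' (m / 2) G ζ hb2 hΦ2 hζ2
  have ha1 := abs_aC_le Φ b hΦ m
  have hc1 := abs_cC_le Φ b hΦ m
  generalize cC Φ b m = c at *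
  generalize aC Φ b m = a at *
  generalize cC Φ' b' m = c' at *
  generalize aC Φ' b' m = a' at *
  have h1 : (c - a) • Φ m - (c' - a') • Φ' m =
      (c - a) • (Φ m - Φ' m) + ((c - c') - (a - a')) • Φ' m := by
    simp only [smul_sub, sub_smul]
    abel
  have h2 : ‖(c - a) • (Φ m - Φ' m)‖ ≤ (‖b (m / 2)‖ + ‖b m‖) * ζ := by
    rw [norm_smul, Real.norm_eq_abs]
    refine mul_le_mul ?_ hζ (norm_nonneg _) (by positivity)
    exact (abs_sub c a).trans (add_le_add hc1 ha1)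
  have h3 : ‖((c - c') - (a - a')) • Φ' m‖ ≤ ζ * ‖b (m / 2)‖ + ζ * ‖b m‖ := by
    rw [norm_smul, Real.norm_eq_abs, hΦ1 m, mul_one]
    exact (abs_sub _ _).trans (add_le_add hc ha)
  have h4 : ‖(c - a) • Φ m - (c' - a') • Φ' m‖ ≤ 2 * ζ * (‖b (m / 2)‖ + ‖b m‖) := by
    rw [h1]
    refine (norm_add_le _ _).trans ?_
    linarith
  have h5 := pow_le_pow_left₀ (norm_nonneg _) h4 2
  refine h5.trans ?_
  have h6 : (‖b (m / 2)‖ + ‖b m‖) ^ 2 ≤ 2 * (‖b (m / 2)‖ ^ 2 + ‖b m‖ ^ 2) := by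
    nlinarith [sq_nonneg (‖b (m / 2)‖ - ‖b m‖)]
  calc (2 * ζ * (‖b (m / 2)‖ + ‖b m‖)) ^ 2 = 4 * ζ ^ 2 * (‖b (m / 2)‖ + ‖b m‖) ^ 2 := by ring
    _ ≤ 4 * ζ ^ 2 * (2 * (‖b (m / 2)‖ ^ 2 + ‖b m‖ ^ 2)) :=
        mul_le_mul_of_nonneg_left h6 (by positivity)
    _ = _ := by ring

end H3

open H3 in
theorem claimH3 : ClaimH3 := by
  classical
  intro Pj pa π Ψ H hcube hπ hΨ hH hup
  obtain ⟨L, hL⟩ : ∃ L : ℝ, L = 3 / 2 + ‖π‖ := ⟨_, rfl⟩
  have hL0 : 0 ≤ L := by rw [hL]; positivity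
  obtain ⟨D, hD⟩ : ∃ D : WW → WW, D = fun w => H w - π w := ⟨_, rfl⟩
  rw [← hD]
  have hDa : ∀ (w : WW) (n m : ℕ),
      D w n m = (cC (Ψ w n) (w n) m - aC (Ψ w n) (w n) m) • Ψ w n m := by
    intro w n m
    rw [hD]
    exact D_apply hπ hH w n m
  have hlip : ∀ u v, ‖D u - D v‖ ≤ L * ‖u - v‖ := by
    intro u v
    have h1 : D u - D v = (H u - H v) - π (u - v) := by
      rw [hD, map_sub]
      simp only
      abel
    rw [h1, hL, add_mul]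
    exact (norm_sub_le _ _).trans (add_le_add (hup u v) (π.le_opNorm _))
  refine ⟨2 * L + 2, by positivity, fun u v => ?_, ?_⟩
  · refine (hlip u v).trans (mul_le_mul_of_nonneg_right (by linarith) (norm_nonneg _))
  intro j M κ ι s u v hat a A hA hsum
  obtain ⟨Co, hCo1, hCo2, hCo3⟩ := hΨ.good j M κ ι s u v hat
  have hCA : 0 ≤ (2 * L + 2) * A := by positivity
  rcases Nat.eq_zero_or_pos j with hj | hj
  · have hs : s = ∅ := Finset.card_eq_zero.1 (by have := hat.card_le; omega)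
    rw [hs, Finset.sum_empty, norm_zero]
    exact hCA
  have hj1 : (1 : ℝ) ≤ j := by exact_mod_cast hj
  refine ww_norm_le _ hCA fun n => blk_norm_le _ hCA fun N => ?_
  obtain ⟨y, hy⟩ : ∃ y : ι → ℕ → Fib, ∀ i m, y i m = a i • (D (u i) n m - D (v i) n m) :=
    ⟨_, fun _ _ => rfl⟩
  obtain ⟨ζ, hζ⟩ : ∃ ζ : ι → ℝ, ∀ i, ζ i = ‖u i - v i‖ / (10 * (j : ℝ) ^ 2) :=
    ⟨_, fun _ => rfl⟩
  have hX : ∀ m, (∑ i ∈ s, a i • (D (u i) - D (v i))) n m = ∑ i ∈ s, y i m := by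
    intro m
    rw [sum_apply']
    refine Finset.sum_congr rfl fun i _ => ?_
    rw [hy]
    rfl
  have hhead : ∀ i ∈ s, ∀ m k, n < pa.γ M → m < pa.γ M → k < pa.γ M →
      u i n m k = v i n m k := by
    intro i hi m k h1 h2 h3
    have h4 := hcube (pa.γ M) (u i) n m k
    have h5 := hcube (pa.γ M) (v i) n m k
    rw [if_pos ⟨h1, h2, h3⟩] at h4 h5
    rw [← h4, ← h5, hat.head i hi]
  have hζle : ∀ i ∈ s, ∀ m, Co i n m → ‖Ψ (u i) n m - Ψ (v i) n m‖ ≤ ζ i := by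
    intro i hi m hc
    rw [hζ, le_div_iff₀ (by positivity), mul_comm]
    exact (hCo3 i hi n m hc).2.2.2
  -- the fine part
  have hfine : ∀ m, ‖∑ i ∈ s.filter (fun i => ¬ Co i n m), y i m‖ ^ 2 ≤
      ∑ i ∈ s, a i ^ 2 * ‖(D (u i) - D (v i)) n m‖ ^ 2 := by
    intro m
    rw [norm_sum_sq_orth]
    · refine (Finset.sum_le_sum_of_subset_of_nonneg (Finset.filter_subset _ _)
        fun _ _ _ => by positivity).trans (le_of_eq (Finset.sum_congr rfl fun i _ => ?_))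
      rw [hy, norm_smul, mul_pow, Real.norm_eq_abs, sq_abs]
      rfl
    · intro i hi i' hi' hne
      rw [Finset.mem_filter] at hi hi'
      have h := hCo2 i hi.1 i' hi'.1 hne n m hi.2 hi'.2
      rw [hy, hy, hDa, hDa, hDa, hDa]
      simp only [inner_sub_left, inner_sub_right, real_inner_smul_left, real_inner_smul_right,
        h _ _ (Or.inl rfl) (Or.inl rfl), h _ _ (Or.inl rfl) (Or.inr rfl),
        h _ _ (Or.inr rfl) (Or.inl rfl), h _ _ (Or.inr rfl) (Or.inr rfl), mul_zero, sub_zero]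
  -- the coarse part
  have hcoarse : ∀ m, ‖∑ i ∈ s.filter (fun i => Co i n m), y i m‖ ^ 2 ≤
      j * ∑ i ∈ s, a i ^ 2 * (8 * ζ i ^ 2 * (‖u i n (m / 2)‖ ^ 2 + ‖u i n m‖ ^ 2)) := by
    intro m
    refine (norm_sum_sq_card _ _).trans (mul_le_mul ?_ ?_ (by positivity) (by positivity))
    · exact_mod_cast (Finset.card_filter_le _ _).trans hat.card_le
    · refine le_trans (Finset.sum_le_sum fun i hi => ?_)
        (Finset.sum_le_sum_of_subset_of_nonneg (Finset.filter_subset (fun i => Co i n m) s)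
          fun _ _ _ => by positivity)
      rw [Finset.mem_filter] at hi
      have hc := hi.2
      have hc2 := hCo1 i hi.1 n m hc
      obtain ⟨h1, h2, h3, -⟩ := hCo3 i hi.1 n m hc
      obtain ⟨-, h4, h5, -⟩ := hCo3 i hi.1 n (m / 2) hc2
      rw [hy, norm_smul, mul_pow, Real.norm_eq_abs, sq_abs, hDa, hDa]
      refine mul_le_mul_of_nonneg_left ?_ (by positivity)
      exact coarse_le (Ψ (u i) n) (Ψ (v i) n) (u i n) (v i n) (hΨ.unit _ _) (hΨ.unit _ _) m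
        (pa.γ M) (ζ i) (by omega) (fun k hk => hhead i hi.1 m k h1 h2 hk)
        (fun k hk => hhead i hi.1 (m / 2) k h1 h4 hk) h3 h5 (hζle i hi.1 m hc)
        (hζle i hi.1 (m / 2) hc2)
  have hpt : ∀ m, ‖(∑ i ∈ s, a i • (D (u i) - D (v i))) n m‖ ^ 2 ≤
      2 * (j * ∑ i ∈ s, a i ^ 2 * (8 * ζ i ^ 2 * (‖u i n (m / 2)‖ ^ 2 + ‖u i n m‖ ^ 2))) +
        2 * ∑ i ∈ s, a i ^ 2 * ‖(D (u i) - D (v i)) n m‖ ^ 2 := by
    intro m
    rw [hX, ← Finset.sum_filter_add_sum_filter_not s (fun i => Co i n m)]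
    refine (norm_add_sq_le _ _).trans ?_
    have h1 := hfine m
    have h2 := hcoarse m
    linarith
  have hS1 : ∑ m ∈ Finset.range N, ∑ i ∈ s, a i ^ 2 * ‖(D (u i) - D (v i)) n m‖ ^ 2 ≤
      L ^ 2 * A ^ 2 := by
    rw [Finset.sum_comm]
    refine le_trans ?_ (mul_le_mul_of_nonneg_left hsum (by positivity))
    rw [Finset.mul_sum]
    refine Finset.sum_le_sum fun i _ => ?_
    rw [← Finset.mul_sum]
    have h1 := blk_sum_le ((D (u i) - D (v i)) n) (Finset.range N)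
    have h2 : ‖(D (u i) - D (v i)) n‖ ^ 2 ≤ (L * ‖u i - v i‖) ^ 2 :=
      pow_le_pow_left₀ (norm_nonneg _) ((ww_apply_le _ n).trans (hlip _ _)) 2
    calc a i ^ 2 * ∑ m ∈ Finset.range N, ‖(D (u i) - D (v i)) n m‖ ^ 2
        ≤ a i ^ 2 * (L * ‖u i - v i‖) ^ 2 :=
          mul_le_mul_of_nonneg_left (h1.trans h2) (by positivity)
      _ = _ := by ring
  have hS2 : ∑ m ∈ Finset.range N,
      (j : ℝ) * ∑ i ∈ s, a i ^ 2 * (8 * ζ i ^ 2 * (‖u i n (m / 2)‖ ^ 2 + ‖u i n m‖ ^ 2)) ≤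
      A ^ 2 := by
    rw [← Finset.mul_sum, Finset.sum_comm, Finset.mul_sum]
    refine le_trans (Finset.sum_le_sum fun i hi => ?_) hsum
    rw [← Finset.mul_sum, ← Finset.mul_sum, Finset.sum_add_distrib]
    have h1 := blk_sum_le (u i n) (Finset.range N)
    have h2 := blk_sum_half_le (u i n) N
    have h3 : ‖u i n‖ ≤ 2 * j := by
      refine (ww_apply_le _ n).trans ((hat.norm_u i hi).trans ?_)
      exact mul_le_mul_of_nonneg_right (by linarith [hat.κ_nonneg]) (by positivity)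
    have h4 : ‖u i n‖ ^ 2 ≤ (2 * j) ^ 2 := pow_le_pow_left₀ (norm_nonneg _) h3 2
    have h5 : ∑ m ∈ Finset.range N, ‖u i n (m / 2)‖ ^ 2 + ∑ m ∈ Finset.range N, ‖u i n m‖ ^ 2 ≤
        3 * (2 * j) ^ 2 := by linarith
    have h6 : (j : ℝ) * (8 * ζ i ^ 2 * (3 * (2 * j) ^ 2)) ≤ ‖u i - v i‖ ^ 2 := by
      have h7 : (j : ℝ) * (8 * ζ i ^ 2 * (3 * (2 * j) ^ 2)) =
          ‖u i - v i‖ ^ 2 * (96 / (100 * j)) := by
        rw [hζ]
        field_simp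
        ring
      rw [h7]
      refine mul_le_of_le_one_right (by positivity) ?_
      rw [div_le_one (by positivity)]
      linarith
    calc (j : ℝ) * (a i ^ 2 * (8 * ζ i ^ 2 * (∑ m ∈ Finset.range N, ‖u i n (m / 2)‖ ^ 2 +
          ∑ m ∈ Finset.range N, ‖u i n m‖ ^ 2)))
        ≤ (j : ℝ) * (a i ^ 2 * (8 * ζ i ^ 2 * (3 * (2 * j) ^ 2))) := by gcongr
      _ = a i ^ 2 * ((j : ℝ) * (8 * ζ i ^ 2 * (3 * (2 * j) ^ 2))) := by ring
      _ ≤ a i ^ 2 * ‖u i - v i‖ ^ 2 := mul_le_mul_of_nonneg_left h6 (by positivity)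
      _ = _ := by ring
  refine (Finset.sum_le_sum fun m _ => hpt m).trans ?_
  rw [Finset.sum_add_distrib, ← Finset.mul_sum (a := 2), ← Finset.mul_sum (a := 2)]
  have hA2 : 0 ≤ A ^ 2 := by positivity
  have hfin : 2 * A ^ 2 + 2 * (L ^ 2 * A ^ 2) ≤ ((2 * L + 2) * A) ^ 2 := by
    have h1 : ((2 * L + 2) * A) ^ 2 - (2 * A ^ 2 + 2 * (L ^ 2 * A ^ 2)) =
        (2 * L ^ 2 + 8 * L + 2) * A ^ 2 := by ring
    have h2 : 0 ≤ (2 * L ^ 2 + 8 * L + 2) * A ^ 2 := by positivity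
    linarith
  linarith

end Crest.Agent.R91
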