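import Crest.Agent.R91.Defs

/-!
Row 91: the blockwise Hilbert hotel, common lemmas for `claimH1` and `claimH2`.
-/

set_option autoImplicit false

open Filter Topology

namespace Crest.Agent.R91.HA

theorem hasSum_sq (b : Blk) : HasSum (fun m => ‖b m‖ ^ 2) (‖b‖ ^ 2) := by
  simpa using lp.hasSum_norm (p := 2) (by simp) b

/-- A block from a square summable sequence. -/
def blk (f : ℕ → Fib) (h : Summable fun m => ‖f m‖ ^ 2) : Blk := ⟨f, memℓp_gen (by simpa using h)⟩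

@[simp] theorem blk_apply (f : ℕ → Fib) (h : Summable fun m => ‖f m‖ ^ 2) (m : ℕ) :
    blk f h m = f m := rfl

theorem norm_blk {f : ℕ → Fib} {b : Blk} (h : HasSum (fun m => ‖f m‖ ^ 2) (‖b‖ ^ 2)) :
    ‖blk f h.summable‖ = ‖b‖ :=
  (sq_eq_sq₀ (norm_nonneg _) (norm_nonneg _)).1 ((hasSum_sq (blk f h.summable)).unique h)

/-- A point of `WW` from blocks with the same norms as a given point. -/
def mkW (f : ℕ → Blk) (w : WW) (h : ∀ n, ‖f n‖ = ‖w n‖) : WW :=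
  ⟨⟨f, continuous_of_discreteTopology⟩, tendsto_zero_iff_norm_tendsto_zero.2 (by
    simpa only [h] using tendsto_zero_iff_norm_tendsto_zero.1 (zero_at_infty w))⟩

@[simp] theorem mkW_apply (f : ℕ → Blk) (w : WW) (h : ∀ n, ‖f n‖ = ‖w n‖) (n : ℕ) :
    mkW f w h n = f n := rfl

theorem norm_apply_le (w : WW) (n : ℕ) : ‖w n‖ ≤ ‖w‖ := w.toBCF.norm_coe_le_norm n

theorem norm_le_of (w : WW) {C : ℝ} (h : ∀ n, ‖w n‖ ≤ C) : ‖w‖ ≤ C :=
  (BoundedContinuousFunction.norm_le_of_nonempty (f := w.toBCF)).2 h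

theorem inner_e0 (x : Fib) : inner ℝ e0 x = x 0 := by
  simp [e0, lp.inner_single_left]

theorem norm_e0 : ‖e0‖ = 1 := by
  rw [e0, lp.norm_single (by simp), norm_one]

theorem e0_zero : e0 0 = 1 := lp.single_apply_self _ _ _

theorem norm_sq_add {φ : Fib} (h1 : ‖φ‖ = 1) (h0 : φ 0 = 0) (x : Fib) (s t : ℝ) :
    ‖x + s • e0 + t • φ‖ ^ 2 = ‖x‖ ^ 2 + 2 * s * x 0 + s ^ 2 + 2 * t * inner ℝ φ x + t ^ 2 := by
  rw [norm_add_sq_real, norm_add_sq_real, inner_add_left, real_inner_smul_right,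
    real_inner_smul_right, real_inner_smul_right, real_inner_smul_left, real_inner_comm,
    real_inner_comm φ x, inner_e0, inner_e0, h0, norm_smul, norm_smul, norm_e0, h1]
  simp only [Real.norm_eq_abs, mul_one, sq_abs]
  ring

theorem abs_inner_le {φ : Fib} (h1 : ‖φ‖ = 1) (x : Fib) : |inner ℝ φ x| ≤ ‖x‖ := by
  simpa [h1] using abs_real_inner_le_norm φ x

theorem abs_zero_le (x : Fib) : |x 0| ≤ ‖x‖ := inner_e0 x ▸ abs_inner_le norm_e0 x

theorem summable_of_le (b : Blk) {c : ℕ → ℝ} (h : ∀ m, |c m| ≤ ‖b m‖) :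
    Summable fun m => c m ^ 2 :=
  (hasSum_sq b).summable.of_nonneg_of_le (fun _ => sq_nonneg _) fun m =>
    sq_le_sq' (abs_le.1 (h m)).1 (abs_le.1 (h m)).2

/-- The formula for the Hilbert hotel. -/
noncomputable def Uf (Φ b : ℕ → Fib) (m : ℕ) : Fib :=
  b m - (b m 0) • e0 + (cC Φ b m - aC Φ b m) • Φ m

theorem cC_even (Φ b : ℕ → Fib) (l : ℕ) : cC Φ b (2 * l) = b l 0 := by simp [cC]

theorem cC_odd (Φ b : ℕ → Fib) (l : ℕ) : cC Φ b (2 * l + 1) = aC Φ b l := by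
  rw [cC, if_neg (by omega), show (2 * l + 1) / 2 = l by omega]

theorem RR_sq (w : WW) (n l : ℕ) :
    RR w n l ^ 2 = ‖w n‖ ^ 2 - ∑ m ∈ Finset.range l, ‖w n m‖ ^ 2 :=
  Real.sq_sqrt (sub_nonneg.2 (sum_le_hasSum _ (fun _ _ => sq_nonneg _) (hasSum_sq (w n))))

end Crest.Agent.R91.HA
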