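import Crest.Agent.R91.Defs

/-!
Row 91: the linear maps `π`, `ι` and the shift `A` of the concrete space `c₀(ℓ₂(ℓ₂))`.
-/

set_option autoImplicit false

open Filter Topology

namespace Crest.Agent.R91

namespace Maps

section General

variable {E : Type} [NormedAddCommGroup E]

theorem hasSum_sq (b : lp (fun _ : ℕ => E) 2) : HasSum (fun m => ‖b m‖ ^ 2) (‖b‖ ^ 2) := by
  have := lp.hasSum_norm (p := 2) (by norm_num) b
  simpa using this

/-- A square summable sequence as an element of `ℓ₂`. -/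
def mkL2 (f : ℕ → E) (h : Summable (fun m => ‖f m‖ ^ 2)) : lp (fun _ : ℕ => E) 2 :=
  ⟨f, memℓp_gen (by simpa using h)⟩

theorem mkL2_apply (f : ℕ → E) (h : Summable (fun m => ‖f m‖ ^ 2)) (m : ℕ) :
    mkL2 f h m = f m := rfl

theorem mkL2_norm_sq (f : ℕ → E) (h : Summable (fun m => ‖f m‖ ^ 2)) (S : ℝ)
    (hS : HasSum (fun m => ‖f m‖ ^ 2) S) : ‖mkL2 f h‖ ^ 2 = S :=
  (hasSum_sq (mkL2 f h)).unique hS

/-- A null sequence as an element of `c₀`. -/
def mkC0 (f : ℕ → E) (h : Tendsto f atTop (𝓝 0)) : ZeroAtInftyContinuousMap ℕ E where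
  toFun := f
  continuous_toFun := continuous_of_discreteTopology
  zero_at_infty' := by rwa [cocompact_eq_cofinite, Nat.cofinite_eq_atTop]

theorem mkC0_apply (f : ℕ → E) (h : Tendsto f atTop (𝓝 0)) (n : ℕ) : mkC0 f h n = f n := rfl

theorem c0_tendsto (w : ZeroAtInftyContinuousMap ℕ E) : Tendsto w atTop (𝓝 0) := by
  have := zero_at_infty w
  rwa [cocompact_eq_cofinite, Nat.cofinite_eq_atTop] at this

theorem c0_apply_le (w : ZeroAtInftyContinuousMap ℕ E) (n : ℕ) : ‖w n‖ ≤ ‖w‖ := by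
  rw [← ZeroAtInftyContinuousMap.norm_toBCF_eq_norm]
  exact BoundedContinuousFunction.norm_coe_le_norm w.toBCF n

theorem c0_norm_le (w : ZeroAtInftyContinuousMap ℕ E) (C : ℝ) (hC : 0 ≤ C)
    (h : ∀ n, ‖w n‖ ≤ C) : ‖w‖ ≤ C := by
  rw [← ZeroAtInftyContinuousMap.norm_toBCF_eq_norm]
  exact (BoundedContinuousFunction.norm_le hC).2 h

theorem tendsto_of_le (f : ℕ → E) (g : ℕ → ℝ) (h : ∀ n, ‖f n‖ ≤ g n)
    (hg : Tendsto g atTop (𝓝 0)) : Tendsto f atTop (𝓝 0) :=
  squeeze_zero_norm h hg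

theorem c0_norm_tendsto (w : ZeroAtInftyContinuousMap ℕ E) :
    Tendsto (fun n => ‖w n‖) atTop (𝓝 0) :=
  tendsto_zero_iff_norm_tendsto_zero.1 (c0_tendsto w)

end General

theorem e0_apply (κ : ℕ) : e0 κ = if κ = 0 then 1 else 0 := by
  unfold e0
  rw [lp.single_apply, Pi.single_apply]

theorem norm_e0 : ‖e0‖ = 1 := by
  unfold e0
  rw [lp.norm_single (by norm_num)]
  simp

theorem inner_e0 (x : Fib) : inner ℝ x e0 = x 0 := by
  unfold e0
  rw [lp.inner_single_right]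
  simp

/-- Replace the zeroth coordinate by `t`. -/
noncomputable def rep (x : Fib) (t : ℝ) : Fib := x + (t - x 0) • e0

theorem rep_apply (x : Fib) (t : ℝ) (κ : ℕ) : rep x t κ = if κ = 0 then t else x κ := by
  unfold rep
  rw [lp.coeFn_add, lp.coeFn_smul, Pi.add_apply, Pi.smul_apply, e0_apply]
  split_ifs with h
  · subst h; simp
  · simp

theorem rep_norm_sq (x : Fib) (t : ℝ) : ‖rep x t‖ ^ 2 = ‖x‖ ^ 2 - (x 0) ^ 2 + t ^ 2 := by
  unfold rep
  rw [norm_add_sq_real, inner_smul_right, inner_e0, norm_smul, norm_e0, mul_one, Real.norm_eq_abs,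
    sq_abs]
  ring

theorem coord_sq_le (x : Fib) : (x 0) ^ 2 ≤ ‖x‖ ^ 2 := by
  have := rep_norm_sq x 0
  nlinarith [sq_nonneg ‖rep x 0‖]

theorem summable_coord (b : Blk) : Summable (fun m => (b m 0) ^ 2) :=
  Summable.of_nonneg_of_le (fun _ => sq_nonneg _) (fun m => coord_sq_le (b m))
    (hasSum_sq b).summable

/-! ### The projection on a block -/

theorem summable_P (b : Blk) : Summable (fun m => ‖rep (b m) 0‖ ^ 2) :=
  Summable.of_nonneg_of_le (fun _ => sq_nonneg _)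
    (fun m => by rw [rep_norm_sq]; nlinarith [sq_nonneg (b m 0)]) (hasSum_sq b).summable

/-- The projection on a block. -/
noncomputable def blkP (b : Blk) : Blk := mkL2 (fun m => rep (b m) 0) (summable_P b)

theorem blkP_apply (b : Blk) (m κ : ℕ) : blkP b m κ = if κ = 0 then 0 else b m κ :=
  rep_apply _ _ _

theorem blkP_norm_le (b : Blk) : ‖blkP b‖ ≤ ‖b‖ := by
  refine le_of_sq_le_sq ?_ (norm_nonneg _)
  refine hasSum_le (fun m => ?_) (hasSum_sq (blkP b)) (hasSum_sq b)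
  show ‖rep (b m) 0‖ ^ 2 ≤ _
  rw [rep_norm_sq]; nlinarith [sq_nonneg (b m 0)]

/-- The projection `π` as a function. -/
noncomputable def piF (w : WW) : WW :=
  mkC0 (fun n => blkP (w n)) (tendsto_of_le _ _ (fun n => blkP_norm_le (w n)) (c0_norm_tendsto w))

theorem piF_apply (w : WW) (n m κ : ℕ) : piF w n m κ = if κ = 0 then 0 else w n m κ :=
  blkP_apply _ _ _

theorem ww_ext {u v : WW} (h : ∀ n m κ, u n m κ = v n m κ) : u = v := by
  refine ZeroAtInftyContinuousMap.ext fun n => ?_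
  refine lp.ext (funext fun m => ?_)
  exact lp.ext (funext fun κ => h n m κ)

theorem ww_add (u v : WW) (n m κ : ℕ) : (u + v) n m κ = u n m κ + v n m κ := rfl

theorem ww_smul (c : ℝ) (u : WW) (n m κ : ℕ) : (c • u) n m κ = c * u n m κ := rfl

/-- The projection `π` as a linear map. -/
noncomputable def piL : WW →ₗ[ℝ] WW where
  toFun := piF
  map_add' u v := ww_ext fun n m κ => by
    rw [ww_add, piF_apply, piF_apply, piF_apply, ww_add]
    split_ifs <;> simp
  map_smul' c u := ww_ext fun n m κ => by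
    rw [RingHom.id_apply, ww_smul, piF_apply, piF_apply, ww_smul]
    split_ifs <;> simp

/-- The projection `π`. -/
noncomputable def piC : WW →L[ℝ] WW :=
  piL.mkContinuous 1 fun w => by
    rw [one_mul]
    exact c0_norm_le _ _ (norm_nonneg _) fun n => (blkP_norm_le (w n)).trans (c0_apply_le w n)

theorem isPi_piC : IsPi piC := fun w n m κ => piF_apply w n m κ

/-! ### The embedding `ι` -/

theorem hasSum_I (x : Fib) : HasSum (fun m => ‖(x m) • e0‖ ^ 2) (‖x‖ ^ 2) := by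
  have := hasSum_sq x
  simpa [norm_smul, norm_e0] using this

/-- The embedding on a block. -/
noncomputable def blkI (x : Fib) : Blk := mkL2 (fun m => (x m) • e0) (hasSum_I x).summable

theorem blkI_apply (x : Fib) (m κ : ℕ) : blkI x m κ = if κ = 0 then x m else 0 := by
  show ((x m) • e0) κ = _
  rw [lp.coeFn_smul, Pi.smul_apply, e0_apply]
  split_ifs <;> simp

theorem blkI_norm (x : Fib) : ‖blkI x‖ = ‖x‖ := by
  have h : ‖blkI x‖ ^ 2 = ‖x‖ ^ 2 := mkL2_norm_sq _ _ _ (hasSum_I x)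
  exact (sq_eq_sq₀ (norm_nonneg _) (norm_nonneg _)).1 h

/-- The embedding `ι` as a function. -/
noncomputable def iotaF (c : ZeroAtInftyContinuousMap ℕ Fib) : WW :=
  mkC0 (fun n => blkI (c n))
    (tendsto_of_le _ _ (fun n => (blkI_norm (c n)).le) (c0_norm_tendsto c))

theorem iotaF_apply (c : ZeroAtInftyContinuousMap ℕ Fib) (n m κ : ℕ) :
    iotaF c n m κ = if κ = 0 then c n m else 0 := blkI_apply _ _ _

/-- The embedding `ι`. -/
noncomputable def iotaL : ZeroAtInftyContinuousMap ℕ Fib →ₗᵢ[ℝ] WW where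
  toFun := iotaF
  map_add' u v := ww_ext fun n m κ => by
    rw [ww_add, iotaF_apply, iotaF_apply, iotaF_apply]
    split_ifs
    · rfl
    · simp
  map_smul' c u := ww_ext fun n m κ => by
    rw [RingHom.id_apply, ww_smul, iotaF_apply, iotaF_apply]
    split_ifs
    · rfl
    · simp
  norm_map' c := by
    show ‖iotaF c‖ = ‖c‖
    refine le_antisymm (c0_norm_le _ _ (norm_nonneg _) fun n => ?_)
      (c0_norm_le _ _ (norm_nonneg _) fun n => ?_)
    · exact (blkI_norm (c n)).le.trans (c0_apply_le c n)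
    · exact (blkI_norm (c n)).ge.trans (c0_apply_le (iotaF c) n)

/-! ### The shift `A` -/

/-- The shifted zeroth coordinates. -/
def sh (b : Blk) (s : ℝ) (m : ℕ) : ℝ := if m = 0 then s else b (m - 1) 0

theorem hasSum_T (b : Blk) (s : ℝ) :
    HasSum (fun m => ‖rep (b m) (sh b s m)‖ ^ 2) (‖b‖ ^ 2 + s ^ 2) := by
  obtain ⟨S, hS⟩ := summable_coord b
  have h1 : HasSum (fun m => (sh b s m) ^ 2) (S + ∑ i ∈ Finset.range 1, (sh b s i) ^ 2) := by
    rw [← hasSum_nat_add_iff 1]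
    simpa [sh] using hS
  have h2 := ((hasSum_sq b).sub hS).add h1
  have h3 : ‖b‖ ^ 2 - S + (S + ∑ i ∈ Finset.range 1, (sh b s i) ^ 2) = ‖b‖ ^ 2 + s ^ 2 := by
    simp only [Finset.range_one, Finset.sum_singleton, sh, if_true]
    ring
  rw [h3] at h2
  simpa only [rep_norm_sq] using h2

/-- The shift on a block. -/
noncomputable def blkT (b : Blk) (s : ℝ) : Blk :=
  mkL2 (fun m => rep (b m) (sh b s m)) (hasSum_T b s).summable

theorem blkT_apply (b : Blk) (s : ℝ) (m κ : ℕ) :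
    blkT b s m κ = if κ = 0 then (if m = 0 then s else b (m - 1) 0) else b m κ :=
  rep_apply _ _ _

theorem blkT_norm_sq (b : Blk) (s : ℝ) : ‖blkT b s‖ ^ 2 = ‖b‖ ^ 2 + s ^ 2 :=
  mkL2_norm_sq _ _ _ (hasSum_T b s)

theorem blkT_norm_le (b : Blk) (s : ℝ) : ‖blkT b s‖ ≤ ‖b‖ + ‖s‖ := by
  refine le_of_sq_le_sq ?_ (by positivity)
  rw [blkT_norm_sq, Real.norm_eq_abs, add_sq, sq_abs]
  nlinarith [norm_nonneg b, abs_nonneg s]

theorem le_blkT_norm (b : Blk) (s : ℝ) : ‖b‖ ≤ ‖blkT b s‖ := by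
  refine le_of_sq_le_sq ?_ (norm_nonneg _)
  rw [blkT_norm_sq]
  nlinarith [sq_nonneg s]

theorem le_blkT_norm' (b : Blk) (s : ℝ) : ‖s‖ ≤ ‖blkT b s‖ := by
  refine le_of_sq_le_sq ?_ (norm_nonneg _)
  rw [blkT_norm_sq, Real.norm_eq_abs, sq_abs]
  nlinarith [sq_nonneg ‖b‖]

/-- The shift `A` as a function. -/
noncomputable def shiftF (p : WW × ZeroAtInftyContinuousMap ℕ ℝ) : WW :=
  mkC0 (fun n => blkT (p.1 n) (p.2 n))
    (tendsto_of_le _ _ (fun n => blkT_norm_le (p.1 n) (p.2 n))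
      (by simpa using (c0_norm_tendsto p.1).add (c0_norm_tendsto p.2)))

theorem shiftF_apply (p : WW × ZeroAtInftyContinuousMap ℕ ℝ) (n m κ : ℕ) :
    shiftF p n m κ = if κ = 0 then (if m = 0 then p.2 n else p.1 n (m - 1) 0) else p.1 n m κ :=
  blkT_apply _ _ _ _

/-- The shift `A`. -/
noncomputable def shiftL : (WW × ZeroAtInftyContinuousMap ℕ ℝ) →ₗ[ℝ] WW where
  toFun := shiftF
  map_add' u v := ww_ext fun n m κ => by
    rw [ww_add, shiftF_apply, shiftF_apply, shiftF_apply]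
    split_ifs <;> rfl
  map_smul' c u := ww_ext fun n m κ => by
    rw [RingHom.id_apply, ww_smul, shiftF_apply, shiftF_apply]
    split_ifs <;> rfl

theorem hasSum_U (b : Blk) :
    HasSum (fun m => ‖rep (b m) (b (m + 1) 0)‖ ^ 2) (‖b‖ ^ 2 - (b 0 0) ^ 2) := by
  obtain ⟨S, hS⟩ := summable_coord b
  have h1 : HasSum (fun m => (b (m + 1) 0) ^ 2) (S - ∑ i ∈ Finset.range 1, (b i 0) ^ 2) :=
    (hasSum_nat_add_iff' (f := fun m => (b m 0) ^ 2) 1).2 hS
  have h2 := ((hasSum_sq b).sub hS).add h1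
  have h3 : ‖b‖ ^ 2 - S + (S - ∑ i ∈ Finset.range 1, (b i 0) ^ 2) = ‖b‖ ^ 2 - (b 0 0) ^ 2 := by
    simp
  rw [h3] at h2
  simpa only [rep_norm_sq] using h2

/-- The inverse shift on a block. -/
noncomputable def blkU (b : Blk) : Blk :=
  mkL2 (fun m => rep (b m) (b (m + 1) 0)) (hasSum_U b).summable

theorem blkU_apply (b : Blk) (m κ : ℕ) :
    blkU b m κ = if κ = 0 then b (m + 1) 0 else b m κ := rep_apply _ _ _

theorem blkU_norm_le (b : Blk) : ‖blkU b‖ ≤ ‖b‖ := by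
  refine le_of_sq_le_sq ?_ (norm_nonneg _)
  have h : ‖blkU b‖ ^ 2 = ‖b‖ ^ 2 - (b 0 0) ^ 2 := mkL2_norm_sq _ _ _ (hasSum_U b)
  rw [h]
  nlinarith [sq_nonneg (b 0 0)]

theorem coord_le (b : Blk) : ‖b 0 0‖ ≤ ‖b‖ :=
  (lp.norm_apply_le_norm (by norm_num) (b 0) 0).trans (lp.norm_apply_le_norm (by norm_num) b 0)

theorem shift_surj : Function.Surjective shiftL := by
  intro w
  refine ⟨(mkC0 (fun n => blkU (w n))
      (tendsto_of_le _ _ (fun n => blkU_norm_le (w n)) (c0_norm_tendsto w)),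
    mkC0 (fun n => w n 0 0) (tendsto_of_le _ _ (fun n => coord_le (w n)) (c0_norm_tendsto w))), ?_⟩
  refine ww_ext fun n m κ => ?_
  show shiftF _ n m κ = _
  rw [shiftF_apply]
  simp only [mkC0_apply, blkU_apply]
  split_ifs with h1 h2
  · subst h1; subst h2; rfl
  · subst h1
    rw [Nat.sub_add_cancel (Nat.one_le_iff_ne_zero.2 h2)]
  · rfl

theorem shift_lower (p : WW × ZeroAtInftyContinuousMap ℕ ℝ) : ‖p‖ ≤ ‖shiftL p‖ := by
  rw [Prod.norm_def]
  refine max_le (c0_norm_le _ _ (norm_nonneg _) fun n => ?_)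
    (c0_norm_le _ _ (norm_nonneg _) fun n => ?_)
  · exact (le_blkT_norm (p.1 n) (p.2 n)).trans (c0_apply_le (shiftF p) n)
  · exact (le_blkT_norm' (p.1 n) (p.2 n)).trans (c0_apply_le (shiftF p) n)

theorem shift_upper (p : WW × ZeroAtInftyContinuousMap ℕ ℝ) : ‖shiftL p‖ ≤ 2 * ‖p‖ := by
  refine c0_norm_le _ _ (by positivity) fun n => ?_
  have h1 := blkT_norm_le (p.1 n) (p.2 n)
  have h2 := (c0_apply_le p.1 n).trans (norm_fst_le p)
  have h3 := (c0_apply_le p.2 n).trans (norm_snd_le p)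
  show ‖blkT (p.1 n) (p.2 n)‖ ≤ _
  linarith

end Maps

open Maps in
theorem claimMaps : ClaimMaps := by
  refine ⟨piC, isPi_piC, ⟨iotaL, fun c => ?_⟩, shiftL, shift_surj,
    fun p => ⟨shift_lower p, shift_upper p⟩, fun p => ?_⟩
  · refine ww_ext fun n m κ => ?_
    rw [isPi_piC]
    show _ = (0 : ℝ)
    split_ifs with h
    · rfl
    · show iotaF c n m κ = 0
      rw [iotaF_apply, if_neg h]
  · refine ww_ext fun n m κ => ?_
    rw [isPi_piC, isPi_piC]
    split_ifs with h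
    · rfl
    · show shiftF p n m κ = _
      rw [shiftF_apply, if_neg h]

end Crest.Agent.R91
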