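import Crest.Agent.R91.MartDefs

/-! Row 91: the martingale step (random signs with stopping). -/

set_option autoImplicit false

open Filter Topology Finset

namespace Crest.Agent.R91

variable {W : Type} [NormedAddCommGroup W] [NormedSpace ℝ W]

/-- The state of the construction after `i` steps. -/
structure MartState (Pj : Proj W) (pa : Par) (ζ : ℕ → (W → ℝ) →ₗ[ℝ] ℝ) (m : ℕ) {ι : Type}
    (s : Finset ι) (e : ι → W) (K : ℕ) (C1 c a ε1 η : ℝ) (i : ℕ) (Ω : Type) [Fintype Ω]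
    (G : Ω → W → ℝ) (S : Ω → ι → W → ℝ) (K' N : ℕ) (Λ B : ℝ) : Prop where
  le_K : K ≤ K'
  Λ0 : 0 ≤ Λ
  B0 : 0 ≤ B
  p1 : Fintype.card Ω * (c / 4 * i) ≤ ∑ ω, ∑ k ∈ Ico K K', |ζ k (G ω)|
  p2 : ∀ u, ∑ ω, ∑ d ∈ s, S ω d u ^ 2 ≤ Fintype.card Ω * (s.card * C1 ^ 2 * i)
  p3 : ∀ ω, ∀ d ∈ s, ∀ u, |S ω d u| ≤ 2 * a
  p4 : ∀ ω, ∀ d ∈ s, ∀ (u : W) (t : ℝ),
    |G ω (u + t • e d) - G ω u - t * S ω d u| ≤ i * ε1 * |t| + B * t ^ 2
  p5 : ∀ ω u v, Pj.P m u = Pj.P m v → |G ω u - G ω v| ≤ i * (η + ε1) * ‖u - v‖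
  p6 : ∀ ω, Good Pj pa (i * (C1 + 1)) (G ω)
  p7 : ∀ ω, ∀ d ∈ s, ∀ u v, |S ω d u - S ω d v| ≤ Λ * ‖u - v‖
  p8 : ∀ ω, ∀ d ∈ s, ∀ w, S ω d (Pj.P N w) = S ω d w

/-- What every step consumes. -/
def MartSupply (Pj : Proj W) (pa : Par) (ζ : ℕ → (W → ℝ) →ₗ[ℝ] ℝ) (m : ℕ) {ι : Type}
    (s : Finset ι) (e : ι → W) (C1 c η : ℝ) : Prop :=
  ∀ σ : ℝ, 0 < σ → ∀ K : ℕ, ∃ k, K ≤ k ∧
    ∃ (h' : W → ℝ) (q : ι → W → ℝ) (N : ℕ) (Λ B : ℝ), 0 ≤ Λ ∧ 0 ≤ B ∧
      Good Pj pa C1 h' ∧ (∀ w, |h' w| ≤ σ) ∧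
      (∀ u v, Pj.P m u = Pj.P m v → |h' u - h' v| ≤ η * ‖u - v‖) ∧ c / 2 ≤ ζ k h' ∧
      ∀ d ∈ s, (∀ w, |q d w| ≤ C1) ∧ (∀ u v, |q d u - q d v| ≤ Λ * ‖u - v‖) ∧
        (∀ w, q d (Pj.P N w) = q d w) ∧
        ∀ (u : W) (t : ℝ), |h' (u + t • e d) - h' u - t * q d u| ≤ B * t ^ 2

/-- The stopping weight. -/
noncomputable def clampW (x : ℝ) : ℝ := max 0 (min 1 (2 - x))

theorem clampW_nonneg (x : ℝ) : 0 ≤ clampW x := le_max_left _ _

theorem clampW_le_one (x : ℝ) : clampW x ≤ 1 := max_le zero_le_one (min_le_left _ _)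

theorem abs_clampW (x : ℝ) : |clampW x| ≤ 1 := by
  rw [abs_of_nonneg (clampW_nonneg x)]; exact clampW_le_one x

theorem one_sub_clampW {x : ℝ} (hx : 0 ≤ x) : 1 - clampW x ≤ x := by
  have h1 : min 1 (2 - x) ≤ clampW x := le_max_right _ _
  have h2 := clampW_nonneg x
  rcases le_total 1 (2 - x) with h | h
  · rw [min_eq_left h] at h1; linarith
  · linarith

theorem clampW_eq_zero {x : ℝ} (hx : 2 ≤ x) : clampW x = 0 :=
  max_eq_left ((min_le_right _ _).trans (by linarith))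

theorem clampW_lip (x y : ℝ) : |clampW x - clampW y| ≤ |x - y| := by
  have h1 : |clampW x - clampW y| ≤ |min 1 (2 - x) - min 1 (2 - y)| := by
    rw [clampW, clampW, max_comm 0, max_comm 0]
    exact abs_max_sub_max_le_abs _ _ _
  have h2 : |min 1 (2 - x) - min 1 (2 - y)| ≤ max |(1 : ℝ) - 1| |(2 - x) - (2 - y)| :=
    abs_min_sub_min_le_max _ _ _ _
  rw [sub_self, abs_zero, max_eq_right (abs_nonneg _),
    show (2 - x) - (2 - y) = y - x by ring, abs_sub_comm y x] at h2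
  exact h1.trans h2

/-- A sign. -/
def sgnB (b : Bool) : ℝ := if b then 1 else -1

theorem abs_sgnB (b : Bool) : |sgnB b| = 1 := by cases b <;> simp [sgnB]

theorem abs_add_sgnB (b : Bool) {x y X Y : ℝ} (hx : |x| ≤ X) (hy : |y| ≤ Y) :
    |x + sgnB b * y| ≤ X + Y := by
  refine (abs_add_le _ _).trans (add_le_add hx ?_)
  rwa [abs_mul, abs_sgnB, one_mul]

theorem abs_mul_sub_mul_le {f f' g g' A B X Y : ℝ} (hf : |f| ≤ A) (hg : |g'| ≤ B)
    (hgg : |g - g'| ≤ X) (hff : |f - f'| ≤ Y) : |f * g - f' * g'| ≤ A * X + B * Y := by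
  have h : f * g - f' * g' = f * (g - g') + g' * (f - f') := by ring
  rw [h]
  refine (abs_add_le _ _).trans (add_le_add ?_ ?_)
  · rw [abs_mul]; exact mul_le_mul hf hgg (abs_nonneg _) ((abs_nonneg _).trans hf)
  · rw [abs_mul]; exact mul_le_mul hg hff (abs_nonneg _) ((abs_nonneg _).trans hg)

variable {Pj : Proj W} {pa : Par} {ζ : ℕ → (W → ℝ) →ₗ[ℝ] ℝ} {m : ℕ} {ι : Type}
  {s : Finset ι} {e : ι → W} {K : ℕ} {CW C1 c a ε1 η : ℝ}

theorem martState_zero (ha : 0 ≤ a) :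
    MartState Pj pa ζ m s e K C1 c a ε1 η 0 Unit (fun _ _ => 0) (fun _ _ _ => 0) K 0 0 0 where
  le_K := le_rfl
  Λ0 := le_rfl
  B0 := le_rfl
  p1 := by simp
  p2 := by simp
  p3 := by intros; simpa using ha
  p4 := by simp
  p5 := by simp
  p6 := fun _ => by simpa using Good.const (Pj := Pj) (pa := pa) 0
  p7 := by simp
  p8 := by simp

theorem dep_max_left {f : W → ℝ} {N : ℕ} (h : ∀ w, f (Pj.P N w) = f w) (N' : ℕ) (w : W) :
    f (Pj.P (max N N') w) = f w := by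
  rw [← h, Pj.PP_le (le_max_left _ _), h]

theorem dep_max_right {f : W → ℝ} {N : ℕ} (h : ∀ w, f (Pj.P N w) = f w) (N' : ℕ) (w : W) :
    f (Pj.P (max N' N) w) = f w := by
  rw [max_comm, dep_max_left h]

/-- The stopping weights attached to a state. -/
theorem MartState.weights {i : ℕ} {Ω : Type} [Fintype Ω] [Nonempty Ω] {G : Ω → W → ℝ}
    {S : Ω → ι → W → ℝ} {K' N : ℕ} {Λ B δ : ℝ}
    (h : MartState Pj pa ζ m s e K C1 c a ε1 η i Ω G S K' N Λ B) (ha : 0 < a)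
    (hδ : s.card * C1 ^ 2 * i ≤ δ * (a ^ 2 / 2)) :
    ∃ (w : Ω → W → ℝ) (Λw : ℝ), 0 ≤ Λw ∧ (∀ ω u, 0 ≤ w ω u ∧ w ω u ≤ 1) ∧
      (∀ ω u v, |w ω u - w ω v| ≤ Λw * ‖u - v‖) ∧ (∀ ω u, w ω (Pj.P N u) = w ω u) ∧
      (∀ ω u, w ω u ≠ 0 → ∀ d ∈ s, |S ω d u| ≤ a) ∧
      ∀ u, ∑ ω, (1 - w ω u) ≤ Fintype.card Ω * δ := by
  have hΘ : 0 < a ^ 2 / 2 := by positivity
  have hΛ := h.Λ0
  refine ⟨fun ω u => clampW ((∑ d ∈ s, S ω d u ^ 2) / (a ^ 2 / 2)),
    s.card * (4 * a * Λ) / (a ^ 2 / 2), by positivity,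
    fun ω u => ⟨clampW_nonneg _, clampW_le_one _⟩, fun ω u v => ?_, fun ω u => ?_,
    fun ω u hu d hd => ?_, fun u => ?_⟩
  · refine (clampW_lip _ _).trans ?_
    rw [← sub_div, abs_div, abs_of_pos hΘ, div_mul_eq_mul_div]
    refine div_le_div_of_nonneg_right ?_ hΘ.le
    rw [← sum_sub_distrib]
    refine (abs_sum_le_sum_abs _ _).trans ?_
    refine (sum_le_card_nsmul _ _ (4 * a * Λ * ‖u - v‖) fun d hd => ?_).trans ?_
    · have h1 := abs_mul_sub_mul_le (h.p3 ω d hd u) (h.p3 ω d hd v) (h.p7 ω d hd u v)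
        (h.p7 ω d hd u v)
      rw [sq, sq]
      linarith
    · rw [nsmul_eq_mul]; exact le_of_eq (by ring)
  · have : ∑ d ∈ s, S ω d (Pj.P N u) ^ 2 = ∑ d ∈ s, S ω d u ^ 2 :=
      sum_congr rfl fun d hd => by rw [h.p8 ω d hd]
    simp only [this]
  · have h1 : (∑ d ∈ s, S ω d u ^ 2) / (a ^ 2 / 2) < 2 := by
      by_contra h2
      exact hu (clampW_eq_zero (not_lt.1 h2))
    rw [div_lt_iff₀ hΘ] at h1
    exact abs_le_of_sum_sq (x := fun d => S ω d u) ha.le (by linarith) hd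
  · calc ∑ ω, (1 - clampW ((∑ d ∈ s, S ω d u ^ 2) / (a ^ 2 / 2)))
        ≤ ∑ ω, (∑ d ∈ s, S ω d u ^ 2) / (a ^ 2 / 2) :=
          sum_le_sum fun ω _ => one_sub_clampW (by positivity)
      _ = (∑ ω, ∑ d ∈ s, S ω d u ^ 2) / (a ^ 2 / 2) := by rw [sum_div]
      _ ≤ Fintype.card Ω * δ := by
          rw [div_le_iff₀ hΘ, mul_assoc]
          exact (h.p2 u).trans (mul_le_mul_of_nonneg_left hδ (Nat.cast_nonneg _))

/-- On average the stopped function is still seen by the functional. -/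
theorem mart_seen {Ω : Type} [Fintype Ω] [Nonempty Ω] (hW : WUC Pj pa ζ CW) {w : Ω → W → ℝ}
    {Λw δ σ : ℝ} {N k : ℕ} {h' : W → ℝ} (hΛ : 0 ≤ Λw) (hw : ∀ ω u, 0 ≤ w ω u ∧ w ω u ≤ 1)
    (hlip : ∀ ω u v, |w ω u - w ω v| ≤ Λw * ‖u - v‖) (hdep : ∀ ω u, w ω (Pj.P N u) = w ω u)
    (hav : ∀ u, ∑ ω, (1 - w ω u) ≤ Fintype.card Ω * δ) (hg : Good Pj pa C1 h')
    (hσ : ∀ u, |h' u| ≤ σ) (hk : c / 2 ≤ ζ k h') (hsm : CW * (σ * ((N + 1) * Λw) + δ * C1) ≤ c / 4) :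
    Fintype.card Ω * (c / 4) ≤ ∑ ω, |ζ k (fun u => w ω u * h' u)| := by
  have hn : (0 : ℝ) < Fintype.card Ω := by exact_mod_cast Fintype.card_pos
  set n : ℝ := (Fintype.card Ω : ℝ) with hndef
  let π : W → ℝ := fun u => (∑ ω, (1 - w ω u)) / n
  have hπ0 : ∀ u, |π u| ≤ δ := fun u => by
    have h0 : 0 ≤ ∑ ω, (1 - w ω u) := sum_nonneg fun ω _ => sub_nonneg.2 (hw ω u).2
    rw [abs_of_nonneg (div_nonneg h0 hn.le), div_le_iff₀ hn, mul_comm]
    exact hav u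
  have hπlip : ∀ u v, |π u - π v| ≤ Λw * ‖u - v‖ := fun u v => by
    simp only [π]
    rw [← sub_div, abs_div, abs_of_pos hn, div_le_iff₀ hn, ← sum_sub_distrib]
    refine (abs_sum_le_sum_abs _ _).trans ?_
    refine (sum_le_card_nsmul _ _ (Λw * ‖u - v‖) fun ω _ => ?_).trans ?_
    · rw [show 1 - w ω u - (1 - w ω v) = w ω v - w ω u by ring, abs_sub_comm]
      exact hlip ω u v
    · rw [nsmul_eq_mul, card_univ, mul_comm]
  have hπdep : ∀ u, π (Pj.P N u) = π u := fun u => by simp only [π, hdep]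
  have h1 := hW.abs_le ((good_of_lip_dep (pa := pa) hΛ hπlip hπdep).mul hg hπ0 hσ) k
  have h2 : ∑ ω, (fun u => w ω u * h' u) = n • (h' - fun u => π u * h' u) := by
    funext u
    simp only [π, Finset.sum_apply, Pi.smul_apply, Pi.sub_apply, smul_eq_mul]
    rw [← sum_mul, sum_sub_distrib, sum_const, card_univ, nsmul_eq_mul, ← hndef]
    field_simp
    ring
  have h3 : ∑ ω, ζ k (fun u => w ω u * h' u) = n * (ζ k h' - ζ k fun u => π u * h' u) := by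
    rw [← map_sum, h2, map_smul, map_sub, smul_eq_mul]
  calc n * (c / 4) ≤ n * (ζ k h' - ζ k fun u => π u * h' u) := by
        refine mul_le_mul_of_nonneg_left ?_ hn.le
        have := le_abs_self (ζ k fun u => π u * h' u)
        linarith
    _ = ∑ ω, ζ k (fun u => w ω u * h' u) := h3.symm
    _ ≤ _ := sum_le_sum fun ω _ => le_abs_self _

theorem MartState.step {i : ℕ} {Ω : Type} [Fintype Ω] [Nonempty Ω] {G : Ω → W → ℝ}
    {S : Ω → ι → W → ℝ} {K' N : ℕ} {Λ B δ : ℝ}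
    (h : MartState Pj pa ζ m s e K C1 c a ε1 η i Ω G S K' N Λ B) (hW : WUC Pj pa ζ CW)
    (hsup : MartSupply Pj pa ζ m s e C1 c η) (he : ∀ d ∈ s, ‖e d‖ ≤ 1) (hc : 0 < c) (ha : 0 < a)
    (hCa : C1 ≤ a) (hε : 0 < ε1) (hε1 : ε1 ≤ 1)
    (hδ : s.card * C1 ^ 2 * i ≤ δ * (a ^ 2 / 2)) (hδ' : CW * (δ * C1) ≤ c / 8) :
    ∃ (G' : Ω × Bool → W → ℝ) (S' : Ω × Bool → ι → W → ℝ) (K'' N' : ℕ) (Λ' B' : ℝ),
      MartState Pj pa ζ m s e K C1 c a ε1 η (i + 1) (Ω × Bool) G' S' K'' N' Λ' B' := by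
  obtain ⟨w, Λw, hΛw, hw, hwlip, hwdep, hwS, hwav⟩ := h.weights ha hδ
  have hCW := hW.nonneg
  have hwabs : ∀ ω u, |w ω u| ≤ 1 := fun ω u => by
    rw [abs_of_nonneg (hw ω u).1]; exact (hw ω u).2
  obtain ⟨σ, hσ, hσ1, hσ2⟩ : ∃ σ : ℝ, 0 < σ ∧ σ * ((N + 1) * Λw) ≤ ε1 ∧
      CW * (σ * ((N + 1) * Λw)) ≤ c / 8 := by
    have hX : 0 ≤ (N + 1) * Λw := by positivity
    set X := (N + 1) * Λw
    have hτ : 0 < min ε1 (c / (8 * (CW + 1))) := lt_min hε (by positivity)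
    have h1 : min ε1 (c / (8 * (CW + 1))) / (X + 1) * X ≤ min ε1 (c / (8 * (CW + 1))) := by
      rw [div_mul_eq_mul_div, div_le_iff₀ (by positivity)]
      nlinarith
    refine ⟨min ε1 (c / (8 * (CW + 1))) / (X + 1), by positivity, h1.trans (min_le_left _ _), ?_⟩
    refine (mul_le_mul_of_nonneg_left (h1.trans (min_le_right _ _)) hCW).trans ?_
    rw [← mul_div_assoc, div_le_div_iff₀ (by positivity) (by positivity)]
    nlinarith
  have hσ3 : σ * Λw ≤ ε1 := by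
    refine le_trans (mul_le_mul_of_nonneg_left ?_ hσ.le) hσ1
    have : (0 : ℝ) ≤ N := Nat.cast_nonneg N
    nlinarith
  obtain ⟨k, hk, h', q, Nq, Λq, Bq, hΛq, hBq, hg, hhσ, hhη, hζ, hq⟩ := hsup σ hσ K'
  have hC1 := hg.nonneg
  have hseen := mart_seen hW hΛw hw hwlip hwdep hwav hg hhσ hζ (by rw [mul_add]; linarith)
  have hcard : (Fintype.card (Ω × Bool) : ℝ) = 2 * Fintype.card Ω := by
    rw [Fintype.card_prod, Fintype.card_bool]; push_cast; ring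
  refine ⟨fun ω u => G ω.1 u + sgnB ω.2 * (w ω.1 u * h' u),
    fun ω d u => S ω.1 d u + sgnB ω.2 * (w ω.1 u * q d u), k + 1, max N Nq,
    Λ + (Λq + C1 * Λw), B + Bq, ?_⟩
  have hKk : K ≤ k := h.le_K.trans hk
  have hΛ := h.Λ0
  have hB := h.B0
  refine ⟨by omega, by positivity, by positivity, ?_, fun u => ?_, fun ω d hd u => ?_,
    fun ω d hd u t => ?_, fun ω u v huv => ?_, fun ω => ?_, fun ω d hd u v => ?_,
    fun ω d hd u => ?_⟩
  · have hlin : ∀ (ω : Ω) (b : Bool) (j : ℕ), ζ j (fun u => G ω u + sgnB b * (w ω u * h' u)) =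
        ζ j (G ω) + sgnB b * ζ j (fun u => w ω u * h' u) := fun ω b j => by
      have : (fun u => G ω u + sgnB b * (w ω u * h' u)) =
          G ω + sgnB b • fun u => w ω u * h' u := rfl
      rw [this, map_add, map_smul, smul_eq_mul]
    have key : ∀ ω : Ω, 2 * ∑ j ∈ Ico K K', |ζ j (G ω)| + 2 * |ζ k (fun u => w ω u * h' u)| ≤
        ∑ b : Bool, ∑ j ∈ Ico K (k + 1), |ζ j (fun u => G ω u + sgnB b * (w ω u * h' u))| := by
      intro ω
      simp only [hlin]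
      simp only [Fintype.sum_bool, sgnB, if_true, Bool.false_eq_true, if_false, one_mul,
        neg_mul, ← sub_eq_add_neg]
      rw [← sum_add_distrib, sum_Ico_succ_top hKk]
      refine add_le_add ?_ (abs_add_add_abs_sub _ _).2
      rw [mul_sum]
      refine le_trans (sum_le_sum fun j _ => (abs_add_add_abs_sub _
        (ζ j (fun u => w ω u * h' u))).1) ?_
      exact sum_le_sum_of_subset_of_nonneg (Ico_subset_Ico_right hk) fun j _ _ => by positivity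
    rw [Fintype.sum_prod_type]
    refine le_trans ?_ (sum_le_sum fun ω _ => key ω)
    rw [sum_add_distrib, ← mul_sum, ← mul_sum, hcard]
    have := h.p1
    push_cast
    linarith
  · have key : ∀ ω : Ω, ∑ b : Bool, ∑ d ∈ s, (S ω d u + sgnB b * (w ω u * q d u)) ^ 2 ≤
        2 * ∑ d ∈ s, S ω d u ^ 2 + 2 * (s.card * C1 ^ 2) := by
      intro ω
      simp only [Fintype.sum_bool, sgnB, if_true, Bool.false_eq_true, if_false]
      rw [← sum_add_distrib, mul_sum, ← nsmul_eq_mul, ← sum_const, mul_sum, ← sum_add_distrib]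
      refine sum_le_sum fun d hd => ?_
      have h1 : |w ω u * q d u| ≤ C1 := by
        rw [abs_mul]
        exact (mul_le_of_le_one_left (abs_nonneg _) (hwabs ω u)).trans ((hq d hd).1 u)
      have h2 : (w ω u * q d u) ^ 2 ≤ C1 ^ 2 := by
        rw [← sq_abs]; exact pow_le_pow_left₀ (abs_nonneg _) h1 2
      linarith [show (S ω d u + 1 * (w ω u * q d u)) ^ 2 + (S ω d u + -1 * (w ω u * q d u)) ^ 2 =
        2 * S ω d u ^ 2 + 2 * (w ω u * q d u) ^ 2 by ring]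
    rw [Fintype.sum_prod_type]
    refine (sum_le_sum fun ω _ => key ω).trans ?_
    rw [sum_add_distrib, ← mul_sum, sum_const, card_univ, nsmul_eq_mul, hcard]
    have := h.p2 u
    push_cast
    linarith
  · by_cases h0 : w ω.1 u = 0
    · simpa [h0] using h.p3 ω.1 d hd u
    · have h1 : |w ω.1 u * q d u| ≤ a := by
        rw [abs_mul]
        exact ((mul_le_of_le_one_left (abs_nonneg _) (hwabs _ u)).trans ((hq d hd).1 u)).trans hCa
      exact (abs_add_sgnB _ (hwS _ u h0 d hd) h1).trans (le_of_eq (by ring))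
  · have h1 : |w ω.1 (u + t • e d) - w ω.1 u| ≤ Λw * |t| := by
      refine (hwlip _ _ _).trans (mul_le_mul_of_nonneg_left ?_ hΛw)
      rw [add_sub_cancel_left, norm_smul, Real.norm_eq_abs]
      exact mul_le_of_le_one_right (abs_nonneg _) (he d hd)
    have h2 : |w ω.1 u * (h' (u + t • e d) - h' u - t * q d u) +
        h' (u + t • e d) * (w ω.1 (u + t • e d) - w ω.1 u)| ≤ Bq * t ^ 2 + ε1 * |t| := by
      refine (abs_add_le _ _).trans (add_le_add ?_ ?_)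
      · rw [abs_mul]
        exact (mul_le_of_le_one_left (abs_nonneg _) (hwabs _ u)).trans ((hq d hd).2.2.2 u t)
      · rw [abs_mul]
        refine (mul_le_mul (hhσ _) h1 (abs_nonneg _) hσ.le).trans ?_
        rw [← mul_assoc]
        exact mul_le_mul_of_nonneg_right hσ3 (abs_nonneg _)
    have h3 := abs_add_sgnB ω.2 (h.p4 ω.1 d hd u t) h2
    refine le_trans (le_of_eq ?_) (h3.trans (le_of_eq ?_))
    · congr 1; ring
    · push_cast; ring
  · have h2 := abs_mul_sub_mul_le (hwabs ω.1 u) (hhσ v) (hhη u v huv) (hwlip ω.1 u v)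
    have h3 := abs_add_sgnB ω.2 (h.p5 ω.1 u v huv) h2
    have h4 : σ * Λw * ‖u - v‖ ≤ ε1 * ‖u - v‖ := mul_le_mul_of_nonneg_right hσ3 (norm_nonneg _)
    refine le_trans (le_of_eq ?_) (h3.trans ?_)
    · congr 1; ring
    · push_cast; linarith
  · have h1 := ((good_of_lip_dep (pa := pa) hΛw (hwlip ω.1) (hwdep ω.1)).mul hg (hwabs ω.1)
      hhσ).smul (sgnB ω.2)
    refine ((h.p6 ω.1).add h1).mono ?_
    rw [abs_sgnB]
    push_cast
    linarith
  · have h2 := abs_mul_sub_mul_le (hwabs ω.1 u) ((hq d hd).1 v) ((hq d hd).2.1 u v)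
      (hwlip ω.1 u v)
    have h3 := abs_add_sgnB ω.2 (h.p7 ω.1 d hd u v) h2
    refine le_trans (le_of_eq ?_) (h3.trans (le_of_eq ?_))
    · congr 1; ring
    · ring
  · rw [dep_max_left (h.p8 ω.1 d hd), dep_max_left (hwdep ω.1), dep_max_right (hq d hd).2.2.1]

theorem mart_iter (hW : WUC Pj pa ζ CW) (hsup : MartSupply Pj pa ζ m s e C1 c η)
    (he : ∀ d ∈ s, ‖e d‖ ≤ 1) (hc : 0 < c) (ha : 0 < a) (hCa : C1 ≤ a) (hε : 0 < ε1) (hε1 : ε1 ≤ 1)
    {δ : ℝ} {n : ℕ} (hδ : s.card * C1 ^ 2 * n ≤ δ * (a ^ 2 / 2)) (hδ' : CW * (δ * C1) ≤ c / 8)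
    (i : ℕ) (hi : i ≤ n) :
    ∃ (Ω : Type) (_ : Fintype Ω) (_ : Nonempty Ω) (G : Ω → W → ℝ) (S : Ω → ι → W → ℝ)
      (K' N : ℕ) (Λ B : ℝ), MartState Pj pa ζ m s e K C1 c a ε1 η i Ω G S K' N Λ B := by
  induction i with
  | zero => exact ⟨Unit, inferInstance, inferInstance, _, _, _, _, _, _, martState_zero ha.le⟩
  | succ i ih =>
    obtain ⟨Ω, _, _, G, S, K', N, Λ, B, h⟩ := ih (by omega)
    have hi' : (i : ℝ) ≤ n := by exact_mod_cast (by omega : i ≤ n)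
    obtain ⟨G', S', K'', N', Λ', B', h'⟩ := h.step hW hsup he hc ha hCa hε hε1
      ((mul_le_mul_of_nonneg_left hi' (by positivity)).trans hδ) hδ'
    exact ⟨Ω × Bool, inferInstance, inferInstance, G', S', K'', N', Λ', B', h'⟩

/-- Cutting a segment into equal pieces removes the quadratic term. -/
theorem dir_lip {f : W → ℝ} {x : W} {M B : ℝ}
    (h : ∀ (u : W) (t : ℝ), |f (u + t • x) - f u| ≤ M * |t| + B * t ^ 2) (u : W) (t : ℝ) :
    |f (u + t • x) - f u| ≤ M * |t| := by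
  have h1 : ∀ (τ : ℝ) (p : ℕ), |f (u + ((p : ℝ) * τ) • x) - f u| ≤ p * (M * |τ| + B * τ ^ 2) := by
    intro τ p
    induction p with
    | zero => simp
    | succ p ih =>
      have h2 := h (u + ((p : ℝ) * τ) • x) τ
      have h3 : u + (((p + 1 : ℕ) : ℝ) * τ) • x = u + ((p : ℝ) * τ) • x + τ • x := by
        push_cast
        rw [add_mul, one_mul, add_smul, add_assoc]
      rw [h3]
      have h4 := abs_sub_le (f (u + ((p : ℝ) * τ) • x + τ • x)) (f (u + ((p : ℝ) * τ) • x)) (f u)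
      push_cast
      linarith
  have h2 : Tendsto (fun p : ℕ => M * |t| + B * t ^ 2 / (p : ℝ)) atTop (𝓝 (M * |t| + 0)) :=
    (tendsto_const_div_atTop_nhds_zero_nat _).const_add _
  rw [add_zero] at h2
  refine ge_of_tendsto h2 ?_
  filter_upwards [eventually_gt_atTop 0] with p hp
  have hp' : (0 : ℝ) < p := by exact_mod_cast hp
  have h3 := h1 (t / p) p
  rw [mul_div_cancel₀ _ hp'.ne', abs_div, abs_of_pos hp'] at h3
  refine h3.trans (le_of_eq ?_)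
  field_simp

theorem dir_sum {f : W → ℝ} {M : ℝ} (s : Finset ι)
    (h : ∀ d ∈ s, ∀ (u : W) (t : ℝ), |f (u + t • e d) - f u| ≤ M * |t|) (u : W) (t : ι → ℝ) :
    |f (u + ∑ d ∈ s, t d • e d) - f u| ≤ ∑ d ∈ s, M * |t d| := by
  classical
  induction s using Finset.induction_on with
  | empty => simp
  | insert d s hd ih =>
    rw [sum_insert hd, sum_insert hd, add_comm (t d • e d), ← add_assoc]
    have h1 := h d (mem_insert_self _ _) (u + ∑ d ∈ s, t d • e d) (t d)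
    have h2 := ih fun d' hd' => h d' (mem_insert_of_mem hd')
    have h3 := abs_sub_le (f (u + ∑ d ∈ s, t d • e d + t d • e d)) (f (u + ∑ d ∈ s, t d • e d))
      (f u)
    linarith

theorem MartState.lip {i : ℕ} {Ω : Type} [Fintype Ω] {G : Ω → W → ℝ}
    {S : Ω → ι → W → ℝ} {K' N : ℕ} {Λ B : ℝ}
    (h : MartState Pj pa ζ m s e K C1 c a ε1 η i Ω G S K' N Λ B) (ha : 0 ≤ a) (hε : 0 ≤ ε1)
    (hη : 0 ≤ η) {l : ι → W → ℝ} (hl : ∀ d ∈ s, ∀ w, |l d w| ≤ ‖w‖)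
    (hP : ∀ w, Pj.P m w = ∑ d ∈ s, l d w • e d) (ω : Ω) (u v : W) :
    |G ω v - G ω u| ≤ (s.card * (2 * a + i * ε1) + i * (η + ε1)) * ‖v - u‖ := by
  have hM : 0 ≤ 2 * a + i * ε1 := by positivity
  have h1 : ∀ d ∈ s, ∀ (u : W) (t : ℝ),
      |G ω (u + t • e d) - G ω u| ≤ (2 * a + i * ε1) * |t| := fun d hd =>
    dir_lip (B := B) fun u t => by
      have h2 := h.p4 ω d hd u t
      have h3 : |t * S ω d u| ≤ |t| * (2 * a) := by
        rw [abs_mul]; exact mul_le_mul_of_nonneg_left (h.p3 ω d hd u) (abs_nonneg _)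
      have h4 := abs_add_le (G ω (u + t • e d) - G ω u - t * S ω d u) (t * S ω d u)
      rw [sub_add_cancel] at h4
      linarith
  have h2 := dir_sum s h1 u fun d => l d (v - u)
  rw [← hP] at h2
  have h3 : ∑ d ∈ s, (2 * a + i * ε1) * |l d (v - u)| ≤ s.card * ((2 * a + i * ε1) * ‖v - u‖) := by
    rw [← nsmul_eq_mul s.card]
    exact sum_le_card_nsmul _ _ _ fun d hd => mul_le_mul_of_nonneg_left (hl d hd _) hM
  have h4 := h.p5 ω v (u + Pj.P m (v - u)) (by rw [map_add, Pj.PP_le le_rfl, map_sub]; abel)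
  have h5 : ‖v - (u + Pj.P m (v - u))‖ ≤ ‖v - u‖ := by
    rw [← sub_sub]; exact Pj.tail_le _ _
  have h6 := mul_le_mul_of_nonneg_left h5 (show 0 ≤ i * (η + ε1) by positivity)
  have h7 := abs_sub_le (G ω v) (G ω (u + Pj.P m (v - u))) (G ω u)
  linarith

theorem claimMart (hs : ClaimSmooth) : ClaimMart := by
  intro W _ _ Pj pa ζ CW C c hW hc h3
  have hC : 0 ≤ C := by
    obtain ⟨m, hm⟩ := h3 1 one_pos
    obtain ⟨k, -, h, hg, -⟩ := hm 1 one_pos 0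
    exact hg.nonneg
  have hCW := hW.nonneg
  refine ⟨C + 1 + 1, c / 4, by positivity, fun L hL K => ?_⟩
  obtain ⟨m, hm⟩ := h3 (L / 4) (by positivity)
  obtain ⟨ι, s, e, l, he, hPe, hl, hP⟩ := Pj.fin m
  have hsup : MartSupply Pj pa ζ m s e (C + 1) c (L / 4) := by
    intro σ hσ K
    obtain ⟨k, hk, h, hg, hσ', hη, hck⟩ := hm σ hσ K
    have hε : 0 < min 1 (c / 2) := lt_min one_pos (by positivity)
    have hε1 : C + min 1 (c / 2) ≤ C + 1 := by linarith [min_le_left 1 (c / 2)]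
    obtain ⟨h', q, N, Λ, B, hΛ, hB, hg', hσ'', hη', hk', hq⟩ :=
      hs W Pj pa ζ CW hW m ι s e he hPe C σ (L / 4) (min 1 (c / 2)) k h (by positivity) hε hg hσ' hη
    refine ⟨k, hk, h', q, N, Λ, B, hΛ, hB, hg'.mono hε1, hσ'', hη', ?_, fun d hd =>
      ⟨fun w => ((hq d hd).1 w).trans hε1, (hq d hd).2⟩⟩
    linarith [min_le_right 1 (c / 2)]
  have hD : (0 : ℝ) ≤ s.card := Nat.cast_nonneg _
  set D : ℝ := (s.card : ℝ) with hDdef
  obtain ⟨δ, hδ0, hδ⟩ : ∃ δ : ℝ, 0 < δ ∧ CW * (δ * (C + 1)) ≤ c / 8 := by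
    refine ⟨c / (8 * (CW * (C + 1) + 1)), by positivity, ?_⟩
    rw [div_mul_eq_mul_div, ← mul_div_assoc, div_le_div_iff₀ (by positivity) (by positivity)]
    nlinarith
  obtain ⟨lam, hlam0, hlam⟩ : ∃ lam : ℝ, 0 < lam ∧ D * lam ≤ L / 2 := by
    refine ⟨L / (2 * (D + 1)), by positivity, ?_⟩
    rw [← mul_div_assoc, div_le_div_iff₀ (by positivity) (by positivity)]
    nlinarith
  obtain ⟨ε1, hε0, hε1, hε⟩ : ∃ ε1 : ℝ, 0 < ε1 ∧ ε1 ≤ 1 ∧ (D + 1) * ε1 ≤ L / 4 := by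
    refine ⟨min 1 (L / (4 * (D + 1))), lt_min one_pos (by positivity), min_le_left _ _, ?_⟩
    refine (mul_le_mul_of_nonneg_left (min_le_right _ _) (by positivity)).trans (le_of_eq ?_)
    field_simp
  obtain ⟨n, hn⟩ := exists_nat_ge (max (2 * (C + 1) / lam) (8 * D * (C + 1) ^ 2 / (δ * lam ^ 2)))
  have hn1 : 2 * (C + 1) ≤ n * lam := (div_le_iff₀ hlam0).1 ((le_max_left _ _).trans hn)
  have hn2 : 8 * D * (C + 1) ^ 2 ≤ n * (δ * lam ^ 2) :=
    (div_le_iff₀ (by positivity)).1 ((le_max_right _ _).trans hn)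
  have hn0 : (0 : ℝ) < n := lt_of_lt_of_le (by positivity) ((le_max_left _ _).trans hn)
  obtain ⟨Ω, _, _, G, S, K', N, Λ, B, h⟩ := mart_iter (K := K) (a := n * lam / 2) (n := n) hW hsup
    he hc (by positivity) (by linarith) hε0 hε1 (δ := δ)
    (by have := mul_le_mul_of_nonneg_right hn2 hn0.le; nlinarith) hδ n le_rfl
  obtain ⟨ω, -, hω⟩ := exists_le_of_sum_le (s := (univ : Finset Ω)) univ_nonempty
    (f := fun _ => c / 4 * n) (g := fun ω => ∑ k ∈ Ico K K', |ζ k (G ω)|)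
    (by rw [sum_const, card_univ, nsmul_eq_mul]; exact h.p1)
  have habs : |(n : ℝ)⁻¹| = (n : ℝ)⁻¹ := abs_of_pos (inv_pos.2 hn0)
  refine ⟨K', fun w => (n : ℝ)⁻¹ * G ω w, ?_, fun u v => ?_, ?_⟩
  · refine ((h.p6 ω).smul _).mono (le_of_eq ?_)
    rw [habs, ← mul_assoc, inv_mul_cancel₀ hn0.ne', one_mul]
  · have h1 := h.lip (by positivity) hε0.le (by positivity) hl hP ω v u
    rw [← mul_sub, abs_mul, habs, inv_mul_le_iff₀ hn0, ← mul_assoc]
    refine h1.trans (mul_le_mul_of_nonneg_right ?_ (norm_nonneg _))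
    have h2 := mul_le_mul_of_nonneg_left hlam hn0.le
    have h3 := mul_le_mul_of_nonneg_left hε hn0.le
    rw [← hDdef]
    linarith
  · have h1 : ∀ k, |ζ k (fun w => (n : ℝ)⁻¹ * G ω w)| = (n : ℝ)⁻¹ * |ζ k (G ω)| := fun k => by
      have : (fun w => (n : ℝ)⁻¹ * G ω w) = (n : ℝ)⁻¹ • G ω := rfl
      rw [this, map_smul, smul_eq_mul, abs_mul, habs]
    simp only [h1]
    rw [← mul_sum, le_inv_mul_iff₀ hn0, mul_comm]
    exact hω

end Crest.Agent.R91
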