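import Crest.Agent.R91.PsiAux

/-! Row 91: the slowly varying field of unit vectors. -/

set_option autoImplicit false

open Finset

namespace Crest.Agent.R91

namespace PsiAux

variable {W : Type} [NormedAddCommGroup W] [NormedSpace ℝ W] {Pj : Proj W} {R : W → ℕ → ℕ → ℝ}
  {ρ : ℕ → ℝ} {ψ : ℕ → W → Fib} {N : ℕ → ℕ} {Λ s S : ℕ → ℝ}

/-- The vector before normalisation. -/
noncomputable def V0 (s S : ℕ → ℝ) (R : W → ℕ → ℕ → ℝ) (ψ : ℕ → W → Fib) (w : W) (n m : ℕ) : Fib :=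
  VV s S ((n + m) / 3) (R w n (m / 2)) fun j => ψ j w

/-- The field of unit vectors. -/
noncomputable def Psi (s S : ℕ → ℝ) (R : W → ℕ → ℕ → ℝ) (ψ : ℕ → W → Fib) (w : W) (n m : ℕ) :
    Fib := ‖V0 s S R ψ w n m‖⁻¹ • V0 s S R ψ w n m

lemma P_eq_of_le {u v : W} {M M' : ℕ} (h : M ≤ M') (e : Pj.P M' u = Pj.P M' v) :
    Pj.P M u = Pj.P M v := by
  rw [← min_eq_left h, ← Pj.comp, ← Pj.comp, e]

lemma tail_anti (w : W) {M M' : ℕ} (h : M ≤ M') : ‖w - Pj.P M' w‖ ≤ ‖w - Pj.P M w‖ := by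
  have := Pj.tail_le M' (w - Pj.P M w)
  rwa [map_sub, Pj.comp, min_eq_right h, sub_sub_sub_cancel_right] at this

lemma half_le_V0 (hr : RoomFacts Pj ρ ψ N Λ) (h : Scales Λ s S) (w : W) (n m : ℕ) :
    1 / 2 ≤ ‖V0 s S R ψ w n m‖ :=
  h.half_le_norm _ _ (fun j => hr.unit j w) fun j => inner_eq_zero_of fun k h1 h2 => by
    have := hr.level _ _ _ _ k h1 h2
    omega

lemma psi_lip (hR : RFacts Pj R) (hr : RoomFacts Pj ρ ψ N Λ) (h : Scales Λ s S) (u v : W)
    (n m : ℕ) (hm : R u n (m / 2) ≤ R v n (m / 2)) {J : ℕ} (hJ : (n + m) / 3 ≤ J) :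
    ‖Psi s S R ψ u n m - Psi s S R ψ v n m‖ ^ 2 ≤ 144 * ‖u - v‖ ^ 2 *
      ∑ j ∈ range J, 2 ^ (j + 1) * (gg s S j (R u n (m / 2)) / LL j) ^ 2 := by
  have h1 := norm_unit_sub_le (half_le_V0 (R := R) hr h u n m) (half_le_V0 (R := R) hr h v n m)
  have h2 := h.VV_lip hr.lip_nonneg ((n + m) / 3) (x := fun j => ψ j u) (y := fun j => ψ j v)
    (d := ‖u - v‖) (fun j => hr.unit j v) (hR.nonneg u n _) hm
    (by linarith [(abs_le.1 (hR.lip u v n (m / 2))).1])
    (hr.dep 0 u v (by rw [Pj.zero, Pj.zero])) fun j => hr.lip j u v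
  have h3 : ∑ j ∈ range ((n + m) / 3), gg s S j (R u n (m / 2)) / LL j ≤
      ∑ j ∈ range J, gg s S j (R u n (m / 2)) / LL j :=
    sum_le_sum_of_subset_of_nonneg (range_mono hJ) fun j _ _ =>
      div_nonneg (h.gg_nonneg _ _) (LL_pos j).le
  have h4 : ‖Psi s S R ψ u n m - Psi s S R ψ v n m‖ ≤
      12 * ‖u - v‖ * ∑ j ∈ range J, gg s S j (R u n (m / 2)) / LL j := by
    have := mul_le_mul_of_nonneg_left h3 (norm_nonneg (u - v))
    unfold Psi
    unfold V0 at *
    linarith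
  refine (pow_le_pow_left₀ (norm_nonneg _) h4 2).trans ?_
  rw [mul_pow, mul_pow]
  exact mul_le_mul (by norm_num) (sq_sum_le _ J) (sq_nonneg _) (by positivity)

lemma psi_lip_sum (hR : RFacts Pj R) (hr : RoomFacts Pj ρ ψ N Λ) (h : Scales Λ s S) (u v : W)
    (n M : ℕ) : ∑ m ∈ (range M).filter (fun m => R u n (m / 2) ≤ R v n (m / 2)),
      ‖Psi s S R ψ u n m - Psi s S R ψ v n m‖ ^ 2 *
        ((R u n (m / 2) ^ 2 - R u n (m / 2 + 1) ^ 2) + (R u n m ^ 2 - R u n (m + 1) ^ 2)) ≤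
      (1 / 400) * ‖u - v‖ ^ 2 := by
  set D : ℕ → ℝ := fun m =>
    (R u n (m / 2) ^ 2 - R u n (m / 2 + 1) ^ 2) + (R u n m ^ 2 - R u n (m + 1) ^ 2) with hD
  have h0 : ∀ l, 0 ≤ R u n l ^ 2 - R u n (l + 1) ^ 2 := fun l =>
    sub_nonneg.2 (pow_le_pow_left₀ (hR.nonneg _ _ _) (hR.anti u n l) 2)
  have D0 : ∀ m, 0 ≤ D m := fun m => add_nonneg (h0 _) (h0 _)
  calc _ ≤ ∑ m ∈ (range M).filter (fun m => R u n (m / 2) ≤ R v n (m / 2)), (144 * ‖u - v‖ ^ 2 *
        ∑ j ∈ range (n + M), 2 ^ (j + 1) * (gg s S j (R u n (m / 2)) / LL j) ^ 2) * D m :=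
        sum_le_sum fun m hm => mul_le_mul_of_nonneg_right (psi_lip hR hr h u v n m
          (mem_filter.1 hm).2 (by have := mem_range.1 (mem_filter.1 hm).1; omega)) (D0 m)
    _ ≤ ∑ m ∈ range M, (144 * ‖u - v‖ ^ 2 *
        ∑ j ∈ range (n + M), 2 ^ (j + 1) * (gg s S j (R u n (m / 2)) / LL j) ^ 2) * D m :=
        sum_le_sum_of_subset_of_nonneg (filter_subset _ _) fun m _ _ =>
          mul_nonneg (by positivity) (D0 m)
    _ = 144 * ‖u - v‖ ^ 2 * ∑ j ∈ range (n + M), 2 ^ (j + 1) *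
        ((∑ m ∈ range M, gg s S j (R u n (m / 2)) ^ 2 * D m) / LL j ^ 2) := by
        simp only [mul_assoc, ← mul_sum]
        congr 2
        simp only [sum_mul, mul_sum, sum_div]
        rw [sum_comm]
        exact sum_congr rfl fun j _ => sum_congr rfl fun m _ => by ring
    _ ≤ 144 * ‖u - v‖ ^ 2 * ∑ j ∈ range (n + M), 2 ^ (j + 1) * (9 / LL j) := by
        refine mul_le_mul_of_nonneg_left (sum_le_sum fun j _ =>
          mul_le_mul_of_nonneg_left ?_ (by positivity)) (by positivity)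
        have := LL_pos j
        refine (div_le_div_of_nonneg_right (h.sum_two j (hR.nonneg u n) (hR.anti u n) M)
          (sq_nonneg _)).trans (le_of_eq ?_)
        field_simp
    _ ≤ _ := by nlinarith [sum_weights_le (n + M), sq_nonneg ‖u - v‖]

/-- The radii. -/
noncomputable def rr (s : ℕ → ℝ) : ℕ → ℝ
  | 0 => 1
  | j + 1 => min (rr s j / (j + 4)) (min (s j / 8) (s j ^ 2 / (320 * (j + 1) ^ 3)))

lemma rr_pos (h : Scales Λ s S) (j : ℕ) : 0 < rr s j := by
  induction j with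
  | zero => exact one_pos
  | succ j ih =>
    have := h.pos j
    exact lt_min (by positivity) (lt_min (by positivity) (by positivity))

/-- The parameters. -/
noncomputable def par (h : Scales Λ s S) (N : ℕ → ℕ) : Par where
  γ M := 3 * M + ∑ j ∈ range (M + 1), N j
  ρ j := (1 / 2) ^ j
  r := rr s
  le_γ M := by omega
  ρ_pos j := by positivity
  ρ_half j := by rw [pow_succ]; linarith
  r_pos := rr_pos h
  r_zero := le_rfl
  r_step j := by
    have : rr s (j + 1) ≤ rr s j / (j + 4) := min_le_left _ _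
    rwa [le_div_iff₀ (by positivity), mul_comm] at this

lemma psi_close (hR : RFacts Pj R) (hr : RoomFacts Pj ρ ψ N Λ) (h : Scales Λ s S) {u v : W}
    {j M n m : ℕ} {r : ℝ} (hc : (n + m) / 3 ≤ M) (e : Pj.P M u = Pj.P M v)
    (hu : ‖u - Pj.P M u‖ ≤ 2 * r) (hv : ‖v - Pj.P M v‖ ≤ 2 * r) (r1 : r ≤ s j / 8)
    (r2 : r ≤ s j ^ 2 / (320 * (j + 1) ^ 3))
    (hCo : (n + m) / 3 < j + 1 ∨ s j < R u n (m / 2) ∨ s j < R v n (m / 2)) :
    10 * ((j + 1 : ℕ) : ℝ) ^ 2 * ‖Psi s S R ψ u n m - Psi s S R ψ v n m‖ ≤ ‖u - v‖ := by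
  have sp := h.pos j
  have h1 := norm_unit_sub_le (half_le_V0 (R := R) hr h u n m) (half_le_V0 (R := R) hr h v n m)
  have h2 := VV_same (s := s) (S := S) ((n + m) / 3) (R u n (m / 2)) (R v n (m / 2))
    (x := fun j => ψ j u) (y := fun j => ψ j v) (fun j => hr.unit j v)
    fun i hi => hr.dep i u v (P_eq_of_le (hi.trans hc) e)
  have hq := hR.quad M u v _ n (m / 2) e hu hv
  have hd : ‖u - v‖ ≤ 4 * r := by
    have : u - v = (u - Pj.P M u) - (v - Pj.P M v) := by rw [e]; abel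
    rw [this]; linarith [norm_sub_le (u - Pj.P M u) (v - Pj.P M v)]
  have r0 : 0 ≤ r := by linarith [norm_nonneg (u - v)]
  have hl := abs_le.1 (hR.lip u v n (m / 2))
  set B := 4 * r * ‖u - v‖ / s j ^ 2 with hB
  have B0 : 0 ≤ B := by positivity
  have h3 : ∑ i ∈ range ((n + m) / 3), |al s S i (R u n (m / 2)) - al s S i (R v n (m / 2))| ≤
      (j + 1) * B := by
    calc _ ≤ ∑ i ∈ range ((n + m) / 3), if i < j + 1 then B else 0 := by
          refine sum_le_sum fun i hi => ?_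
          have hi := mem_range.1 hi
          split_ifs with hij
          · refine (h.abs_al_sub_sq i (hR.nonneg _ _ _) (hR.nonneg _ _ _)).trans ?_
            have := h.s_anti (by omega : i ≤ j)
            exact div_le_div₀ (by positivity) (by linarith) (by positivity) (by gcongr)
          · have := h.S_le (by omega : j < i)
            rcases hCo with hCo | hCo | hCo
            · omega
            all_goals rw [h.al_zero (by linarith), h.al_zero (by linarith)]; simp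
      _ ≤ _ := by
          rw [← sum_filter, sum_const, nsmul_eq_mul]
          refine mul_le_mul_of_nonneg_right ?_ B0
          have : ((range ((n + m) / 3)).filter fun i => i < j + 1).card ≤ j + 1 := by
            refine (card_le_card fun i hi => mem_range.2 (mem_filter.1 hi).2).trans_eq
              (card_range _)
          exact_mod_cast this
  have h4 : ‖Psi s S R ψ u n m - Psi s S R ψ v n m‖ ≤ 8 * ((j + 1) * B) := by
    unfold Psi
    unfold V0 at *
    linarith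
  push_cast
  refine (mul_le_mul_of_nonneg_left h4 (by positivity)).trans ?_
  rw [le_div_iff₀ (by positivity)] at r2
  have e2 : 10 * ((j : ℝ) + 1) ^ 2 * (8 * ((j + 1) * B)) =
      r * (320 * (j + 1) ^ 3) * ‖u - v‖ / s j ^ 2 := by rw [hB]; ring
  rw [e2, div_le_iff₀ (by positivity), mul_comm ‖u - v‖]
  exact mul_le_mul_of_nonneg_right r2 (norm_nonneg _)

lemma psi_orth (hr : RoomFacts Pj (fun j => (1 / 2) ^ j) ψ N Λ) (h : Scales Λ s S) {p p' : W}
    {j n m : ℕ} (hc : j + 1 ≤ (n + m) / 3) (h1 : R p n (m / 2) ≤ s j)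
    (n1 : ‖p‖ ≤ 2 * (j + 1 : ℕ)) (n2 : ‖p'‖ ≤ 2 * (j + 1 : ℕ))
    (hs : (1 / 2) ^ (j + 1) ≤ ‖Pj.P (j + 1) (p - p')‖) :
    inner ℝ (Psi s S R ψ p n m) (Psi s S R ψ p' n m) = 0 := by
  refine inner_eq_zero_of fun k k1 k2 => ?_
  obtain ⟨i, -, a1, a2⟩ := h.VV_coord k1
  obtain ⟨i', -, b1, -⟩ := h.VV_coord k2
  obtain rfl := hr.level _ _ _ _ k a1 b1
  have hi := a2 j hc h1
  have hi' : ((j + 1 : ℕ) : ℝ) ≤ i := by exact_mod_cast hi
  have h3 := hr.near i p p' k (by linarith) (by linarith) a1 b1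
  have h4 := Pj.norm_le (j + 1) (Pj.P i (p - p'))
  rw [Pj.comp, min_eq_left hi] at h4
  have h5 : (1 / 2 : ℝ) ^ i ≤ (1 / 2) ^ (j + 1) :=
    pow_le_pow_of_le_one (by norm_num) (by norm_num) hi
  linarith

end PsiAux

open PsiAux

theorem claimPsi (h : ClaimRooms) : ClaimPsi := by
  intro W _ _ Pj R hR
  obtain ⟨ψ, N, Λ, hr⟩ := h W Pj (fun j => (1 / 2) ^ j) fun j => by positivity
  obtain ⟨s, S, h⟩ := exists_scales Λ hr.lip_nonneg
  refine ⟨par h N, Psi s S R ψ, fun w n m => ?_, fun w n m => ?_, psi_lip_sum hR hr h,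
    fun u v n m e1 e2 => ?_, fun j M κ ι t u v A => ?_⟩
  · have := half_le_V0 (R := R) hr h w n m
    rw [Psi, norm_smul, norm_inv, norm_norm, inv_mul_cancel₀ (by linarith)]
  · by_contra h0
    obtain ⟨j, -, h1, -⟩ := h.VV_coord h0
    exact h1 (hr.zero j w)
  · have e : ∀ j ≤ (n + m) / 3, ψ j u = ψ j v := fun j hj => hr.dep j u v (P_eq_of_le hj e2)
    have : V0 s S R ψ u n m = V0 s S R ψ v n m := by
      rw [V0, V0, e1, VV, VV, e 0 (Nat.zero_le _)]
      congr 1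
      refine sum_congr rfl fun j hj => ?_
      rw [e j (mem_range.1 hj).le, e (j + 1) (mem_range.1 hj)]
    rw [Psi, Psi, this]
  cases j with
  | zero =>
    obtain rfl : t = ∅ := card_eq_zero.1 (Nat.le_zero.1 A.card_le)
    exact ⟨fun _ _ _ => True, by simp, by simp, by simp⟩
  | succ j =>
  have hκ : ∀ x : ℝ, 0 ≤ x → (2 - κ) * x ≤ 2 * x := fun x hx => by nlinarith [A.κ_nonneg]
  have hγ := (par h N).le_γ M
  refine ⟨fun i n m => (n + m) / 3 < j + 1 ∨ s j < R (u i) n (m / 2) ∨ s j < R (v i) n (m / 2),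
    fun i _ n m hCo => ?_, fun i hi i' hi' hii n m c1 c2 p p' hp hp' => ?_,
    fun i hi n m hCo => ?_⟩
  · have ha : ∀ w, R w n (m / 2) ≤ R w n (m / 2 / 2) := fun w =>
      antitone_nat_of_succ_le (hR.anti w n) (Nat.div_le_self _ _)
    rcases hCo with c | c | c
    · left; omega
    · exact Or.inr (Or.inl (c.trans_le (ha _)))
    · exact Or.inr (Or.inr (c.trans_le (ha _)))
  · simp only [not_or, not_lt] at c1 c2
    have key : ∀ i ∈ t, R (u i) n (m / 2) ≤ s j ∧ R (v i) n (m / 2) ≤ s j → ∀ p,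
        p = u i ∨ p = v i → R p n (m / 2) ≤ s j ∧ ‖p‖ ≤ 2 * (j + 1 : ℕ) ∧
          Pj.P (j + 1) p = Pj.P (j + 1) (u i) := by
      rintro i hi c p (rfl | rfl)
      · exact ⟨c.1, (A.norm_u i hi).trans (hκ _ (by positivity)), rfl⟩
      · exact ⟨c.2, (A.norm_v i hi).trans (hκ _ (by positivity)),
          (P_eq_of_le (A.le_M.trans hγ) (A.head i hi)).symm⟩
    obtain ⟨a1, a2, a3⟩ := key i hi c1.2 p hp
    obtain ⟨-, b2, b3⟩ := key i' hi' c2.2 p' hp'
    refine psi_orth hr h c1.1 a1 a2 b2 ?_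
    have := A.sep i hi i' hi' hii
    rwa [map_sub, ← a3, ← b3, ← map_sub] at this
  · have r0 := (rr_pos h (j + 1)).le
    have r1 : rr s (j + 1) ≤ s j / 8 := (min_le_right _ _).trans (min_le_left _ _)
    have r2 : rr s (j + 1) ≤ s j ^ 2 / (320 * (j + 1) ^ 3) :=
      (min_le_right _ _).trans (min_le_right _ _)
    have tu : ‖u i - Pj.P M (u i)‖ ≤ 2 * rr s (j + 1) := (A.tail_u i hi).trans (hκ _ r0)
    have tv : ‖v i - Pj.P M (v i)‖ ≤ 2 * rr s (j + 1) := (A.tail_v i hi).trans (hκ _ r0)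
    have hM := A.le_M
    have hnm : n + m < 3 * M := by
      by_contra hc
      have h1 : M ≤ n ∨ M ≤ m / 2 := by omega
      have := h.pos j
      rcases hCo with c | c | c
      · omega
      · linarith [hR.tail M (u i) n _ h1]
      · linarith [hR.tail M (v i) n _ h1]
    have hγ' : (par h N).γ M = 3 * M + ∑ j ∈ range (M + 1), N j := rfl
    refine ⟨by omega, by omega, fun k hk => ?_, psi_close hR hr h (M := (par h N).γ M) (by omega)
      (A.head i hi) ((tail_anti _ hγ).trans tu) ((tail_anti _ hγ).trans tv) r1 r2 hCo⟩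
    by_contra h0
    obtain ⟨j', j1, j2, -⟩ := h.VV_coord h0
    have := single_le_sum (f := N) (fun _ _ => Nat.zero_le _) (mem_range.2 (by omega : j' < M + 1))
    exact j2 (hr.supp j' _ k (by omega))

end Crest.Agent.R91
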