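import Crest.Agent.R91.Defs

/-!
Row 91: Lipschitz partitions of unity stored in disjoint rooms of `ℓ₂`.
-/

set_option autoImplicit false

namespace Crest.Agent.R91

open Finset

section Rooms

variable {W : Type} [NormedAddCommGroup W] [NormedSpace ℝ W]

/-- The image of a ball under a cut is covered by finitely many small balls. -/
theorem Proj.exists_centres (Pj : Proj W) (j : ℕ) (R : ℝ) {ε : ℝ} (hε : 0 < ε) :
    ∃ (n : ℕ) (c : ℕ → W), ∀ w, ‖w‖ ≤ R → ∃ i < n, ‖Pj.P j w - c i‖ < ε := by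
  obtain ⟨ι, s, e, l, -, -, hl, hP⟩ := Pj.fin j
  have hc : Continuous fun a : s → ℝ => ∑ d : s, a d • e d := by fun_prop
  obtain ⟨t, -, ht, hcov⟩ :=
    finite_cover_balls_of_compact ((isCompact_closedBall (0 : s → ℝ) R).image hc) hε
  refine ⟨ht.toFinset.toList.length, fun i => ht.toFinset.toList.getD i 0, fun w hw => ?_⟩
  have hR : 0 ≤ R := (norm_nonneg w).trans hw
  have hmem : Pj.P j w ∈ (fun a : s → ℝ => ∑ d : s, a d • e d) '' Metric.closedBall 0 R := by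
    refine ⟨fun d => l d w, ?_, ?_⟩
    · rw [mem_closedBall_zero_iff, pi_norm_le_iff_of_nonneg hR]
      exact fun d => (hl d d.2 w).trans hw
    · rw [hP w]
      exact Finset.sum_coe_sort s fun d => l d w • e d
  obtain ⟨x, hx, hb⟩ := Set.mem_iUnion₂.1 (hcov hmem)
  obtain ⟨i, hi, hxi⟩ := List.mem_iff_getElem.1 (Finset.mem_toList.2 (ht.mem_toFinset.2 hx))
  refine ⟨i, hi, ?_⟩
  dsimp only
  rw [List.getD_eq_getElem _ _ hi, hxi, ← dist_eq_norm]
  exact hb

theorem Proj.norm_P_sub_le_rooms (Pj : Proj W) (j : ℕ) (u v : W) : ‖Pj.P j u - Pj.P j v‖ ≤ ‖u - v‖ := by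
  rw [← map_sub]; exact Pj.norm_le j _

/-- The weights of the partition of unity of level `j`. -/
theorem Proj.exists_weights (Pj : Proj W) (j : ℕ) {ρ : ℝ} (hρ : 0 < ρ) :
    ∃ (n : ℕ) (β : ℕ → W → ℝ), (∀ i u v, |β i u - β i v| ≤ ‖u - v‖) ∧
      (∀ i u v, Pj.P j u = Pj.P j v → β i u = β i v) ∧
      (∀ w, ∃ i ≤ n, min (ρ / 4) 1 ≤ β i w) ∧
      ∀ i u v, ‖u‖ ≤ 2 * j → ‖v‖ ≤ 2 * j → β i u ≠ 0 → β i v ≠ 0 → ‖Pj.P j (u - v)‖ < ρ := by
  obtain ⟨n, c, hc⟩ := Pj.exists_centres j (2 * j + 1) (ε := ρ / 4) (by positivity)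
  refine ⟨n, fun i w => if i < n then max (ρ / 2 - ‖Pj.P j w - c i‖) 0
    else max (‖Pj.P j w‖ - 2 * j) 0, fun i u v => ?_, fun i u v h => ?_, fun w => ?_,
    fun i u v hu hv h1 h2 => ?_⟩
  · dsimp only
    split_ifs
    · refine (abs_max_sub_max_le_abs _ _ _).trans ?_
      rw [sub_sub_sub_cancel_left, abs_sub_comm]
      refine (abs_norm_sub_norm_le _ _).trans ?_
      rw [sub_sub_sub_cancel_right]
      exact Pj.norm_P_sub_le_rooms j u v
    · refine (abs_max_sub_max_le_abs _ _ _).trans ?_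
      rw [sub_sub_sub_cancel_right]
      exact (abs_norm_sub_norm_le _ _).trans (Pj.norm_P_sub_le_rooms j u v)
  · simp only [h]
  · by_cases h : ‖Pj.P j w‖ ≤ 2 * j + 1
    · obtain ⟨i, hi, hd⟩ := hc _ h
      rw [Pj.comp, min_self] at hd
      refine ⟨i, hi.le, ?_⟩
      simp only [if_pos hi]
      exact (min_le_left _ _).trans (le_max_of_le_left (by linarith))
    · refine ⟨n, le_rfl, ?_⟩
      simp only [lt_irrefl, if_false]
      exact (min_le_right _ _).trans (le_max_of_le_left (by linarith))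
  · dsimp only at h1 h2
    split_ifs at h1 h2
    · have g1 : ‖Pj.P j u - c i‖ < ρ / 2 := by
        by_contra h; exact h1 (max_eq_right (by linarith))
      have g2 : ‖Pj.P j v - c i‖ < ρ / 2 := by
        by_contra h; exact h2 (max_eq_right (by linarith))
      have := norm_sub_le (Pj.P j u - c i) (Pj.P j v - c i)
      rw [sub_sub_sub_cancel_right, ← map_sub] at this
      linarith
    · exact absurd (max_eq_right (by linarith [Pj.norm_le j u])) h1

end Rooms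

theorem norm_inv_smul_sub_le {E : Type*} [NormedAddCommGroup E] [NormedSpace ℝ E] {a b : E}
    (ha : 0 < ‖a‖) (hb : 0 < ‖b‖) : ‖‖a‖⁻¹ • a - ‖b‖⁻¹ • b‖ ≤ 2 * ‖a - b‖ / ‖a‖ := by
  have e : ‖a‖⁻¹ • a - ‖b‖⁻¹ • b = ‖a‖⁻¹ • (a - b) + (‖a‖⁻¹ - ‖b‖⁻¹) • b := by
    rw [smul_sub, sub_smul]; abel
  have h1 : ‖‖a‖⁻¹ • (a - b)‖ = ‖a - b‖ / ‖a‖ := by
    rw [norm_smul, norm_inv, norm_norm, div_eq_inv_mul]
  have h2 : ‖(‖a‖⁻¹ - ‖b‖⁻¹) • b‖ ≤ ‖a - b‖ / ‖a‖ := by
    have : (‖a‖⁻¹ - ‖b‖⁻¹) = (‖b‖ - ‖a‖) / (‖a‖ * ‖b‖) := by field_simp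
    rw [norm_smul, this, Real.norm_eq_abs, abs_div, abs_of_pos (mul_pos ha hb), abs_sub_comm]
    calc |‖a‖ - ‖b‖| / (‖a‖ * ‖b‖) * ‖b‖ = |‖a‖ - ‖b‖| / ‖a‖ := by field_simp
      _ ≤ _ := div_le_div_of_nonneg_right (abs_norm_sub_norm_le _ _) ha.le
  rw [e]
  refine (norm_add_le _ _).trans ?_
  rw [h1]
  calc ‖a - b‖ / ‖a‖ + _ ≤ ‖a - b‖ / ‖a‖ + ‖a - b‖ / ‖a‖ := by linarith
    _ = _ := by ring

/-- The vector with entries `β 0, …, β n` stored in the rooms of level `j`. -/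
noncomputable def roomVec (j n : ℕ) (β : ℕ → ℝ) : Fib :=
  ∑ i ∈ range (n + 1), β i • (lp.single 2 (Nat.pair j i + 1) (1 : ℝ) : Fib)

theorem roomVec_apply (j n : ℕ) (β : ℕ → ℝ) (k : ℕ) :
    roomVec j n β k = ∑ i ∈ range (n + 1), if k = Nat.pair j i + 1 then β i else 0 := by
  unfold roomVec
  rw [lp.coeFn_sum, Finset.sum_apply]
  refine sum_congr rfl fun i _ => ?_
  rw [lp.coeFn_smul, Pi.smul_apply, lp.single_apply, Pi.single_apply]
  simp

theorem roomVec_room {j n i : ℕ} (β : ℕ → ℝ) (hi : i ≤ n) :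
    roomVec j n β (Nat.pair j i + 1) = β i := by
  rw [roomVec_apply, sum_eq_single i]
  · simp
  · intro i' _ h
    rw [if_neg]
    intro h'
    exact h (Nat.pair_eq_pair.1 (Nat.succ_injective h')).2.symm
  · intro h
    exact absurd (mem_range.2 (Nat.lt_succ_of_le hi)) h

theorem roomVec_ne_zero {j n k : ℕ} {β : ℕ → ℝ} (h : roomVec j n β k ≠ 0) :
    ∃ i ≤ n, k = Nat.pair j i + 1 ∧ β i ≠ 0 := by
  rw [roomVec_apply] at h
  obtain ⟨i, hi, hne⟩ := exists_ne_zero_of_sum_ne_zero h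
  refine ⟨i, Nat.le_of_lt_succ (mem_range.1 hi), ?_⟩
  by_cases hk : k = Nat.pair j i + 1
  · exact ⟨hk, by simpa [hk] using hne⟩
  · simp [hk] at hne

theorem le_norm_roomVec {j n i : ℕ} (β : ℕ → ℝ) (hi : i ≤ n) : β i ≤ ‖roomVec j n β‖ := by
  have := lp.norm_apply_le_norm (p := 2) (by norm_num) (roomVec j n β) (Nat.pair j i + 1)
  rw [roomVec_room β hi] at this
  exact (le_abs_self _).trans this

theorem norm_roomVec_sub_le (j n : ℕ) {β β' : ℕ → ℝ} {d : ℝ} (h : ∀ i, |β i - β' i| ≤ d) :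
    ‖roomVec j n β - roomVec j n β'‖ ≤ (n + 1) * d := by
  unfold roomVec
  rw [← sum_sub_distrib]
  refine (norm_sum_le _ _).trans ?_
  calc _ ≤ ∑ _i ∈ range (n + 1), d := by
        refine sum_le_sum fun i _ => ?_
        rw [← sub_smul, norm_smul, lp.norm_single (by norm_num), norm_one, mul_one]
        exact h i
    _ = _ := by simp

theorem claimRooms : ClaimRooms := by
  intro W _ _ Pj ρ hρ
  choose n β hlip hdep hbig hnear using fun j => Pj.exists_weights j (hρ j)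
  set b : ℕ → W → Fib := fun j w => roomVec j (n j) fun i => β j i w with hb
  have hm : ∀ j, 0 < min (ρ j / 4) 1 := fun j => lt_min (by linarith [hρ j]) one_pos
  have hlow : ∀ j w, min (ρ j / 4) 1 ≤ ‖b j w‖ := fun j w => by
    obtain ⟨i, hi, h⟩ := hbig j w
    exact h.trans (le_norm_roomVec (fun i => β j i w) hi)
  have hpos : ∀ j w, 0 < ‖b j w‖ := fun j w => (hm j).trans_le (hlow j w)
  have hne : ∀ j w k, (‖b j w‖⁻¹ • b j w) k ≠ 0 →
      ∃ i ≤ n j, k = Nat.pair j i + 1 ∧ β j i w ≠ 0 := fun j w k h => by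
    rw [lp.coeFn_smul, Pi.smul_apply, smul_eq_mul] at h
    exact roomVec_ne_zero (right_ne_zero_of_mul h)
  refine ⟨fun j w => ‖b j w‖⁻¹ • b j w, fun j => Nat.pair j (n j) + 2,
    fun j => 2 * (n j + 1) / min (ρ j / 4) 1, fun j w => ?_, fun j w => ?_, fun j w k hk => ?_,
    fun j => ?_, fun j u v => ?_, fun j u v h => ?_, fun j j' u v k h h' => ?_,
    fun j u v k hu hv h h' => ?_⟩
  · rw [norm_smul, norm_inv, norm_norm, inv_mul_cancel₀ (hpos j w).ne']
  · by_contra h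
    obtain ⟨i, -, hi, -⟩ := hne j w 0 h
    omega
  · by_contra h
    obtain ⟨i, hi, hk', -⟩ := hne j w k h
    have : Nat.pair j i ≤ Nat.pair j (n j) := by
      rcases hi.eq_or_lt with rfl | hlt
      · exact le_rfl
      · exact (Nat.pair_lt_pair_right j hlt).le
    omega
  · exact div_nonneg (by positivity) (hm j).le
  · refine (norm_inv_smul_sub_le (hpos j u) (hpos j v)).trans ?_
    have h1 : ‖b j u - b j v‖ ≤ (n j + 1) * ‖u - v‖ :=
      norm_roomVec_sub_le j (n j) fun i => hlip j i u v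
    calc 2 * ‖b j u - b j v‖ / ‖b j u‖ ≤ 2 * ((n j + 1) * ‖u - v‖) / min (ρ j / 4) 1 :=
          div_le_div₀ (by positivity) (by linarith) (hm j) (hlow j u)
      _ = _ := by ring
  · have : b j u = b j v := by
      simp only [hb]
      congr 1
      funext i
      exact hdep j i u v h
    simp only [this]
  · obtain ⟨i, -, hi, -⟩ := hne j u k h
    obtain ⟨i', -, hi', -⟩ := hne j' v k h'
    exact (Nat.pair_eq_pair.1 (Nat.succ_injective (hi.symm.trans hi'))).1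
  · obtain ⟨i, -, hi, h1⟩ := hne j u k h
    obtain ⟨i', -, hi', h2⟩ := hne j v k h'
    obtain rfl : i = i' := (Nat.pair_eq_pair.1 (Nat.succ_injective (hi.symm.trans hi'))).2
    exact hnear j i u v hu hv h1 h2

end Crest.Agent.R91
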