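import Crest.Agent.R91.MartDefs

/-! Row 91: smoothing by averages along axes. -/

set_option autoImplicit false

open Filter Topology MeasureTheory

namespace Crest.Agent.R91

namespace Smooth

lemma abs_int_le {g : ℝ → ℝ} {B : ℝ} (h : ∀ x, |g x| ≤ B) : |∫ x in (0 : ℝ)..1, g x| ≤ B := by
  simpa using intervalIntegral.norm_integral_le_of_norm_le_const (a := 0) (b := 1) (f := g) (C := B)
    fun x _ => h x

lemma second {g : ℝ → ℝ} (hg : Continuous g) {C τ : ℝ} (hC : 0 ≤ C) (hτ : 0 < τ)
    (h : ∀ a b, |g a - g b| ≤ C * |a - b|) (t : ℝ) :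
    |(∫ x in (0 : ℝ)..1, g (t + τ * x)) - (∫ x in (0 : ℝ)..1, g (0 + τ * x)) -
      t * ((g τ - g 0) / τ)| ≤ 2 * C / τ * t ^ 2 := by
  have i := fun a b => hg.intervalIntegrable (μ := volume) a b
  have i' : IntervalIntegrable (fun y => g (y + τ)) volume 0 t :=
    (hg.comp (continuous_add_const τ)).intervalIntegrable 0 t
  have e1 : ∫ y in (0 : ℝ)..t, (g (y + τ) - g y - (g τ - g 0)) =
      (∫ y in t..t + τ, g y) - (∫ y in (0 : ℝ)..τ, g y) - t * (g τ - g 0) := by
    rw [intervalIntegral.integral_sub (i'.sub (i 0 t)) intervalIntegrable_const,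
      intervalIntegral.integral_sub i' (i 0 t), intervalIntegral.integral_comp_add_right,
      intervalIntegral.integral_const, zero_add, sub_zero, smul_eq_mul]
    have a1 := intervalIntegral.integral_add_adjacent_intervals (i 0 t) (i t (t + τ))
    have a2 := intervalIntegral.integral_add_adjacent_intervals (i 0 τ) (i τ (t + τ))
    linarith
  have e2 := intervalIntegral.norm_integral_le_of_norm_le_const (a := 0) (b := t)
    (f := fun y => g (y + τ) - g y - (g τ - g 0)) (C := 2 * C * |t|) fun y hy => by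
      have b1 := abs_le.1 (h (y + τ) τ)
      have b2 := abs_le.1 (h y 0)
      have b3 : |y| ≤ |t| := by
        simpa using Set.abs_sub_left_of_mem_uIcc (Set.uIoc_subset_uIcc hy)
      have b4 := mul_le_mul_of_nonneg_left b3 hC
      rw [add_sub_cancel_right] at b1
      rw [sub_zero] at b2
      rw [Real.norm_eq_abs, abs_le]
      constructor <;> linarith [b1.1, b1.2, b2.1, b2.2]
  rw [e1, Real.norm_eq_abs, sub_zero, mul_assoc, abs_mul_abs_self] at e2
  rw [intervalIntegral.integral_comp_add_mul _ hτ.ne', intervalIntegral.integral_comp_add_mul _ hτ.ne',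
    mul_zero, mul_one, add_zero, add_zero, zero_add, smul_eq_mul, smul_eq_mul]
  have e3 : ∀ A B : ℝ, τ⁻¹ * A - τ⁻¹ * B - t * ((g τ - g 0) / τ) =
      (A - B - t * (g τ - g 0)) / τ := fun A B => by ring
  rw [e3, abs_div, abs_of_pos hτ, div_mul_eq_mul_div, sq]
  exact div_le_div_of_nonneg_right e2 hτ.le

variable {W : Type} [NormedAddCommGroup W] [NormedSpace ℝ W] {Pj : Proj W} {pa : Par}

/-- The average along the segment `[0, τ e]`. -/
noncomputable def Av (e : W) (τ : ℝ) (f : W → ℝ) (u : W) : ℝ := ∫ x in (0 : ℝ)..1, f (u + (τ * x) • e)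

variable {e : W} {τ : ℝ} {f : W → ℝ}

lemma ii (hf : Continuous f) (u : W) :
    IntervalIntegrable (fun x : ℝ => f (u + (τ * x) • e)) volume 0 1 :=
  (hf.comp (by fun_prop)).intervalIntegrable _ _

lemma Av_bound {σ : ℝ} (h : ∀ w, |f w| ≤ σ) (w : W) : |Av e τ f w| ≤ σ := abs_int_le fun _ => h _

lemma Av_sub (hf : Continuous f) (u v : W) : Av e τ f u - Av e τ f v =
    ∫ x in (0 : ℝ)..1, (f (u + (τ * x) • e) - f (v + (τ * x) • e)) :=
  (intervalIntegral.integral_sub (ii hf u) (ii hf v)).symm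

lemma Av_lip (hf : Continuous f) {u v : W} {b : ℝ} (h : ∀ y, |f (u + y) - f (v + y)| ≤ b) :
    |Av e τ f u - Av e τ f v| ≤ b := by
  rw [Av_sub hf]
  exact abs_int_le fun _ => h _

lemma Av_dep {N : ℕ} (he : Pj.P N e = e) (h : ∀ w, f (Pj.P N w) = f w) (w : W) :
    Av e τ f (Pj.P N w) = Av e τ f w :=
  intervalIntegral.integral_congr fun x _ => by
    show f (Pj.P N w + (τ * x) • e) = f (w + (τ * x) • e)
    rw [← h (w + _), map_add, map_smul, he]

omit [NormedSpace ℝ W] in
lemma continuous_of_lip {L : ℝ} (h : ∀ u v, |f u - f v| ≤ L * ‖u - v‖) : Continuous f :=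
  (LipschitzWith.of_dist_le' (K := L) fun u v => by rw [dist_eq_norm u]; exact h u v).continuous

lemma Av_second {q : W → ℝ} (hf : Continuous f) (hq : Continuous q) {e' : W} {B : ℝ}
    (h : ∀ u (t : ℝ), |f (u + t • e') - f u - t * q u| ≤ B * t ^ 2) (u : W) (t : ℝ) :
    |Av e τ f (u + t • e') - Av e τ f u - t * Av e τ q u| ≤ B * t ^ 2 := by
  rw [Av_sub hf, Av, ← intervalIntegral.integral_const_mul,
    ← intervalIntegral.integral_sub ((ii hf _).sub (ii hf _)) ((ii hq _).const_mul t)]
  exact abs_int_le fun x => by rw [add_right_comm]; exact h _ t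

variable {C : ℝ} (hf : Good Pj pa C f) (he : ‖e‖ ≤ 1)
include hf he

lemma line_lip (u : W) (a b : ℝ) : |f (u + a • e) - f (u + b • e)| ≤ C * |a - b| := by
  refine (hf.lip _ _).trans (mul_le_mul_of_nonneg_left ?_ hf.nonneg)
  rw [add_sub_add_left_eq_sub, ← sub_smul, norm_smul, Real.norm_eq_abs]
  exact mul_le_of_le_one_right (abs_nonneg _) he

lemma Av_self (hτ : 0 < τ) (u : W) (t : ℝ) :
    |Av e τ f (u + t • e) - Av e τ f u - t * ((f (u + τ • e) - f u) / τ)| ≤ 2 * C / τ * t ^ 2 := by
  have h := second (g := fun y => f (u + y • e)) (hf.continuous.comp (by fun_prop)) hf.nonneg hτ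
    (line_lip hf he u) t
  simpa only [Av, add_smul, zero_smul, add_zero, zero_add, add_assoc] using h

lemma Av_close (hτ : 0 ≤ τ) (u : W) : |Av e τ f u - f u| ≤ C * τ := by
  have e1 : Av e τ f u - f u = ∫ x in (0 : ℝ)..1, (f (u + (τ * x) • e) - f u) := by
    rw [intervalIntegral.integral_sub (ii hf.continuous u) intervalIntegrable_const,
      intervalIntegral.integral_const, sub_zero, one_smul, Av]
  have e2 := intervalIntegral.norm_integral_le_of_norm_le_const (a := 0) (b := 1)
    (f := fun x => f (u + (τ * x) • e) - f u) (C := C * τ) fun x hx => by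
      rw [Set.uIoc_of_le zero_le_one] at hx
      have h := line_lip hf he u (τ * x) 0
      rw [zero_smul, add_zero, sub_zero, abs_of_nonneg (mul_nonneg hτ hx.1.le)] at h
      exact h.trans (mul_le_mul_of_nonneg_left (mul_le_of_le_one_right hτ hx.2) hf.nonneg)
  rw [e1]
  simpa using e2

lemma Av_good {m : ℕ} (hm : Pj.P m e = e) (hτ : 0 ≤ τ) :
    Good Pj pa (C + τ * ((m / pa.r m + 1) * C)) (Av e τ f) := by
  have hC := hf.nonneg
  have hr := pa.r_pos m
  have h0 : 0 ≤ τ * ((m / pa.r m + 1) * C) := by positivity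
  refine ⟨by linarith, fun u v => Av_lip hf.continuous fun y => (hf.lip _ _).trans ?_,
    fun j M κ ι s u v hA a A hA0 hs => ?_⟩
  · rw [add_sub_add_right_eq_sub]
    exact mul_le_mul_of_nonneg_right (by linarith) (norm_nonneg _)
  · have i := fun i => ((ii (e := e) (τ := τ) hf.continuous (u i)).sub
      (ii (e := e) (τ := τ) hf.continuous (v i))).const_mul (a i)
    have e1 : κ * ∑ i ∈ s, a i * (Av e τ f (u i) - Av e τ f (v i)) = ∫ x in (0 : ℝ)..1,
        κ * ∑ i ∈ s, a i * (f (u i + (τ * x) • e) - f (v i + (τ * x) • e)) := by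
      rw [intervalIntegral.integral_const_mul, intervalIntegral.integral_finsetSum fun j _ => i j]
      exact congrArg _ (Finset.sum_congr rfl fun j _ => by
        rw [intervalIntegral.integral_const_mul, Av_sub hf.continuous])
    have hc := hf.continuous
    have e2 := intervalIntegral.integral_mono_on zero_le_one
      (Continuous.intervalIntegrable (μ := volume) (u := fun x =>
        κ * ∑ i ∈ s, a i * (f (u i + (τ * x) • e) - f (v i + (τ * x) • e))) (by fun_prop) 0 1)
      (intervalIntegrable_const (c := (C + τ * ((m / pa.r m + 1) * C)) * A)) fun x hx => by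
        refine ((hf.translate (m := m) (x := (τ * x) • e) (by rw [map_smul, hm])).mono ?_).atom
          j M κ ι s u v hA a A hA0 hs
        have : ‖(τ * x) • e‖ ≤ τ := by
          rw [norm_smul, Real.norm_of_nonneg (mul_nonneg hτ hx.1)]
          exact (mul_le_of_le_one_right (mul_nonneg hτ hx.1) he).trans
            (mul_le_of_le_one_right hτ hx.2)
        rw [mul_assoc]
        gcongr
    rwa [intervalIntegral.integral_const, sub_zero, one_smul, ← e1] at e2

lemma exists_tau {ζ : ℕ → (W → ℝ) →ₗ[ℝ] ℝ} {CW : ℝ} (hζ : WUC Pj pa ζ CW) {m : ℕ}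
    (hm : Pj.P m e = e) (k : ℕ) {ε : ℝ} (hε : 0 < ε) :
    ∃ τ, 0 < τ ∧ Good Pj pa (C + ε) (Av e τ f) ∧ ζ k f - ε ≤ ζ k (Av e τ f) := by
  have hC := hf.nonneg
  have hr := pa.r_pos m
  have t0 : ∀ n : ℕ, (0 : ℝ) < 1 / (n + 1) := fun n => Nat.one_div_pos_of_nat
  have t1 : Tendsto (fun n : ℕ => (1 : ℝ) / (n + 1)) atTop (𝓝 0) :=
    tendsto_one_div_add_atTop_nhds_zero_nat
  have h1 := hζ.cont k (C + 1 * ((m / pa.r m + 1) * C)) (fun n => Av e (1 / (n + 1)) f) f
    (fun n => (Av_good hf he hm (t0 n).le).mono (by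
      have : (1 : ℝ) / (n + 1) ≤ 1 := (div_le_one (by positivity)).2 (by simp)
      gcongr))
    fun w => tendsto_iff_dist_tendsto_zero.2 (squeeze_zero (fun _ => dist_nonneg)
      (fun n => Av_close hf he (t0 n).le w) (by simpa using t1.const_mul C))
  have h2 := t1.mul_const ((m / pa.r m + 1) * C)
  rw [zero_mul] at h2
  obtain ⟨n, a1, a2⟩ := ((h1.eventually (lt_mem_nhds (sub_lt_self _ hε))).and
    (h2.eventually (gt_mem_nhds hε))).exists
  exact ⟨_, t0 n, (Av_good hf he hm (t0 n).le).mono (by linarith), a1.le⟩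

end Smooth

open Smooth in
theorem claimSmooth : ClaimSmooth := by
  classical
  intro W _ _ Pj pa ζ CW hζ m ι s e he hm C σ η ε k h hη hε hg hσ ht
  obtain ⟨N, hN, hmN⟩ := (((hζ.comp_P hg k).eventually
    (lt_mem_nhds (sub_lt_self _ (half_pos hε)))).and (eventually_ge_atTop m)).exists
  have key : ∀ (ε : ℝ) (h : W → ℝ), 0 < ε → Good Pj pa C h → (∀ w, |h w| ≤ σ) →
      (∀ u v, Pj.P m u = Pj.P m v → |h u - h v| ≤ η * ‖u - v‖) → (∀ w, h (Pj.P N w) = h w) →
      ∃ (h' : W → ℝ) (q : ι → W → ℝ) (Λ B : ℝ), 0 ≤ Λ ∧ 0 ≤ B ∧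
        Good Pj pa (C + ε) h' ∧ (∀ w, |h' w| ≤ σ) ∧
        (∀ u v, Pj.P m u = Pj.P m v → |h' u - h' v| ≤ η * ‖u - v‖) ∧ ζ k h - ε ≤ ζ k h' ∧
        (∀ w, h' (Pj.P N w) = h' w) ∧
        ∀ d ∈ s, (∀ w, |q d w| ≤ C + ε) ∧ (∀ u v, |q d u - q d v| ≤ Λ * ‖u - v‖) ∧
          (∀ w, q d (Pj.P N w) = q d w) ∧
          ∀ (u : W) (t : ℝ), |h' (u + t • e d) - h' u - t * q d u| ≤ B * t ^ 2 := by
    induction s using Finset.induction_on with
    | empty =>
      intro ε h hε hg hσ ht hd
      exact ⟨h, fun _ _ => 0, 0, 0, le_rfl, le_rfl, hg.mono (by linarith), hσ, ht, by linarith, hd,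
        fun d hd => absurd hd (Finset.notMem_empty d)⟩
    | insert a s _ ih =>
      intro ε h hε hg hσ ht hd
      obtain ⟨f, q, Λ, B, h1, h2, h3, h4, h5, h6, h7, h8⟩ :=
        ih (fun d hd => he d (Finset.mem_insert_of_mem hd))
          (fun d hd => hm d (Finset.mem_insert_of_mem hd)) (ε / 2) h (half_pos hε) hg hσ ht hd
      have ea := he a (Finset.mem_insert_self a s)
      have ma := hm a (Finset.mem_insert_self a s)
      have na : Pj.P N (e a) = e a := by rw [← ma, Pj.PP_ge hmN]
      obtain ⟨τ, hτ, g1, g2⟩ := exists_tau h3 ea hζ ma k (half_pos hε)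
      refine ⟨Av (e a) τ f, fun d => if d = a then fun u => (f (u + τ • e a) - f u) / τ
        else Av (e a) τ (q d), max Λ (2 * (C + ε / 2) / τ), max B (2 * (C + ε / 2) / τ),
        le_max_of_le_left h1, le_max_of_le_left h2, g1.mono (by linarith), Av_bound h4,
        fun u v huv => Av_lip h3.continuous fun y => ?_, by linarith, Av_dep na h7, fun d hd => ?_⟩
      · rw [← add_sub_add_right_eq_sub u v y]
        exact h5 _ _ (by rw [map_add, map_add, huv])
      · by_cases hda : d = a
        · subst hda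
          simp only [if_true]
          refine ⟨fun w => ?_, fun u v => ?_, fun w => ?_, fun u t => (Av_self h3 ea hτ u t).trans
            (mul_le_mul_of_nonneg_right (le_max_right _ _) (sq_nonneg t))⟩
          · have b := line_lip h3 ea w τ 0
            rw [zero_smul, add_zero, sub_zero, abs_of_pos hτ] at b
            rw [abs_div, abs_of_pos hτ, div_le_iff₀ hτ]
            exact b.trans (mul_le_mul_of_nonneg_right (by linarith) hτ.le)
          · refine le_trans ?_ (mul_le_mul_of_nonneg_right (le_max_right _ _) (norm_nonneg _))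
            have b1 := abs_le.1 (h3.lip (u + τ • e d) (v + τ • e d))
            have b2 := abs_le.1 (h3.lip u v)
            rw [add_sub_add_right_eq_sub] at b1
            rw [← sub_div, abs_div, abs_of_pos hτ, div_mul_eq_mul_div]
            refine div_le_div_of_nonneg_right (abs_le.2 ⟨?_, ?_⟩) hτ.le <;>
              linarith [b1.1, b1.2, b2.1, b2.2]
          · rw [← h7 (w + _), map_add, map_smul, na, h7 w]
        · obtain ⟨q1, q2, q3, q4⟩ := h8 d ((Finset.mem_insert.1 hd).resolve_left hda)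
          simp only [if_neg hda]
          refine ⟨fun w => (Av_bound q1 w).trans (by linarith),
            fun u v => Av_lip (continuous_of_lip q2) fun y => (q2 _ _).trans ?_, Av_dep na q3,
            fun u t => (Av_second h3.continuous (continuous_of_lip q2) q4 u t).trans
              (mul_le_mul_of_nonneg_right (le_max_left _ _) (sq_nonneg t))⟩
          rw [add_sub_add_right_eq_sub]
          exact mul_le_mul_of_nonneg_right (le_max_left _ _) (norm_nonneg _)
  obtain ⟨f, q, Λ, B, h1, h2, h3, h4, h5, h6, -, h8⟩ := key (ε / 2) (fun w => h (Pj.P N w))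
    (half_pos hε) (hg.comp_P N) (fun w => hσ _)
    (fun u v huv => (ht _ _ (by rw [Pj.PP_le hmN, Pj.PP_le hmN, huv])).trans
      (mul_le_mul_of_nonneg_left (Pj.norm_P_sub_le N u v) hη))
    fun w => by rw [Pj.PP_le le_rfl]
  exact ⟨f, q, N, Λ, B, h1, h2, h3.mono (by linarith), h4, h5, by linarith,
    fun d hd => ⟨fun w => ((h8 d hd).1 w).trans (by linarith), (h8 d hd).2⟩⟩

end Crest.Agent.R91
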