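import Crest.Agent.R91.Defs

/-! Row 91: the space `Z` that linearises good maps. -/

set_option autoImplicit false

open Filter Topology TopologicalSpace
open scoped ENNReal

noncomputable section

namespace Crest.Agent.R91

namespace Zsp

variable {W : Type} [NormedAddCommGroup W] [NormedSpace ℝ W] {Pj : Proj W} {pa : Par}

theorem good_zero : Good Pj pa 0 (0 : W → ℝ) :=
  ⟨le_rfl, fun _ _ => by simp, fun _ _ _ _ _ _ _ _ _ _ _ _ => by simp⟩

theorem good_add {C C' : ℝ} {f g : W → ℝ} (hf : Good Pj pa C f) (hg : Good Pj pa C' g) :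
    Good Pj pa (C + C') (f + g) := by
  refine ⟨add_nonneg hf.nonneg hg.nonneg, fun u v => ?_, fun j M κ ι s u v h a A hA hs => ?_⟩
  · have h1 := abs_add_le (f u - f v) (g u - g v)
    have h2 := hf.lip u v
    have h3 := hg.lip u v
    simp only [Pi.add_apply]
    rw [show f u + g u - (f v + g v) = f u - f v + (g u - g v) by ring]
    linarith
  · have h2 := hf.atom j M κ ι s u v h a A hA hs
    have h3 := hg.atom j M κ ι s u v h a A hA hs
    have h4 : ∑ i ∈ s, a i * ((f + g) (u i) - (f + g) (v i)) =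
        ∑ i ∈ s, a i * (f (u i) - f (v i)) + ∑ i ∈ s, a i * (g (u i) - g (v i)) := by
      rw [← Finset.sum_add_distrib]
      exact Finset.sum_congr rfl fun i _ => by simp only [Pi.add_apply]; ring
    rw [h4]
    linarith

theorem good_smul {C : ℝ} {f : W → ℝ} (hf : Good Pj pa C f) (t : ℝ) :
    Good Pj pa (|t| * C) (t • f) := by
  refine ⟨mul_nonneg (abs_nonneg t) hf.nonneg, fun u v => ?_,
    fun j M κ ι s u v h a A hA hs => ?_⟩
  · simp only [Pi.smul_apply, smul_eq_mul]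
    rw [← mul_sub, abs_mul, mul_assoc]
    exact mul_le_mul_of_nonneg_left (hf.lip u v) (abs_nonneg t)
  · have h2 := hf.atom j M κ ι s u v h (fun i => t * a i) (|t| * A)
      (mul_nonneg (abs_nonneg t) hA) (by
        simp only [mul_assoc, mul_pow t, ← Finset.mul_sum]
        rw [mul_pow, sq_abs]
        exact mul_le_mul_of_nonneg_left hs (sq_nonneg t))
    have h4 : ∑ i ∈ s, a i * ((t • f) (u i) - (t • f) (v i)) =
        ∑ i ∈ s, t * a i * (f (u i) - f (v i)) :=
      Finset.sum_congr rfl fun i _ => by simp only [Pi.smul_apply, smul_eq_mul]; ring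
    rw [h4]
    linarith

theorem good_lim {C : ℝ} {f : ℕ → W → ℝ} {g : W → ℝ} (hf : ∀ n, Good Pj pa C (f n))
    (hg : ∀ w, Tendsto (fun n => f n w) atTop (𝓝 (g w))) : Good Pj pa C g := by
  refine ⟨(hf 0).nonneg, fun u v => ?_, fun j M κ ι s u v h a A hA hs => ?_⟩
  · exact le_of_tendsto' ((hg u).sub (hg v)).abs fun n => (hf n).lip u v
  · exact le_of_tendsto' ((tendsto_finsetSum s fun i _ =>
      ((hg (u i)).sub (hg (v i))).const_mul (a i)).const_mul κ)
      fun n => (hf n).atom j M κ ι s u v h a A hA hs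

theorem good_comp {C : ℝ} {D : W → W} (hD : VGood Pj pa C D) (φ : StrongDual ℝ W)
    (hφ : ‖φ‖ ≤ 1) : Good Pj pa C fun w => φ (D w) := by
  have h0 : ∀ x, |φ x| ≤ ‖x‖ := fun x =>
    (φ.le_opNorm x).trans (mul_le_of_le_one_left (norm_nonneg x) hφ)
  refine ⟨hD.nonneg, fun u v => ?_, fun j M κ ι s u v h a A hA hs => ?_⟩
  · rw [← map_sub]
    exact (h0 _).trans (hD.lip u v)
  · have h2 := hD.atom j M κ ι s u v h a A hA hs
    have h3 : ∑ i ∈ s, a i * (φ (D (u i)) - φ (D (v i))) =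
        φ (∑ i ∈ s, a i • (D (u i) - D (v i))) := by
      simp only [map_sum, map_smul, map_sub, smul_eq_mul]
    rw [h3]
    have h4 := (le_abs_self _).trans ((h0 _).trans h2)
    have h5 : 0 ≤ C * A := mul_nonneg hD.nonneg hA
    nlinarith [h.κ_nonneg, h.κ_le]

theorem separable (Pj : Proj W) : SeparableSpace W := by
  have h1 : ∀ M, IsSeparable (Set.range (Pj.P M)) := fun M => by
    obtain ⟨ι, s, e, l, -, -, -, h⟩ := Pj.fin M
    refine ((s.finite_toSet.image e).isSeparable.span (R := ℝ)).mono ?_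
    rintro _ ⟨w, rfl⟩
    rw [h]
    exact Submodule.sum_mem _ fun d hd =>
      Submodule.smul_mem _ _ (Submodule.subset_span ⟨d, hd, rfl⟩)
  refine isSeparable_univ_iff.1 ((IsSeparable.iUnion h1).closure.mono fun w _ => ?_)
  exact mem_closure_of_tendsto (Pj.lim w)
    (Eventually.of_forall fun M => Set.mem_iUnion.2 ⟨M, w, rfl⟩)

variable (Pj pa)

/-- The unit ball of good functions. -/
def Ball : Type := {f : W → ℝ // Good Pj pa 1 f}

/-- Bounded functions on the ball. -/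
abbrev Y : Type := lp (fun _ : Ball Pj pa => ℝ) ∞

/-- Point evaluations. -/
def δ (w : W) : Y Pj pa := ⟨fun g => g.1 w - g.1 0, memℓp_infty ⟨‖w‖, by
  rintro _ ⟨g, rfl⟩
  simpa using g.2.lip w 0⟩⟩

theorem δ_lip (u v : W) : ‖δ Pj pa u - δ Pj pa v‖ ≤ ‖u - v‖ := by
  refine lp.norm_le_of_forall_le (norm_nonneg _) fun g => ?_
  have : (δ Pj pa u - δ Pj pa v) g = g.1 u - g.1 v := by
    change g.1 u - g.1 0 - (g.1 v - g.1 0) = _
    ring
  rw [this]
  simpa using g.2.lip u v

/-- The closed span of the point evaluations. -/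
def Zs : Submodule ℝ (Y Pj pa) := (Submodule.span ℝ (Set.range (δ Pj pa))).topologicalClosure

/-- Point evaluations in `Zs`. -/
def Δ (w : W) : Zs Pj pa :=
  ⟨δ Pj pa w, Submodule.le_topologicalClosure _ (Submodule.subset_span ⟨w, rfl⟩)⟩

/-- Molecules. -/
def e : (W →₀ ℝ) →ₗ[ℝ] Zs Pj pa := Finsupp.linearCombination ℝ (Δ Pj pa)

theorem dense_e : DenseRange (e Pj pa) := by
  intro z
  rw [closure_subtype]
  have h1 : Subtype.val '' Set.range (e Pj pa) = Submodule.span ℝ (Set.range (δ Pj pa)) := by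
    rw [← Finsupp.range_linearCombination, ← Set.range_comp, LinearMap.coe_range]
    congr 1
    funext x
    exact Finsupp.apply_linearCombination ℝ (Zs Pj pa).subtype (Δ Pj pa) x
  rw [h1]
  exact z.2

/-- Evaluation of an element of `Zs` at a point of the ball. -/
def ev (g : Ball Pj pa) : Zs Pj pa →L[ℝ] ℝ :=
  (lp.evalCLM (𝕜 := ℝ) (fun _ : Ball Pj pa => ℝ) ∞ g).comp (Zs Pj pa).subtypeL

/-- Pairing of a function with a molecule. -/
def pr (f : W → ℝ) : (W →₀ ℝ) →ₗ[ℝ] ℝ := Finsupp.linearCombination ℝ fun w => f w - f 0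

/-- Pairing of a good function with an element of `Zs`. -/
def Λ (f : W → ℝ) : Zs Pj pa →L[ℝ] ℝ := (pr f).extendOfNorm (e Pj pa)

variable {Pj pa}

theorem ev_e (g : Ball Pj pa) (x : W →₀ ℝ) : ev Pj pa g (e Pj pa x) = pr g.1 x :=
  Finsupp.apply_linearCombination ℝ (ev Pj pa g).toLinearMap (Δ Pj pa) x

theorem pr_add (f g : W → ℝ) (x : W →₀ ℝ) : pr (f + g) x = pr f x + pr g x := by
  simp only [pr, Finsupp.linearCombination_apply, Finsupp.sum, ← Finset.sum_add_distrib]
  exact Finset.sum_congr rfl fun w _ => by simp only [Pi.add_apply, smul_eq_mul]; ring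

theorem pr_smul (t : ℝ) (f : W → ℝ) (x : W →₀ ℝ) : pr (t • f) x = t * pr f x := by
  simp only [pr, Finsupp.linearCombination_apply, Finsupp.sum, Finset.mul_sum]
  exact Finset.sum_congr rfl fun w _ => by simp only [Pi.smul_apply, smul_eq_mul]; ring

theorem pr_le {C : ℝ} {f : W → ℝ} (hf : Good Pj pa C f) (x : W →₀ ℝ) :
    ‖pr f x‖ ≤ C * ‖e Pj pa x‖ := by
  rcases hf.nonneg.eq_or_lt with h0 | h0
  · have h1 : ∀ w, f w - f 0 = 0 := fun w => by
      have := hf.lip w 0
      rwa [← h0, zero_mul, abs_nonpos_iff] at this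
    simp [pr, h1, ← h0, Finsupp.linearCombination_apply, Finsupp.sum]
  · have h1 := good_smul hf C⁻¹
    rw [abs_of_pos (inv_pos.2 h0), inv_mul_cancel₀ h0.ne'] at h1
    have h2 : ‖ev Pj pa ⟨_, h1⟩ (e Pj pa x)‖ ≤ ‖e Pj pa x‖ :=
      lp.norm_apply_le_norm ENNReal.top_ne_zero (e Pj pa x).1 _
    rw [ev_e, pr_smul, norm_mul, Real.norm_of_nonneg (inv_pos.2 h0).le,
      inv_mul_le_iff₀ h0] at h2
    exact h2

theorem Λ_e {C : ℝ} {f : W → ℝ} (hf : Good Pj pa C f) (x : W →₀ ℝ) :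
    Λ Pj pa f (e Pj pa x) = pr f x :=
  LinearMap.extendOfNorm_eq (dense_e Pj pa) ⟨C, pr_le hf⟩ x

theorem Λ_le {C : ℝ} {f : W → ℝ} (hf : Good Pj pa C f) (z : Zs Pj pa) :
    ‖Λ Pj pa f z‖ ≤ C * ‖z‖ :=
  LinearMap.norm_extendOfNorm_apply_le (dense_e Pj pa) C (pr_le hf) z

theorem Λ_add {C C' : ℝ} {f g : W → ℝ} (hf : Good Pj pa C f) (hg : Good Pj pa C' g)
    (z : Zs Pj pa) : Λ Pj pa (f + g) z = Λ Pj pa f z + Λ Pj pa g z :=
  (dense_e Pj pa).induction_on z (isClosed_eq (by fun_prop) (by fun_prop)) fun x => by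
    rw [Λ_e (good_add hf hg), Λ_e hf, Λ_e hg, pr_add]

theorem Λ_smul {C : ℝ} {f : W → ℝ} (hf : Good Pj pa C f) (t : ℝ) (z : Zs Pj pa) :
    Λ Pj pa (t • f) z = t * Λ Pj pa f z :=
  (dense_e Pj pa).induction_on z (isClosed_eq (by fun_prop) (by fun_prop)) fun x => by
    rw [Λ_e (good_smul hf t), Λ_e hf, pr_smul]

theorem Λ_ball (g : Ball Pj pa) (z : Zs Pj pa) : Λ Pj pa g.1 z = ev Pj pa g z :=
  (dense_e Pj pa).induction_on z (isClosed_eq (by fun_prop) (by fun_prop)) fun x => by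
    rw [Λ_e g.2, ev_e]

theorem Λ_tendsto {C : ℝ} {f : ℕ → W → ℝ} {g : W → ℝ} (hf : ∀ n, Good Pj pa C (f n))
    (hg : ∀ w, Tendsto (fun n => f n w) atTop (𝓝 (g w))) (z : Zs Pj pa) :
    Tendsto (fun n => Λ Pj pa (f n) z) atTop (𝓝 (Λ Pj pa g z)) := by
  have h1 : Equicontinuous fun n => (Λ Pj pa (f n) : Zs Pj pa → ℝ) := by
    refine (LipschitzWith.uniformEquicontinuous _ ⟨C, (hf 0).nonneg⟩ fun n => ?_).equicontinuous
    refine LipschitzWith.of_dist_le_mul fun a b => ?_
    rw [dist_eq_norm, dist_eq_norm, ← map_sub]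
    exact Λ_le (hf n) _
  refine (dense_e Pj pa).induction_on z
    (h1.isClosed_setOfPred_tendsto (Λ Pj pa g).continuous) fun x => ?_
  simp only [Λ_e (hf _), Λ_e (good_lim hf hg), pr, Finsupp.linearCombination_apply, Finsupp.sum]
  exact tendsto_finsetSum _ fun w _ => ((hg w).sub (hg 0)).const_smul _

theorem exists_ζ (z : Zs Pj pa) : ∃ ζ : (W → ℝ) →ₗ[ℝ] ℝ,
    ∀ C f, Good Pj pa C f → ζ f = Λ Pj pa f z := by
  let S : Submodule ℝ (W → ℝ) :=
    { carrier := {f | ∃ C, Good Pj pa C f}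
      add_mem' := fun ⟨_, hf⟩ ⟨_, hg⟩ => ⟨_, good_add hf hg⟩
      zero_mem' := ⟨_, good_zero⟩
      smul_mem' := fun t _ ⟨_, hf⟩ => ⟨_, good_smul hf t⟩ }
  let ζ₀ : S →ₗ[ℝ] ℝ :=
    { toFun := fun f => Λ Pj pa f.1 z
      map_add' := fun f g => Λ_add f.2.choose_spec g.2.choose_spec z
      map_smul' := fun t f => Λ_smul f.2.choose_spec t z }
  obtain ⟨ζ, hζ⟩ := ζ₀.exists_extend
  exact ⟨ζ, fun C f hf => LinearMap.congr_fun hζ ⟨f, C, hf⟩⟩

theorem noC0 (h : NoWUC Pj pa) : NoC0 (Zs Pj pa) := by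
  intro z c C hc hz hC
  choose ζ hζ using fun k => exists_ζ (z k)
  refine h ζ C (c / 2) ⟨fun C' f hf F => ?_, fun k C' f g hf hg => ?_⟩ (half_pos hc) fun k => ?_
  · have h1 : ∑ k ∈ F, |ζ k f| =
        Λ Pj pa f (∑ k ∈ F, (SignType.sign (ζ k f) : ℝ) • z k) := by
      rw [map_sum]
      refine Finset.sum_congr rfl fun k _ => ?_
      rw [map_smul, ← hζ k C' f hf, smul_eq_mul, sign_mul_self]
    rw [h1, mul_comm]
    refine (le_abs_self _).trans ((Λ_le hf _).trans (mul_le_mul_of_nonneg_left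
      (hC F _ fun k => ?_) hf.nonneg))
    rcases SignType.sign (ζ k f) with _ | _ | _ <;> simp
  · simp only [hζ k C' _ (hf _), hζ k C' g (good_lim hf hg)]
    exact Λ_tendsto hf hg _
  · by_contra hcon
    push Not at hcon
    have h1 : ‖(z k).1‖ ≤ c / 2 := by
      refine lp.norm_le_of_forall_le (half_pos hc).le fun g => ?_
      have h2 := hcon g.1 g.2
      have hg := good_smul g.2 (-1)
      rw [abs_neg, abs_one, one_mul] at hg
      have h3 := hcon _ hg
      rw [map_smul, smul_eq_mul] at h3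
      rw [hζ k 1 _ g.2, Λ_ball] at h2 h3
      change ‖ev Pj pa g (z k)‖ ≤ c / 2
      rw [Real.norm_eq_abs, abs_le]
      constructor <;> linarith
    have h2 : c ≤ ‖(z k).1‖ := hz k
    linarith

end Zsp

open Zsp in
theorem claimZ : ClaimZ := by
  intro W _ _ _ Pj pa D C h hD h0
  have hsep := separable Pj
  refine ⟨hsep, Zs Pj pa, inferInstance, inferInstance, ?_, ?_, noC0 h, Δ Pj pa,
    (Finsupp.linearCombination ℝ D).extendOfNorm (e Pj pa), δ_lip Pj pa, ?_⟩
  · exact (Submodule.isClosed_topologicalClosure _).completeSpace_coe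
  · have h1 : Continuous (δ Pj pa) := by
      refine (LipschitzWith.of_dist_le_mul (K := 1) fun a b => ?_).continuous
      rw [dist_eq_norm, dist_eq_norm, NNReal.coe_one, one_mul]
      exact δ_lip Pj pa a b
    exact ((isSeparable_range h1).span (R := ℝ)).closure.separableSpace
  · have hb : ∀ x, ‖Finsupp.linearCombination ℝ D x‖ ≤ C * ‖e Pj pa x‖ := fun x => by
      obtain ⟨φ, hφ, hx⟩ := exists_dual_vector'' ℝ (Finsupp.linearCombination ℝ D x)
      have h1 := pr_le (good_comp hD φ hφ) x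
      have h2 : pr (fun w => φ (D w)) x = φ (Finsupp.linearCombination ℝ D x) := by
        simp only [pr, h0, map_zero, sub_zero]
        exact (Finsupp.apply_linearCombination ℝ φ.toLinearMap D x).symm
      rw [h2, hx] at h1
      simpa using h1
    have he := LinearMap.extendOfNorm_eq (dense_e Pj pa) ⟨C, hb⟩
    refine ⟨fun w => ?_, fun T hT ν => ?_⟩
    · simpa [e] using he (Finsupp.single w 1)
    · refine (dense_e Pj pa).induction_on ν (isClosed_eq (by fun_prop) (by fun_prop)) fun x => ?_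
      rw [he]
      simp only [Finsupp.linearCombination_apply, Finsupp.sum, map_sum, map_smul, hT]

end Crest.Agent.R91
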