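import Crest.Agent.R91.Chain
import Crest.Agent.R91.Cube
import Crest.Agent.R91.Maps
import Crest.Agent.R91.Rooms
import Crest.Agent.R91.Psi
import Crest.Agent.R91.H1
import Crest.Agent.R91.H2
import Crest.Agent.R91.H3
import Crest.Agent.R91.Zsp
import Crest.Agent.R91.Glue
import Crest.Agent.R91.Smooth
import Crest.Agent.R91.Mart

/-! Row 91: assembly. -/

set_option autoImplicit false

namespace Crest.Agent.R91

theorem targets : Target120 ∧ Target121 :=
  claimGlue (claimNoWUC (claimMart claimSmooth)) claimCube claimMaps (claimPsi claimRooms)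
    claimH1 claimH2 claimH3 claimZ

end Crest.Agent.R91
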