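import Crest.Agent.R91.Basic

/-! Row 91: the smoothing claim used in the martingale step. -/

set_option autoImplicit false

namespace Crest.Agent.R91

/-- Smoothing in finitely many head directions. -/
def ClaimSmooth : Prop :=
  ∀ (W : Type) [NormedAddCommGroup W] [NormedSpace ℝ W] (Pj : Proj W) (pa : Par)
    (ζ : ℕ → (W → ℝ) →ₗ[ℝ] ℝ) (CW : ℝ), WUC Pj pa ζ CW →
    ∀ (m : ℕ) (ι : Type) (s : Finset ι) (e : ι → W), (∀ d ∈ s, ‖e d‖ ≤ 1) →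
      (∀ d ∈ s, Pj.P m (e d) = e d) →
    ∀ (C σ η ε : ℝ) (k : ℕ) (h : W → ℝ), 0 ≤ η → 0 < ε → Good Pj pa C h → (∀ w, |h w| ≤ σ) →
      (∀ u v, Pj.P m u = Pj.P m v → |h u - h v| ≤ η * ‖u - v‖) →
    ∃ (h' : W → ℝ) (q : ι → W → ℝ) (N : ℕ) (Λ B : ℝ), 0 ≤ Λ ∧ 0 ≤ B ∧
      Good Pj pa (C + ε) h' ∧ (∀ w, |h' w| ≤ σ) ∧
      (∀ u v, Pj.P m u = Pj.P m v → |h' u - h' v| ≤ η * ‖u - v‖) ∧ ζ k h - ε ≤ ζ k h' ∧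
      ∀ d ∈ s, (∀ w, |q d w| ≤ C + ε) ∧ (∀ u v, |q d u - q d v| ≤ Λ * ‖u - v‖) ∧
        (∀ w, q d (Pj.P N w) = q d w) ∧
        ∀ (u : W) (t : ℝ), |h' (u + t • e d) - h' u - t * q d u| ≤ B * t ^ 2

end Crest.Agent.R91
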