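import Crest.Agent.R91.Defs

/-! Row 91: the real-variable lemmas for the slowly varying field of unit vectors. -/

set_option autoImplicit false

open Finset

namespace Crest.Agent.R91.PsiAux

/-- The logarithmic length of the `j`-th scale interval. -/
noncomputable def LL (j : ℕ) : ℝ := 5184 * 400 * 4 ^ j

lemma one_le_LL (j : ℕ) : 1 ≤ LL j := by
  have : (1 : ℝ) ≤ 4 ^ j := one_le_pow₀ (by norm_num)
  unfold LL; linarith

lemma LL_pos (j : ℕ) : 0 < LL j := one_pos.trans_le (one_le_LL j)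

/-- The scale intervals `[s j, S j]`. -/
structure Scales (Λ s S : ℕ → ℝ) : Prop where
  pos : ∀ j, 0 < s j
  le : ∀ j, s j ≤ S j
  log : ∀ j, Real.log (S j) - Real.log (s j) = LL j
  step : ∀ j, S (j + 1) ≤ s j / 2
  small : ∀ j, S j * (LL j * (Λ j + Λ (j + 1))) ≤ 1

lemma exists_scales (Λ : ℕ → ℝ) (hΛ : ∀ j, 0 ≤ Λ j) : ∃ s S, Scales Λ s S := by
  let b : ℕ → ℝ := fun j => 1 / (LL j * (Λ j + Λ (j + 1) + 1))
  have hb : ∀ j, 0 < b j := fun j => by
    have := LL_pos j; have := hΛ j; have := hΛ (j + 1); positivity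
  let S : ℕ → ℝ := fun j => Nat.rec (b 0) (fun i x => min (x * Real.exp (-LL i) / 2) (b (i + 1))) j
  have hS : ∀ j, S (j + 1) = min (S j * Real.exp (-LL j) / 2) (b (j + 1)) := fun _ => rfl
  have hp : ∀ j, 0 < S j := fun j => by
    induction j with
    | zero => exact hb 0
    | succ j ih => rw [hS]; exact lt_min (by positivity) (hb _)
  have hle : ∀ j, S j ≤ b j := fun j => by
    cases j with
    | zero => exact le_rfl
    | succ j => rw [hS]; exact min_le_right _ _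
  refine ⟨fun j => S j * Real.exp (-LL j), S, fun j => mul_pos (hp j) (Real.exp_pos _),
    fun j => mul_le_of_le_one_right (hp j).le (Real.exp_le_one_iff.2 (by linarith [LL_pos j])),
    fun j => ?_, fun j => ?_, fun j => ?_⟩
  · rw [Real.log_mul (hp j).ne' (Real.exp_pos _).ne', Real.log_exp]; ring
  · rw [hS]; exact min_le_left _ _
  · have h1 := LL_pos j; have h2 := hΛ j; have h3 := hΛ (j + 1)
    have h4 := (le_div_iff₀ (by positivity)).1 (hle j)
    nlinarith [mul_pos (hp j) h1]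

variable {Λ s S : ℕ → ℝ}

lemma Scales.s_anti (h : Scales Λ s S) : Antitone s :=
  antitone_nat_of_succ_le fun j => by linarith [h.le (j + 1), h.step j, h.pos j]

lemma Scales.S_le (h : Scales Λ s S) {j j' : ℕ} (hj : j < j') : S j' ≤ s j / 2 := by
  obtain ⟨i, rfl⟩ : ∃ i, j' = i + 1 := ⟨j' - 1, by omega⟩
  linarith [h.step i, h.s_anti (by omega : j ≤ i)]

/-- Clamping to `[a, b]`. -/
def clamp (a b R : ℝ) : ℝ := max a (min R b)

lemma clamp_mono (a b : ℝ) : Monotone (clamp a b) := fun _ _ h =>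
  max_le_max le_rfl (min_le_min h le_rfl)

lemma clamp_of_le {a b R : ℝ} (h : R ≤ a) : clamp a b R = a :=
  max_eq_left ((min_le_left _ _).trans h)

lemma clamp_of_ge {a b R : ℝ} (hab : a ≤ b) (h : b ≤ R) : clamp a b R = b := by
  rw [clamp, min_eq_right h, max_eq_right hab]

lemma clamp_diff {a b R R' : ℝ} (ha : 0 ≤ a) (hab : a ≤ b) (h0 : 0 ≤ R) (h : R ≤ R') :
    clamp a b R' - clamp a b R ≤ R' - R ∧
      clamp a b R' ^ 2 - clamp a b R ^ 2 ≤ R' ^ 2 - R ^ 2 := by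
  have hsq : R ^ 2 ≤ R' ^ 2 := by gcongr
  rcases le_total R' a with h1 | h1
  · rw [clamp_of_le h1, clamp_of_le (h.trans h1)]; constructor <;> linarith
  rcases le_total b R with h2 | h2
  · rw [clamp_of_ge hab h2, clamp_of_ge hab (h2.trans h)]; constructor <;> linarith
  have h3 : clamp a b R' ≤ R' := max_le h1 (min_le_left _ _)
  have h4 : R ≤ clamp a b R := le_max_of_le_right (le_min le_rfl h2)
  have h5 : 0 ≤ clamp a b R' := ha.trans (le_max_left _ _)
  have h6 : clamp a b R' ^ 2 ≤ R' ^ 2 := by gcongr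
  have h7 : R ^ 2 ≤ clamp a b R ^ 2 := by gcongr
  constructor <;> linarith

lemma log_sub_le {x y : ℝ} (hx : 0 < x) (hy : 0 < y) : Real.log y - Real.log x ≤ (y - x) / x := by
  rw [← Real.log_div hy.ne' hx.ne', sub_div, div_self hx.ne']
  exact Real.log_le_sub_one_of_pos (div_pos hy hx)

/-- The interpolation coefficient. -/
noncomputable def al (s S : ℕ → ℝ) (j : ℕ) (R : ℝ) : ℝ :=
  (Real.log (S j) - Real.log (clamp (s j) (S j) R)) / LL j

/-- The slope bound. -/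
noncomputable def gg (s S : ℕ → ℝ) (j : ℕ) (R : ℝ) : ℝ := if R < S j then 1 / max R (s j) else 0

lemma Scales.clamp_pos (h : Scales Λ s S) (j : ℕ) (R : ℝ) : 0 < clamp (s j) (S j) R :=
  (h.pos j).trans_le (le_max_left _ _)

lemma Scales.al_one (h : Scales Λ s S) {j : ℕ} {R : ℝ} (hR : R ≤ s j) : al s S j R = 1 := by
  rw [al, clamp_of_le hR, h.log, div_self (LL_pos j).ne']

lemma Scales.al_zero (h : Scales Λ s S) {j : ℕ} {R : ℝ} (hR : S j ≤ R) : al s S j R = 0 := by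
  rw [al, clamp_of_ge (h.le j) hR, sub_self, zero_div]

lemma Scales.al_anti (h : Scales Λ s S) (j : ℕ) : Antitone (al s S j) := fun R R' hR =>
  div_le_div_of_nonneg_right (by
    linarith [Real.log_le_log (h.clamp_pos j R) (clamp_mono (s j) (S j) hR)]) (LL_pos j).le

lemma Scales.al_nonneg (h : Scales Λ s S) (j : ℕ) (R : ℝ) : 0 ≤ al s S j R :=
  (h.al_zero (le_max_right R _)).ge.trans (h.al_anti j (le_max_left _ _))

lemma Scales.al_le_one (h : Scales Λ s S) (j : ℕ) (R : ℝ) : al s S j R ≤ 1 :=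
  (h.al_anti j (min_le_left R (s j))).trans (h.al_one (min_le_right _ _)).le

lemma Scales.gg_nonneg (h : Scales Λ s S) (j : ℕ) (R : ℝ) : 0 ≤ gg s S j R := by
  unfold gg
  split_ifs
  · exact div_nonneg zero_le_one ((h.pos j).le.trans (le_max_right _ _))
  · exact le_rfl

lemma Scales.gg_anti (h : Scales Λ s S) (j : ℕ) : Antitone (gg s S j) := fun R R' hR => by
  by_cases h1 : R' < S j
  · rw [gg, gg, if_pos h1, if_pos (hR.trans_lt h1)]
    exact one_div_le_one_div_of_le ((h.pos j).trans_le (le_max_right _ _)) (max_le_max hR le_rfl)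
  · rw [gg, if_neg h1]; exact h.gg_nonneg j R

lemma clamp_of_lt {a b R : ℝ} (h : R < b) : clamp a b R = max R a := by
  rw [clamp, min_eq_left h.le, max_comm]

lemma Scales.al_sub (h : Scales Λ s S) (j : ℕ) {R R' : ℝ} (h0 : 0 ≤ R) (hR : R ≤ R') :
    al s S j R - al s S j R' ≤ (R' - R) * (gg s S j R / LL j) := by
  by_cases h1 : R < S j
  · rw [al, al, ← sub_div, ← mul_div_assoc, gg, if_pos h1, ← clamp_of_lt h1, mul_one_div]
    refine div_le_div_of_nonneg_right ?_ (LL_pos j).le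
    have := log_sub_le (h.clamp_pos j R) (h.clamp_pos j R')
    have := div_le_div_of_nonneg_right (clamp_diff (h.pos j).le (h.le j) h0 hR).1
      (h.clamp_pos j R).le
    linarith
  · rw [h.al_zero (not_lt.1 h1), h.al_zero ((not_lt.1 h1).trans hR), gg, if_neg h1]; simp

lemma Scales.al_mul (h : Scales Λ s S) (hΛ : ∀ j, 0 ≤ Λ j) (j : ℕ) (R : ℝ) :
    al s S j R * (Λ j + Λ (j + 1)) ≤ gg s S j R / LL j := by
  by_cases h1 : R < S j
  · rw [gg, if_pos h1, le_div_iff₀ (LL_pos j),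
      le_div_iff₀ ((h.pos j).trans_le (le_max_right _ _))]
    have h2 : max R (s j) ≤ S j := max_le h1.le (h.le j)
    have h3 : 0 ≤ LL j * (Λ j + Λ (j + 1)) :=
      mul_nonneg (LL_pos j).le (add_nonneg (hΛ _) (hΛ _))
    have h4 : 0 ≤ max R (s j) := (h.pos j).le.trans (le_max_right _ _)
    have h5 := mul_le_mul (h.al_le_one j R) h2 h4 zero_le_one
    nlinarith [h.small j, mul_le_mul_of_nonneg_right h5 h3]
  · rw [h.al_zero (not_lt.1 h1), gg, if_neg h1]; simp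

lemma Scales.al_sub_sq (h : Scales Λ s S) (j : ℕ) {R R' : ℝ} (h0 : 0 ≤ R) (hR : R ≤ R') :
    al s S j R - al s S j R' ≤ (R' ^ 2 - R ^ 2) / s j ^ 2 := by
  have h1 := log_sub_le (h.clamp_pos j R) (h.clamp_pos j R')
  have h2 := (clamp_diff (h.pos j).le (h.le j) h0 hR).2
  have h3 := clamp_mono (s j) (S j) hR
  have h4 : s j ≤ clamp (s j) (S j) R := le_max_left _ _
  have h5 := h.pos j
  have h6 := Real.log_le_log (h.clamp_pos j R) h3
  rw [al, al, ← sub_div]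
  refine (div_le_self (by linarith) (one_le_LL j)).trans (le_trans (by linarith) (h1.trans ?_))
  set c := clamp (s j) (S j) R
  set c' := clamp (s j) (S j) R'
  rw [div_le_div_iff₀ (by linarith) (by positivity)]
  have h7 : s j ^ 2 ≤ (c' + c) * c := by nlinarith
  nlinarith [mul_le_mul_of_nonneg_left h7 (sub_nonneg.2 h3),
    mul_le_mul_of_nonneg_right h2 (h5.le.trans h4)]

lemma Scales.abs_al_sub_sq (h : Scales Λ s S) (j : ℕ) {R R' : ℝ} (h0 : 0 ≤ R) (h0' : 0 ≤ R') :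
    |al s S j R - al s S j R'| ≤ |R ^ 2 - R' ^ 2| / s j ^ 2 := by
  rcases le_total R R' with hR | hR
  · rw [abs_of_nonneg (sub_nonneg.2 (h.al_anti j hR)), abs_sub_comm]
    exact (h.al_sub_sq j h0 hR).trans (div_le_div_of_nonneg_right (le_abs_self _) (sq_nonneg _))
  · rw [abs_sub_comm, abs_of_nonneg (sub_nonneg.2 (h.al_anti j hR))]
    exact (h.al_sub_sq j h0' hR).trans (div_le_div_of_nonneg_right (le_abs_self _) (sq_nonneg _))

/-- The potential. -/
noncomputable def pot (s S : ℕ → ℝ) (j : ℕ) (R : ℝ) : ℝ :=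
  min R (s j) ^ 2 / s j ^ 2 + 2 * Real.log (clamp (s j) (S j) R)

lemma Scales.pot_step (h : Scales Λ s S) (j : ℕ) {R R' : ℝ} (h0 : 0 ≤ R') (hR : R' ≤ R) :
    gg s S j R ^ 2 * (R ^ 2 - R' ^ 2) ≤ pot s S j R - pot s S j R' := by
  have h5 := h.pos j
  have h3 := clamp_mono (s j) (S j) hR
  have h6 := Real.log_le_log (h.clamp_pos j R') h3
  have h7 : min R' (s j) ^ 2 ≤ min R (s j) ^ 2 :=
    pow_le_pow_left₀ (le_min h0 h5.le) (min_le_min hR le_rfl) 2
  have h8 := div_le_div_of_nonneg_right h7 (sq_nonneg (s j))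
  unfold pot
  by_cases h1 : R < S j
  · have e : ∀ T, T < S j → T ^ 2 = min T (s j) ^ 2 + clamp (s j) (S j) T ^ 2 - s j ^ 2 :=
      fun T hT => by
        rw [clamp_of_lt hT]
        rcases le_total T (s j) with h | h
        · rw [min_eq_left h, max_eq_right h]; ring
        · rw [min_eq_right h, max_eq_left h]; ring
    rw [gg, if_pos h1, ← clamp_of_lt h1, e R h1, e R' (hR.trans_lt h1)]
    have p := h.clamp_pos j R
    have p' := h.clamp_pos j R'
    have h4 : s j ≤ clamp (s j) (S j) R := le_max_left _ _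
    have h9 := log_sub_le (pow_pos p 2) (pow_pos p' 2)
    rw [Real.log_pow, Real.log_pow] at h9
    set c := clamp (s j) (S j) R
    set c' := clamp (s j) (S j) R'
    have h10 : (min R (s j) ^ 2 - min R' (s j) ^ 2) / c ^ 2 ≤
        (min R (s j) ^ 2 - min R' (s j) ^ 2) / s j ^ 2 :=
      div_le_div_of_nonneg_left (by linarith) (by positivity) (by gcongr)
    have h11 : (1 / c) ^ 2 * (min R (s j) ^ 2 + c ^ 2 - s j ^ 2 -
        (min R' (s j) ^ 2 + c' ^ 2 - s j ^ 2)) =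
        (min R (s j) ^ 2 - min R' (s j) ^ 2) / c ^ 2 - (c' ^ 2 - c ^ 2) / c ^ 2 := by
      field_simp; ring
    rw [h11]
    rw [sub_div (min R (s j) ^ 2) _ (s j ^ 2)] at h10
    push_cast at h9
    linarith
  · rw [gg, if_neg h1]; linarith

lemma Scales.sum_pot (h : Scales Λ s S) (j : ℕ) {R : ℕ → ℝ} (h0 : ∀ l, 0 ≤ R l)
    (hR : ∀ l, R (l + 1) ≤ R l) (N : ℕ) :
    ∑ l ∈ range N, gg s S j (R l) ^ 2 * (R l ^ 2 - R (l + 1) ^ 2) ≤ 3 * LL j := by
  refine (sum_le_sum fun l _ => h.pot_step j (h0 _) (hR l)).trans ?_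
  rw [sum_range_sub' fun l => pot s S j (R l)]
  have h1 : min (R 0) (s j) ^ 2 / s j ^ 2 ≤ 1 :=
    div_le_one_of_le₀ (pow_le_pow_left₀ (le_min (h0 0) (h.pos j).le) (min_le_right _ _) 2)
      (sq_nonneg _)
  have h2 : 0 ≤ min (R N) (s j) ^ 2 / s j ^ 2 := by positivity
  have h3 : Real.log (clamp (s j) (S j) (R 0)) ≤ Real.log (S j) :=
    Real.log_le_log (h.clamp_pos _ _) (max_le (h.le j) (min_le_right _ _))
  have h4 : Real.log (s j) ≤ Real.log (clamp (s j) (S j) (R N)) :=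
    Real.log_le_log (h.pos _) (le_max_left _ _)
  unfold pot
  linarith [h.log j, one_le_LL j]

lemma sum_half_le {f : ℕ → ℝ} (hf : ∀ l, 0 ≤ f l) (N : ℕ) :
    ∑ m ∈ range N, f (m / 2) ≤ 2 * ∑ l ∈ range N, f l := by
  have e : ∀ n, ∑ m ∈ range (2 * n), f (m / 2) = 2 * ∑ l ∈ range n, f l := fun n => by
    induction n with
    | zero => simp
    | succ n ih =>
      rw [mul_add, mul_one, sum_range_succ, sum_range_succ, ih, sum_range_succ,
        (by omega : 2 * n / 2 = n), (by omega : (2 * n + 1) / 2 = n)]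
      ring
  rw [← e]
  exact sum_le_sum_of_subset_of_nonneg (range_mono (by omega)) fun _ _ _ => hf _

lemma Scales.sum_two (h : Scales Λ s S) (j : ℕ) {R : ℕ → ℝ} (h0 : ∀ l, 0 ≤ R l)
    (hR : ∀ l, R (l + 1) ≤ R l) (N : ℕ) :
    ∑ m ∈ range N, gg s S j (R (m / 2)) ^ 2 * ((R (m / 2) ^ 2 - R (m / 2 + 1) ^ 2) +
      (R m ^ 2 - R (m + 1) ^ 2)) ≤ 9 * LL j := by
  have hD : ∀ l, 0 ≤ R l ^ 2 - R (l + 1) ^ 2 := fun l =>
    sub_nonneg.2 (pow_le_pow_left₀ (h0 _) (hR l) 2)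
  have h1 := sum_half_le (f := fun l => gg s S j (R l) ^ 2 * (R l ^ 2 - R (l + 1) ^ 2))
    (fun l => mul_nonneg (sq_nonneg _) (hD l)) N
  have h2 := h.sum_pot j h0 hR N
  have h3 : ∑ m ∈ range N, gg s S j (R (m / 2)) ^ 2 * (R m ^ 2 - R (m + 1) ^ 2) ≤
      ∑ l ∈ range N, gg s S j (R l) ^ 2 * (R l ^ 2 - R (l + 1) ^ 2) :=
    sum_le_sum fun m _ => mul_le_mul_of_nonneg_right (pow_le_pow_left₀ (h.gg_nonneg _ _)
      (h.gg_anti j (antitone_nat_of_succ_le hR (Nat.div_le_self m 2))) 2) (hD m)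
  simp only [mul_add, sum_add_distrib]
  linarith

lemma sum_geom_le (J : ℕ) : ∑ j ∈ range J, (1 / 2 : ℝ) ^ (j + 1) ≤ 1 := by
  have : ∑ j ∈ range J, (1 / 2 : ℝ) ^ (j + 1) = 1 - (1 / 2) ^ J := by
    induction J with
    | zero => simp
    | succ J ih => rw [sum_range_succ, ih]; ring
  rw [this]
  exact sub_le_self _ (by positivity)

lemma sq_sum_le (x : ℕ → ℝ) (J : ℕ) :
    (∑ j ∈ range J, x j) ^ 2 ≤ ∑ j ∈ range J, 2 ^ (j + 1) * x j ^ 2 := by
  have h := sum_sq_le_sum_mul_sum_of_sq_le_mul (range J) (r := x)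
    (f := fun j => (1 / 2 : ℝ) ^ (j + 1)) (g := fun j => 2 ^ (j + 1) * x j ^ 2)
    (fun _ _ => by positivity) (fun _ _ => by positivity) fun j _ => by
      rw [← mul_assoc, ← mul_pow]; simp
  exact h.trans (mul_le_of_le_one_left (by positivity) (sum_geom_le J))

lemma sum_weights_le (J : ℕ) : ∑ j ∈ range J, 2 ^ (j + 1) * (9 / LL j) ≤ 1 / (144 * 400) := by
  have e : ∀ j : ℕ, (2 : ℝ) ^ (j + 1) * (9 / LL j) = 1 / (144 * 400) * (1 / 2) ^ (j + 1) :=
    fun j => by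
      have : (4 : ℝ) ^ j = 2 ^ j * 2 ^ j := by rw [← mul_pow]; norm_num
      rw [LL, this, one_div_pow, pow_succ]
      field_simp
      norm_num
  simp only [e, ← mul_sum]
  exact mul_le_of_le_one_right (by norm_num) (sum_geom_le J)

section Vec

variable {E : Type} [NormedAddCommGroup E] [InnerProductSpace ℝ E]

/-- The interpolated vector. -/
noncomputable def VV (s S : ℕ → ℝ) (c : ℕ) (R : ℝ) (x : ℕ → E) : E :=
  x 0 + ∑ j ∈ range c, al s S j R • (x (j + 1) - x j)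

lemma Scales.struct (h : Scales Λ s S) (c : ℕ) (R : ℝ) (x : ℕ → E) :
    VV s S c R x = x c ∨ ∃ j < c, ∃ a : ℝ, s j < R ∧ VV s S c R x = (1 - a) • x j + a • x (j + 1) := by
  induction c with
  | zero => left; simp [VV]
  | succ c ih =>
    have e : VV s S (c + 1) R x = VV s S c R x + al s S c R • (x (c + 1) - x c) := by
      rw [VV, VV, sum_range_succ, add_assoc]
    rcases ih with ih | ⟨j, hj, a, h1, ih⟩
    · rcases le_or_gt R (s c) with h1 | h1
      · left; rw [e, ih, h.al_one h1]; simp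
      · refine Or.inr ⟨c, Nat.lt_succ_self c, al s S c R, h1, ?_⟩
        rw [e, ih]; module
    · refine Or.inr ⟨j, by omega, a, h1, ?_⟩
      rw [e, ih, h.al_zero (by linarith [h.S_le hj, h.pos j])]; simp

lemma Scales.half_le_norm (h : Scales Λ s S) (c : ℕ) (R : ℝ) {x : ℕ → E} (h1 : ∀ j, ‖x j‖ = 1)
    (h2 : ∀ j, inner ℝ (x j) (x (j + 1)) = 0) : 1 / 2 ≤ ‖VV s S c R x‖ := by
  rcases h.struct c R x with e | ⟨j, -, a, -, e⟩
  · rw [e, h1]; norm_num
  · have h3 : inner ℝ (VV s S c R x) (x j + x (j + 1)) = 1 := by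
      rw [e]
      simp only [inner_add_left, inner_add_right, real_inner_smul_left, real_inner_self_eq_norm_sq,
        h1, h2, real_inner_comm (x j) (x (j + 1))]
      ring
    have h4 := real_inner_le_norm (VV s S c R x) (x j + x (j + 1))
    have h5 := norm_add_le (x j) (x (j + 1))
    rw [h1, h1] at h5
    nlinarith [norm_nonneg (VV s S c R x)]

lemma norm_unit_sub_le {x y : E} (hx : 1 / 2 ≤ ‖x‖) (hy : 1 / 2 ≤ ‖y‖) :
    ‖‖x‖⁻¹ • x - ‖y‖⁻¹ • y‖ ≤ 4 * ‖x - y‖ := by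
  have hx0 : 0 < ‖x‖ := by linarith
  have hy0 : 0 < ‖y‖ := by linarith
  have e : ‖x‖⁻¹ • x - ‖y‖⁻¹ • y = ‖x‖⁻¹ • (x - y) + (‖x‖⁻¹ * ((‖y‖ - ‖x‖) * ‖y‖⁻¹)) • y := by
    have : ‖x‖⁻¹ * ((‖y‖ - ‖x‖) * ‖y‖⁻¹) = ‖x‖⁻¹ - ‖y‖⁻¹ := by field_simp
    rw [this]; module
  have h1 : ‖x‖⁻¹ ≤ 2 := by rw [inv_le_comm₀ hx0 two_pos]; linarith
  have h2 : |‖y‖ - ‖x‖| ≤ ‖x - y‖ := by rw [abs_sub_comm]; exact abs_norm_sub_norm_le x y
  rw [e]
  refine (norm_add_le _ _).trans ?_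
  rw [norm_smul, norm_smul, Real.norm_eq_abs, Real.norm_eq_abs, abs_mul, abs_mul,
    abs_of_pos (inv_pos.2 hx0), abs_of_pos (inv_pos.2 hy0), mul_assoc, mul_assoc,
    inv_mul_cancel₀ hy0.ne', mul_one]
  nlinarith [mul_le_mul h1 h2 (abs_nonneg _) zero_le_two,
    mul_le_mul_of_nonneg_right h1 (norm_nonneg (x - y))]

lemma VV_sub (c : ℕ) (R R' : ℝ) (x y : ℕ → E) : VV s S c R x - VV s S c R' y = (x 0 - y 0) +
    ∑ j ∈ range c, ((al s S j R - al s S j R') • (y (j + 1) - y j) +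
      al s S j R • ((x (j + 1) - y (j + 1)) - (x j - y j))) := by
  rw [VV, VV, add_sub_add_comm, ← sum_sub_distrib]
  congr 1
  exact sum_congr rfl fun j _ => by module

omit [InnerProductSpace ℝ E] in
lemma norm_sub_le_two {y : ℕ → E} (h1 : ∀ j, ‖y j‖ = 1) (i j : ℕ) : ‖y i - y j‖ ≤ 2 := by
  linarith [norm_sub_le (y i) (y j), h1 i, h1 j]

lemma Scales.VV_lip (h : Scales Λ s S) (hΛ : ∀ j, 0 ≤ Λ j) (c : ℕ) {R R' d : ℝ} {x y : ℕ → E}
    (h1 : ∀ j, ‖y j‖ = 1) (h0 : 0 ≤ R) (hR : R ≤ R') (hd : R' - R ≤ d) (e0 : x 0 = y 0)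
    (hl : ∀ j, ‖x j - y j‖ ≤ Λ j * d) :
    ‖VV s S c R x - VV s S c R' y‖ ≤ 3 * d * ∑ j ∈ range c, gg s S j R / LL j := by
  have d0 : 0 ≤ d := by linarith
  rw [VV_sub, e0, sub_self, zero_add, mul_sum]
  refine (norm_sum_le _ _).trans (sum_le_sum fun j _ => (norm_add_le _ _).trans ?_)
  rw [norm_smul, norm_smul, Real.norm_of_nonneg (sub_nonneg.2 (h.al_anti j hR)),
    Real.norm_of_nonneg (h.al_nonneg j R)]
  have g0 : 0 ≤ gg s S j R / LL j := div_nonneg (h.gg_nonneg j R) (LL_pos j).le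
  have a1 := mul_le_mul ((h.al_sub j h0 hR).trans (mul_le_mul_of_nonneg_right hd g0))
    (norm_sub_le_two h1 (j + 1) j) (norm_nonneg _) (mul_nonneg d0 g0)
  have a2 := mul_le_mul_of_nonneg_left ((norm_sub_le _ _).trans (add_le_add (hl (j + 1)) (hl j)))
    (h.al_nonneg j R)
  nlinarith [mul_le_mul_of_nonneg_right (h.al_mul hΛ j R) d0]

lemma VV_same (c : ℕ) (R R' : ℝ) {x y : ℕ → E} (h1 : ∀ j, ‖y j‖ = 1) (e : ∀ j ≤ c, x j = y j) :
    ‖VV s S c R x - VV s S c R' y‖ ≤ 2 * ∑ j ∈ range c, |al s S j R - al s S j R'| := by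
  rw [VV_sub, e 0 (Nat.zero_le _), sub_self, zero_add, mul_sum]
  refine (norm_sum_le _ _).trans (sum_le_sum fun j hj => ?_)
  have hj := mem_range.1 hj
  rw [e j hj.le, e (j + 1) hj, sub_self, sub_self, sub_self, smul_zero, add_zero, norm_smul,
    Real.norm_eq_abs, mul_comm]
  exact mul_le_mul_of_nonneg_right (norm_sub_le_two h1 _ _) (abs_nonneg _)

end Vec

lemma Scales.VV_coord (h : Scales Λ s S) {c : ℕ} {R : ℝ} {x : ℕ → Fib} {t : ℝ} {k : ℕ}
    (hk : (t • VV s S c R x) k ≠ 0) :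
    ∃ j' ≤ c, x j' k ≠ 0 ∧ ∀ j, j + 1 ≤ c → R ≤ s j → j + 1 ≤ j' := by
  rcases h.struct c R x with e | ⟨j, hj, a, h1, e⟩
  · refine ⟨c, le_rfl, fun h0 => hk ?_, fun j hj _ => hj⟩
    rw [e]; simp [h0]
  · have key : ∀ i, R ≤ s i → i + 1 ≤ j := fun i hi => by
      by_contra hc
      linarith [h.s_anti (by omega : j ≤ i)]
    by_cases h0 : x j k = 0
    · refine ⟨j + 1, hj, fun h0' => hk ?_, fun i _ hi => (key i hi).trans (Nat.le_succ j)⟩
      rw [e]; simp [h0, h0']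
    · exact ⟨j, hj.le, h0, fun i _ hi => key i hi⟩

lemma inner_eq_zero_of {x y : Fib} (h : ∀ k, x k ≠ 0 → y k ≠ 0 → False) : inner ℝ x y = 0 := by
  rw [lp.inner_eq_tsum]
  have : ∀ k, inner ℝ (x k) (y k) = 0 := fun k => by
    by_cases h1 : x k = 0
    · simp [h1]
    · by_cases h2 : y k = 0
      · simp [h2]
      · exact (h k h1 h2).elim
  simp only [this, tsum_zero]

end Crest.Agent.R91.PsiAux
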